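import Vale.Agent.P253Y.Res.Sk
import Vale.Agent.P297Z.Diff.Coord

/-! The vector fields dual to two parameters of a local ring. -/

set_option linter.all false

open IsLocalRing Polynomial

namespace Vale.Agent.P253Y.Res

open Vale.Agent.P297Z Vale.Agent.P297Z.Sf

variable {K : Type} [Field K] [Algebra ℂ K]

namespace Dz

/-- the differential in two coordinates -/
def dv (d : Fin 2 → Derivation ℂ K K) : K →ₗ[ℂ] K × K :=
  (d 0).toLinearMap.prod (d 1).toLinearMap

theorem dv_mul (d : Fin 2 → Derivation ℂ K K) (a b : K) :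
    dv d (a * b) = a • dv d b + b • dv d a := Prod.ext ((d 0).leibniz a b) ((d 1).leibniz a b)

theorem dv_const (d : Fin 2 → Derivation ℂ K K) (c : ℂ) : dv d (algebraMap ℂ K c) = 0 :=
  Prod.ext ((d 0).map_algebraMap c) ((d 1).map_algebraMap c)

theorem dv_frac (d : Fin 2 → Derivation ℂ K K) {f a b : K} (hb : b ≠ 0) (e : f * b = a) :
    dv d f = b⁻¹ • (dv d a - f • dv d b) := by
  rw [← e, dv_mul, add_sub_cancel_left, smul_smul, inv_mul_cancel₀ hb, one_smul]

/-- the differentials of the parameters generate -/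
theorem dv_gen (d : Fin 2 → Derivation ℂ K K) {O : Subalgebra ℂ K} {u v : K} (h : Geo O)
    (hp : Par O u v) {a : K} (ha : a ∈ O) :
    ∃ α ∈ O, ∃ β ∈ O, dv d a = α • dv d u + β • dv d v := by
  have := h.isLocalRing
  obtain ⟨A, h1, -, m, hm, e⟩ := id h
  obtain ⟨T, hT⟩ := A.fg_iff_finiteType.2 h1
  have hA : A ≤ O := e ▸ le_loc A m hm.isPrime
  let N : Submodule O (K × K) := Submodule.span O (dv d '' T)
  have sm : ∀ r ∈ O, ∀ x ∈ N, r • x ∈ N := fun r hr x hx => N.smul_mem ⟨r, hr⟩ hx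
  have k1 : ∀ a ∈ Algebra.adjoin ℂ (T : Set K), dv d a ∈ N := fun a ha => by
    induction ha using Algebra.adjoin_induction with
    | mem x hx => exact Submodule.subset_span ⟨x, hx, rfl⟩
    | algebraMap c => rw [dv_const]; exact zero_mem _
    | add x y _ _ hx hy => rw [map_add]; exact add_mem hx hy
    | mul x y h1 h2 hx hy =>
      rw [dv_mul]
      exact add_mem (sm _ (hA (hT ▸ h1)) _ hy) (sm _ (hA (hT ▸ h2)) _ hx)
  rw [hT] at k1
  have k2 : ∀ a ∈ O, dv d a ∈ N := fun a ha => by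
    obtain ⟨b, c, hc, e'⟩ := mem_loc.1 (e ▸ ha)
    rw [dv_frac d (ne_zero_of_notMem hc) e']
    exact sm _ (e ▸ inv_mem_loc hm.isPrime hc) _ (sub_mem (k1 _ b.2) (sm _ ha _ (k1 _ c.2)))
  have k3 : N ≤ Submodule.span O {dv d u, dv d v} := by
    refine Submodule.le_of_le_smul_of_le_jacobson_bot (I := maximalIdeal O)
      (Submodule.fg_span (T.finite_toSet.image _)) (jacobson_eq_maximalIdeal _ bot_ne_top).ge
      (Submodule.span_le.2 ?_)
    rintro _ ⟨b, hb, rfl⟩
    obtain ⟨c, hc⟩ := h.val (hA (hT ▸ Algebra.subset_adjoin hb))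
    obtain ⟨α, hα, β, hβ, h7⟩ := hp.2.2 _ hc
    have h6 : dv d b = (α • dv d u + β • dv d v) + (u • dv d α + v • dv d β) := by
      have h8 := congrArg (dv d) h7
      rw [map_sub, dv_const, sub_zero, map_add, dv_mul, dv_mul] at h8
      rw [h8]
      abel
    change dv d b ∈ _
    rw [h6]
    refine Submodule.add_mem_sup (Submodule.mem_span_pair.2 ⟨⟨α, hα⟩, ⟨β, hβ⟩, rfl⟩)
      (add_mem ?_ ?_)
    · exact Submodule.smul_mem_smul (r := ⟨u, hp.1.1⟩) ((van_iff _).2 hp.1) (k2 _ hα)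
    · exact Submodule.smul_mem_smul (r := ⟨v, hp.2.1.1⟩) ((van_iff _).2 hp.2.1) (k2 _ hβ)
  obtain ⟨α, β, e⟩ := Submodule.mem_span_pair.1 (k3 (k2 a ha))
  exact ⟨α, α.2, β, β.2, e.symm⟩

theorem jc_ne {d : Fin 2 → Derivation ℂ K K} {y : Fin 2 → K} (hd : P297Z.Diff.Coord y d)
    {O : Subalgebra ℂ K} [IsFractionRing O K] {s t : K}
    (key : ∀ a ∈ O, ∃ α ∈ O, ∃ β ∈ O, dv d a = α • dv d s + β • dv d t) :
    d 0 s * d 1 t - d 1 s * d 0 t ≠ 0 := by
  have d00 : d 0 (y 0) = 1 := hd.dual 0 0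
  have d01 : d 0 (y 1) = 0 := hd.dual 0 1
  have d10 : d 1 (y 0) = 0 := hd.dual 1 0
  have d11 : d 1 (y 1) = 1 := hd.dual 1 1
  have h1 : ∀ a : K, dv d a ∈ Submodule.span K {dv d s, dv d t} := fun a => by
    have h2 : ∀ b : O, dv d b ∈ Submodule.span K {dv d s, dv d t} := fun b => by
      obtain ⟨α, -, β, -, e⟩ := key _ b.2
      exact Submodule.mem_span_pair.2 ⟨α, β, e.symm⟩
    obtain ⟨b, c, hc, rfl⟩ := IsFractionRing.div_surjective (A := O) a
    have h3 : (c : K) ≠ 0 := fun o => nonZeroDivisors.ne_zero hc (Subtype.ext o)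
    change dv d ((b : K) / c) ∈ _
    rw [dv_frac d h3 (div_mul_cancel₀ _ h3)]
    exact Submodule.smul_mem _ _ (sub_mem (h2 b) (Submodule.smul_mem _ _ (h2 c)))
  intro o
  obtain ⟨α, β, e⟩ := Submodule.mem_span_pair.1 (h1 (y 0))
  obtain ⟨α', β', e'⟩ := Submodule.mem_span_pair.1 (h1 (y 1))
  have a1 : α * d 0 s + β * d 0 t = 1 := (congrArg Prod.fst e).trans d00
  have a2 : α * d 1 s + β * d 1 t = 0 := (congrArg Prod.snd e).trans d10
  have a3 : α' * d 0 s + β' * d 0 t = 0 := (congrArg Prod.fst e').trans d01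
  have a4 : α' * d 1 s + β' * d 1 t = 1 := (congrArg Prod.snd e').trans d11
  have a5 : (α * β' - β * α') * (d 0 s * d 1 t - d 1 s * d 0 t) = 1 := by
    linear_combination (α' * d 1 s + β' * d 1 t) * a1 - (α' * d 0 s + β' * d 0 t) * a2 + a4
  rw [o, mul_zero] at a5
  exact zero_ne_one a5

/-- an element with derivative one is transcendental over the constants -/
theorem trans_of_der {R : Type} [CommRing R] [IsDomain R] [CharZero R] [Algebra R K]
    [FaithfulSMul R K] (δ : Derivation ℂ K K) (hR : ∀ r : R, δ (algebraMap R K r) = 0) {x : K}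
    (hx : δ x = 1) : Transcendental R x := by
  have h1 : ∀ p : R[X], δ (aeval x p) = aeval x (derivative p) := fun p => by
    induction p using Polynomial.induction_on' with
    | add p q hp hq => rw [map_add, map_add, hp, hq, derivative_add, map_add]
    | monomial n c =>
      rw [derivative_monomial, aeval_monomial, aeval_monomial, Derivation.leibniz, hR, smul_zero,
        add_zero, Derivation.leibniz_pow, hx, map_mul, map_natCast]
      simp only [smul_eq_mul, nsmul_eq_mul, mul_one, mul_assoc]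
  have h2 : ∀ (n : ℕ) (p : R[X]), p.natDegree ≤ n → aeval x p = 0 → p = 0 := by
    have h3 : ∀ p : R[X], p.natDegree = 0 → aeval x p = 0 → p = 0 := fun p h0 hp => by
      rw [eq_C_of_natDegree_eq_zero h0, aeval_C] at hp
      rw [eq_C_of_natDegree_eq_zero h0, (map_eq_zero_iff _
        (FaithfulSMul.algebraMap_injective R K)).1 hp, C_0]
    intro n
    induction n with
    | zero => exact fun p hp => h3 p (Nat.le_zero.1 hp)
    | succ n ih =>
      refine fun p hp h0 => h3 p (natDegree_eq_zero_of_derivative_eq_zero (ih _ ?_ ?_)) h0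
      · have := natDegree_derivative_le p
        omega
      · rw [← h1, h0, map_zero]
  rintro ⟨p, hp, h0⟩
  exact hp (h2 _ p le_rfl h0)

theorem indep {u v : K} (δ₁ δ₂ : Derivation ℂ K K) (h1 : δ₁ u = 1) (h2 : δ₁ v = 0)
    (h3 : δ₂ v = 1) : AlgebraicIndependent ℂ ![u, v] := by
  have a1 : AlgebraicIndependent ℂ fun _ : Unit => v :=
    algebraicIndependent_unique_type_iff.2 (trans_of_der δ₂ δ₂.map_algebraMap h3)
  have : CharZero K := charZero_of_injective_algebraMap (algebraMap ℂ K).injective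
  have a2 := (a1.option_iff_transcendental u).2 (trans_of_der δ₁ (fun r => by
    obtain ⟨r, hr⟩ := r
    change δ₁ r = 0
    induction hr using Algebra.adjoin_induction with
    | mem x hx => obtain ⟨_, rfl⟩ := hx; exact h2
    | algebraMap c => exact δ₁.map_algebraMap c
    | add x y _ _ hx hy => rw [map_add, hx, hy, add_zero]
    | mul x y _ _ hx hy => rw [Derivation.leibniz, hx, hy, smul_zero, smul_zero, add_zero]) h1)
  convert a2.comp ![none, some ()] (by decide) using 1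
  funext i
  fin_cases i <;> rfl

end Dz

open Dz in
/-- the dual vector fields with all their values -/
theorem derz' (htd : Algebra.trdeg ℂ K = 2) {O : Subalgebra ℂ K} {u v : K} (h : Geo O)
    (hp : Par O u v) : ∃ δ₁ δ₂ : Derivation ℂ K K, (∀ f ∈ O, δ₁ f ∈ O ∧ δ₂ f ∈ O) ∧
      δ₁ u = 1 ∧ δ₁ v = 0 ∧ δ₂ u = 0 ∧ δ₂ v = 1 := by
  obtain ⟨ι, y, hy⟩ := exists_isTranscendenceBasis' ℂ K
  obtain ⟨e⟩ : Nonempty (Fin 2 ≃ ι) := Cardinal.eq.1 (by simp [hy.cardinalMk_eq_trdeg, htd])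
  obtain ⟨d, hd⟩ := P297Z.Diff.exists_coord (hy.comp_equiv e)
  have := h.frac
  have key := fun a => dv_gen d h hp (a := a)
  have hJ := jc_ne hd key
  let δ₁ := (d 0 u * d 1 v - d 1 u * d 0 v)⁻¹ • (d 1 v • d 0 - d 0 v • d 1)
  let δ₂ := (d 0 u * d 1 v - d 1 u * d 0 v)⁻¹ • (d 0 u • d 1 - d 1 u • d 0)
  have v1 : ∀ a, δ₁ a = (d 0 u * d 1 v - d 1 u * d 0 v)⁻¹ * (d 1 v * d 0 a - d 0 v * d 1 a) :=
    fun a => by simp [δ₁]
  have v2 : ∀ a, δ₂ a = (d 0 u * d 1 v - d 1 u * d 0 v)⁻¹ * (d 0 u * d 1 a - d 1 u * d 0 a) :=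
    fun a => by simp [δ₂]
  refine ⟨δ₁, δ₂, fun a ha => ?_, ?_, ?_, ?_, ?_⟩
  · obtain ⟨α, hα, β, hβ, e⟩ := key a ha
    have a1 : d 0 a = α * d 0 u + β * d 0 v := congrArg Prod.fst e
    have a2 : d 1 a = α * d 1 u + β * d 1 v := congrArg Prod.snd e
    have b1 : δ₁ a = α := by
      rw [v1, a1, a2, inv_mul_eq_iff_eq_mul₀ hJ]
      ring
    have b2 : δ₂ a = β := by
      rw [v2, a1, a2, inv_mul_eq_iff_eq_mul₀ hJ]
      ring
    rw [b1, b2]
    exact ⟨hα, hβ⟩
  · rw [v1, inv_mul_eq_iff_eq_mul₀ hJ]; ring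
  · rw [v1, inv_mul_eq_iff_eq_mul₀ hJ]; ring
  · rw [v2, inv_mul_eq_iff_eq_mul₀ hJ]; ring
  · rw [v2, inv_mul_eq_iff_eq_mul₀ hJ]; ring

theorem derz : DERZ := by
  intro K _ _ htd O u v h hp
  obtain ⟨δ₁, δ₂, r, a1, a2, a3, a4⟩ := derz' htd h hp
  refine ⟨Dz.indep δ₁ δ₂ a1 a2 a4, δ₁, δ₂, fun f hf => (r f hf).1, fun f hf => (r f hf).2, ?_⟩
  rw [wedge, a1, a2, a4, zero_mul, sub_zero, mul_one]

end Vale.Agent.P253Y.Res
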