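import Vale.Agent.P297Y.Ctr.Alg
import Vale.Agent.P297Y.Ctr.Defs

/-! Resolution of singularities of surfaces inside their function field: definitions. -/

set_option linter.all false

open IsLocalRing Polynomial

namespace Vale.Agent.P253Y.Res

open Vale.Agent.P297Z Vale.Agent.P297Z.Sf

variable {K : Type} [Field K] [Algebra ℂ K]

/-! ### Local rings inside a field -/

/-- `f` is a non unit of `O`. -/
def Van (O : Subalgebra ℂ K) (f : K) : Prop := f ∈ O ∧ (f = 0 ∨ f⁻¹ ∉ O)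

/-- `f` is a unit of `O`. -/
def Un (O : Subalgebra ℂ K) (f : K) : Prop := f ≠ 0 ∧ f ∈ O ∧ f⁻¹ ∈ O

/-- `u` and `v` generate the maximal ideal of `O`. -/
def Par (O : Subalgebra ℂ K) (u v : K) : Prop :=
  Van O u ∧ Van O v ∧ ∀ f, Van O f → ∃ a ∈ O, ∃ b ∈ O, f = a * u + b * v

/-- The maximal ideal of `O` has two generators. -/
def Two (O : Subalgebra ℂ K) : Prop := ∃ u v, Par O u v

/-- `O` is the local ring of a closed point of an affine model of `K`. -/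
def Geo (O : Subalgebra ℂ K) : Prop :=
  ∃ A : Subalgebra ℂ K, Algebra.FiniteType ℂ A ∧ IsFractionRing A K ∧
    ∃ (m : Ideal A) (hm : m.IsMaximal), O = loc A m hm.isPrime

/-- `R` dominates `O`. -/
def Dm (O R : Subalgebra ℂ K) : Prop := O ≤ R ∧ ∀ f ∈ O, f⁻¹ ∈ R → f⁻¹ ∈ O

/-- `R` is a localisation of the algebra generated by `G`. -/
def Ess (G : Set K) (R : Subalgebra ℂ K) : Prop :=
  (∀ g ∈ G, g ∈ R) ∧
    ∀ f ∈ R, ∃ a ∈ Algebra.adjoin ℂ G, ∃ b ∈ Algebra.adjoin ℂ G, Un R b ∧ f * b = a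

/-- The blowing up of some ideal that is primary for the maximal ideal resolves `B`. -/
def Good (B : Subalgebra ℂ K) : Prop :=
  ∃ T : Finset K, (∀ t ∈ T, t ∈ B) ∧
    (∀ f, Van B f → ∃ k : ℕ, f ^ k ∈ Submodule.span B (T : Set K)) ∧
    ∀ h ∈ T, h ≠ 0 → ∀ R : Subalgebra ℂ K, Geo R → Dm B R →
      Ess ((B : Set K) ∪ (fun t => t / h) '' (T : Set K)) R → Two R

/-- A projective model, possibly singular. -/
structure Mdl (W : Submodule ℂ K) : Prop where
  fin : FiniteDimensional ℂ W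
  ne : W ≠ ⊥
  frac : ∀ w ∈ W, w ≠ 0 → IsFractionRing (chart W w) K

/-- The properties of a regular local ring of dimension two. -/
structure Reg (O : Subalgebra ℂ K) (u v : O) : Prop where
  prin : ∀ p : Ideal O, p.IsPrime → ¬ p.IsMaximal → p.IsPrincipal
  ufd : UniqueFactorizationMonoid O
  pu : Prime u
  pv : Prime v
  nd : ¬ u ∣ v
  nd' : ¬ v ∣ u
  reg : IsRegularLocalRing O

/-- A toric singularity: the maximal ideal is generated by monomials. -/
structure Tor (B : Subalgebra ℂ K) (n n' : ℕ) (Λ : AddSubgroup (ℤ × ℤ)) (φ : ℤ × ℤ → K) :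
    Prop where
  fst : ((n : ℤ), (0 : ℤ)) ∈ Λ
  snd : ((0 : ℤ), (n' : ℤ)) ∈ Λ
  mul : ∀ l ∈ Λ, ∀ l' ∈ Λ, Un B (φ (l + l') / (φ l * φ l'))
  van : ∀ l ∈ Λ, 0 ≤ l → l ≠ 0 → Van B (φ l)
  gen : ∀ f, Van B f → f ∈ Submodule.span B (φ '' {l | l ∈ Λ ∧ 0 ≤ l ∧ l ≠ 0})

/-! ### Finite extensions -/

section Ext

variable {L : Type} [Field L] [Algebra ℂ L]

variable (K) in
/-- The integral closure of `A` in `K`. -/
def icl [Algebra L K] [IsScalarTower ℂ L K] (A : Subalgebra ℂ L) : Subalgebra ℂ K :=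
  (integralClosure A K).restrictScalars ℂ

theorem mem_icl [Algebra L K] [IsScalarTower ℂ L K] {A : Subalgebra ℂ L} {f : K} :
    f ∈ icl K A ↔ IsIntegral A f := Iff.rfl

variable (K) in
/-- The extension is unramified over `A` outside the zeros of `g`. -/
def Ram [Algebra L K] (A : Subalgebra ℂ L) (g : L) : Prop :=
  ∃ (θ : K) (F : A[X]) (N : ℕ), F.Monic ∧ aeval θ F = 0 ∧ IntermediateField.adjoin L {θ} = ⊤ ∧
    aeval θ (derivative F) ≠ 0 ∧ IsIntegral A (algebraMap L K g ^ N / aeval θ (derivative F))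

variable (K) in
/-- The integer `n` is a multiple of the ramification indices over `u`. -/
def Abh [Algebra L K] (A : Subalgebra ℂ L) (u v : L) (n : ℕ) : Prop :=
  ∀ (κ : K) (a c : ℕ) (y : K), y = algebraMap L K u ^ a * algebraMap L K v ^ c * κ ^ n →
    IsIntegral A y → (∃ k : ℕ, IsIntegral A (y ^ k / algebraMap L K u)) →
    IsIntegral A (y / algebraMap L K u)

/-- `s` generates a radical ideal of the integral closure of `A`. -/
def RadI [Algebra L K] (A : Subalgebra ℂ L) (s : K) : Prop :=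
  ∀ f : K, IsIntegral A f → (∃ k : ℕ, IsIntegral A (f ^ k / s)) → IsIntegral A (f / s)

/-- `s` and `t` generate a radical ideal of the integral closure of `A`. -/
def Rad2 [Algebra L K] (A : Subalgebra ℂ L) (s t : K) : Prop :=
  ∀ f : K, IsIntegral A f →
    (∃ (k : ℕ) (a b : K), IsIntegral A a ∧ IsIntegral A b ∧ f ^ k = s * a + t * b) →
    ∃ a b : K, IsIntegral A a ∧ IsIntegral A b ∧ f = s * a + t * b

end Ext

variable (K) in
/-- A Kummer extension with the projections on the eigenspaces of the Galois group. -/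
structure Kum (K' : Type) [Field K'] [Algebra ℂ K'] [Algebra K K'] (u v : K) (n n' : ℕ) where
  /-- the root of `u` -/
  s : K'
  /-- the root of `v` -/
  t : K'
  /-- the projections -/
  P : ℤ → ℤ → K' →ₗ[ℂ] K'
  hs : s ^ n = algebraMap K K' u
  ht : t ^ n' = algebraMap K K' v
  s_ne : s ≠ 0
  t_ne : t ≠ 0
  top : IntermediateField.adjoin K {s, t} = ⊤
  hom : ∀ a c f, ∃ κ : K, P a c f = s ^ a * t ^ c * algebraMap K K' κ
  fix : ∀ (a c : ℤ) (κ : K),
    P a c (s ^ a * t ^ c * algebraMap K K' κ) = s ^ a * t ^ c * algebraMap K K' κ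
  ms : ∀ a c f, P (a + 1) c (s * f) = s * P a c f
  mt : ∀ a c f, P a (c + 1) (t * f) = t * P a c f
  stab : ∀ I : Submodule ℂ K', (∀ σ : K' ≃ₐ[K] K', ∀ f ∈ I, σ f ∈ I) →
    ∀ a c, ∀ f ∈ I, P a c f ∈ I
  gal : ∀ σ : K' ≃ₐ[K] K', ∃ ζ η : ℂ, ζ ≠ 0 ∧ η ≠ 0 ∧ σ s = ζ • s ∧ σ t = η • t
  sum : ∃ z : ℂ, z ≠ 0 ∧ ∀ f,
    z • f = ∑ a ∈ Finset.range n, ∑ c ∈ Finset.range n', P (a : ℤ) (c : ℤ) f

/-- Exchange of the two roots. -/
def Kum.swap {K' : Type} [Field K'] [Algebra ℂ K'] [Algebra K K'] {u v : K} {n n' : ℕ}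
    (k : Kum K K' u v n n') : Kum K K' v u n' n where
  s := k.t
  t := k.s
  P a c := k.P c a
  hs := k.ht
  ht := k.hs
  s_ne := k.t_ne
  t_ne := k.s_ne
  top := by rw [Set.pair_comm]; exact k.top
  hom a c f := by rw [mul_comm (k.t ^ a)]; exact k.hom c a f
  fix a c κ := by rw [mul_comm (k.t ^ a)]; exact k.fix c a κ
  ms a c f := k.mt c a f
  mt a c f := k.ms c a f
  stab I h a c := k.stab I h c a
  gal σ := by
    obtain ⟨ζ, η, h1, h2, h3, h4⟩ := k.gal σ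
    exact ⟨η, ζ, h2, h1, h4, h3⟩
  sum := by
    obtain ⟨z, hz, h⟩ := k.sum
    exact ⟨z, hz, fun f => (h f).trans Finset.sum_comm⟩

/-! ### Smooth surfaces -/

/-- The curves of `D` are smooth and have normal crossings. -/
def Snc (S : Surf K) (D : Finset (Crv S.W)) : Prop :=
  ∀ x : Pt S.W, ∃ u v : x.ring, maximalIdeal x.ring = Ideal.span {u, v} ∧
    ∀ C ∈ D, x.On C → 0 < C.ord u ∨ 0 < C.ord v

/-- The point `x` is not on `D`. -/
def Off {W : Submodule ℂ K} (D : Finset (Crv W)) (x : Pt W) : Prop := ∀ C ∈ D, ¬ x.On C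

/-- `S'` is the blowing up of `S` at `x`. -/
structure Blow (S S' : Surf K) (x : Pt S.W) where
  /-- the exceptional curve -/
  E : Crv S'.W
  /-- the strict transform -/
  ι : Crv S.W → Crv S'.W
  pl : ∀ C, (ι C).pl = C.pl
  ne : ∀ C, ι C ≠ E
  all : ∀ C', C' = E ∨ ∃ C, ι C = C'
  /-- the map on points -/
  π : Pt S'.W → Pt S.W
  dom : Dominates π
  surj : Function.Surjective π
  off : ∀ y, π y ≠ x → y.ring = (π y).ring
  onE : ∀ y, y.On E ↔ π y = x
  ordE : ∀ (g : x.ring) (n : ℕ), g ≠ 0 → ((n : ℤ) ≤ E.ord g ↔ g ∈ maximalIdeal x.ring ^ n)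
  dir : ∀ u v, Par x.ring u v → ∀ y, π y = x → v / u ∈ y.ring ∨ u / v ∈ y.ring
  /-- the multiplicity at `x` -/
  μ : Sf.Div S.W →+ ℤ
  μ_eq : ∀ (D : Sf.Div S.W) (s : K), GenAt x (-D) s → μ D = E.ord s
  int : ∀ (D₁ D₂ : Sf.Div S.W) (a b : ℤ),
    inter (Finsupp.mapDomain ι D₁ + Finsupp.single E a)
      (Finsupp.mapDomain ι D₂ + Finsupp.single E b) = inter D₁ D₂ - (a - μ D₁) * (b - μ D₂)
  kap : ∀ (D : Sf.Div S.W) (a : ℤ),
    inter S'.kap (Finsupp.mapDomain ι D + Finsupp.single E a) = inter S.kap D - (a - μ D)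

/-- Every valuation with centre `z` has its centre on `S` over `z`. -/
def Over (S : Surf K) (z : Subalgebra ℂ K) : Prop :=
  ∀ (x : Pt S.W) (V : ValuationSubring K), Ct.Dom x.ring V → Ct.Dom z V → z ≤ x.ring

/-- The centres of the valuations. -/
structure Cent (S : Surf K) : Prop where
  ex : ∀ V : ValuationSubring K, (∀ c, algebraMap ℂ K c ∈ V) → V ≠ ⊤ →
    (∃ x : Pt S.W, Ct.Dom x.ring V) ∨ ∃ C : Crv S.W, C.pl.ring = V
  uniq : ∀ (V : ValuationSubring K) (x y : Pt S.W), Ct.Dom x.ring V → Ct.Dom y.ring V → x = y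
  not_crv : ∀ (x : Pt S.W) (C : Crv S.W), ¬ Ct.Dom x.ring C.pl.ring
  lift : ∀ (x : Pt S.W) (C : Crv S.W), x.On C →
    ∃ V : ValuationSubring K, V < C.pl.ring ∧ Ct.Dom x.ring V

/-! ### Elementary facts -/

theorem van_iff {O : Subalgebra ℂ K} [IsLocalRing O] (a : O) : a ∈ maximalIdeal O ↔ Van O a := by
  rw [mem_max_iff, Van]
  have := a.2
  tauto

theorem un_iff {O : Subalgebra ℂ K} (a : O) : IsUnit a ↔ Un O a := by
  rw [isUnit_iff_inv, Un]
  have := a.2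
  tauto

theorem van_or_un {O : Subalgebra ℂ K} {f : K} (hf : f ∈ O) : Van O f ∨ Un O f := by
  unfold Van Un
  tauto

theorem Van.not_un {O : Subalgebra ℂ K} {f : K} (h : Van O f) : ¬ Un O f := by
  unfold Van Un at *
  tauto

theorem pt_van {W : Submodule ℂ K} (x : Pt W) (f : K) : x.Van f ↔ Van x.ring f := Iff.rfl

theorem Un.mul {O : Subalgebra ℂ K} {f g : K} (hf : Un O f) (hg : Un O g) : Un O (f * g) :=
  ⟨mul_ne_zero hf.1 hg.1, mul_mem hf.2.1 hg.2.1, by rw [mul_inv]; exact mul_mem hf.2.2 hg.2.2⟩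

theorem Un.inv {O : Subalgebra ℂ K} {f : K} (hf : Un O f) : Un O f⁻¹ :=
  ⟨inv_ne_zero hf.1, hf.2.2, by rw [inv_inv]; exact hf.2.1⟩

theorem Un.mono {O R : Subalgebra ℂ K} {f : K} (hf : Un O f) (h : O ≤ R) : Un R f :=
  ⟨hf.1, h hf.2.1, h hf.2.2⟩

theorem Dm.van {O R : Subalgebra ℂ K} (h : Dm O R) {f : K} (hf : Van O f) : Van R f :=
  ⟨h.1 hf.1, hf.2.imp_right fun h1 h2 => h1 (h.2 f hf.1 h2)⟩

theorem Par.symm {O : Subalgebra ℂ K} {u v : K} (h : Par O u v) : Par O v u :=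
  ⟨h.2.1, h.1, fun f hf => by
    obtain ⟨a, ha, b, hb, e⟩ := h.2.2 f hf
    exact ⟨b, hb, a, ha, by rw [e, add_comm]⟩⟩

theorem par_iff {O : Subalgebra ℂ K} [IsLocalRing O] (u v : O) :
    maximalIdeal O = Ideal.span {u, v} ↔ Par O u v := by
  constructor
  · intro h
    refine ⟨(van_iff u).1 (h ▸ Ideal.subset_span (by simp)),
      (van_iff v).1 (h ▸ Ideal.subset_span (by simp)), fun f hf => ?_⟩
    have h1 := (van_iff (⟨f, hf.1⟩ : O)).2 hf
    rw [h, Ideal.mem_span_pair] at h1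
    obtain ⟨a, b, e⟩ := h1
    exact ⟨a, a.2, b, b.2, (congrArg Subtype.val e).symm⟩
  · rintro ⟨h1, h2, h3⟩
    refine le_antisymm (fun f hf => ?_) (Ideal.span_le.2 ?_)
    · obtain ⟨a, ha, b, hb, e⟩ := h3 f ((van_iff f).1 hf)
      exact Ideal.mem_span_pair.2 ⟨⟨a, ha⟩, ⟨b, hb⟩, Subtype.ext e.symm⟩
    · rintro f (rfl | rfl)
      · exact (van_iff _).2 h1
      · exact (van_iff _).2 h2

theorem Geo.isLocalRing {O : Subalgebra ℂ K} (h : Geo O) : IsLocalRing O := by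
  obtain ⟨A, -, -, m, hm, rfl⟩ := h
  infer_instance

theorem Geo.noeth {O : Subalgebra ℂ K} (h : Geo O) : IsNoetherianRing O := by
  obtain ⟨A, h1, -, m, hm, rfl⟩ := h
  have : IsNoetherianRing A := Algebra.FiniteType.isNoetherianRing ℂ _
  have := hm.isPrime
  exact IsLocalization.isNoetherianRing m.primeCompl _ inferInstance

theorem Geo.frac {O : Subalgebra ℂ K} (h : Geo O) : IsFractionRing O K := by
  obtain ⟨A, -, h2, m, hm, rfl⟩ := h
  exact isFractionRing_of_le (le_loc A m hm.isPrime)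

theorem Geo.val {O : Subalgebra ℂ K} (h : Geo O) {f : K} (hf : f ∈ O) :
    ∃ c : ℂ, Van O (f - algebraMap ℂ K c) := by
  obtain ⟨A, h1, -, m, hm, rfl⟩ := h
  obtain ⟨c, hc⟩ := hasVal_loc m hm ⟨f, hf⟩
  exact ⟨c, (van_iff _).1 hc⟩

theorem Geo.hasVal {O : Subalgebra ℂ K} [IsLocalRing O] (h : Geo O) : HasVal O := fun f => by
  obtain ⟨c, hc⟩ := h.val f.2
  exact ⟨c, (van_iff _).2 hc⟩

theorem Geo.dim (htd : Algebra.trdeg ℂ K = 2) {O : Subalgebra ℂ K} (h : Geo O) :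
    ringKrullDim O = 2 := by
  obtain ⟨A, h1, h2, m, hm, rfl⟩ := h
  have := hm.isPrime
  rw [IsLocalization.AtPrime.ringKrullDim_eq_height m (loc A m hm.isPrime),
    height_eq_two htd A m hm]
  rfl

theorem Geo.add {O : Subalgebra ℂ K} (h : Geo O) {f g : K} (hf : Van O f) (hg : Van O g) :
    Van O (f + g) := by
  have := h.isLocalRing
  exact (van_iff (⟨f, hf.1⟩ + ⟨g, hg.1⟩ : O)).1
    (add_mem ((van_iff _).2 hf) ((van_iff _).2 hg))

theorem Van.mul_left {O : Subalgebra ℂ K} {f g : K} (hf : f ∈ O) (hg : Van O g) :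
    Van O (f * g) := by
  refine ⟨mul_mem hf hg.1, ?_⟩
  by_cases h0 : f * g = 0
  · exact Or.inl h0
  refine Or.inr fun h => (hg.2.resolve_left (right_ne_zero_of_mul h0)) ?_
  have : g⁻¹ = f * (f * g)⁻¹ := by field_simp [left_ne_zero_of_mul h0]
  rw [this]
  exact mul_mem hf h

theorem Mdl.geo {W : Submodule ℂ K} (h : Mdl W) (x : Pt W) : Geo x.ring := by
  obtain ⟨w, hw, h0, m, hm, e⟩ := x.prop
  have := h.fin
  exact ⟨chart W w, chart_finiteType w, h.frac w hw h0, m, hm, e⟩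

theorem mdl (S : Surf K) : Mdl S.W := ⟨S.model.fin, S.model.ne, S.model.frac⟩

end Vale.Agent.P253Y.Res
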