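import Vale.Agent.P253Y.Res.Sk

/-! The centres of the valuations on a smooth projective surface. -/

set_option linter.all false

open IsLocalRing Polynomial

namespace Vale.Agent.P253Y.Res

open Vale.Agent.P297Z Vale.Agent.P297Z.Sf

variable {K : Type} [Field K] [Algebra ℂ K]

namespace Cn

theorem dom_ctr {B : Subalgebra ℂ K} {V : ValuationSubring K} {h : ∀ c, algebraMap ℂ K c ∈ V}
    (hle : B ≤ Ct.valAlg V h) : Ct.Dom (loc B (ctr hle) (ctr_isPrime hle)) V := by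
  refine ⟨fun f hf => loc_ctr_le hle hf, ?_⟩
  rintro f ⟨a, b, hb, e⟩ hf
  by_cases h0 : f = 0
  · simp [h0, zero_mem]
  rw [mem_ctr, not_or, not_not] at hb
  refine ⟨b, a, ?_, by rw [← e, inv_mul_cancel_left₀ h0]⟩
  rw [mem_ctr, not_or, not_not, ← e, mul_inv]
  exact ⟨mul_ne_zero h0 hb.1, V.mul_mem _ _ hf hb.2⟩

variable (S : Surf K)

theorem not_crv (x : Pt S.W) (C : Crv S.W) (h : Ct.Dom x.ring C.pl.ring) : False := by
  obtain ⟨a, h1, h2⟩ := SetLike.exists_of_lt (S.on_lt_max (x := x) (C := C) h.1)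
  rw [mem_ctr, not_or, not_not] at h2
  exact ((mem_max_iff a).1 h1).elim h2.1 fun h3 => h3 (h.2 a a.2 h2.2)

theorem van_add {O : Subalgebra ℂ K} [IsLocalRing O] {f g : K} (hf : Van O f) (hg : Van O g) :
    Van O (f + g) :=
  (van_iff (⟨f, hf.1⟩ + ⟨g, hg.1⟩ : O)).1 (add_mem ((van_iff _).2 hf) ((van_iff _).2 hg))

theorem un_add {O : Subalgebra ℂ K} [IsLocalRing O] {f g : K} (hf : Un O f) (hg : Van O g) :
    Un O (f + g) := (van_or_un (add_mem hf.2.1 hg.1)).resolve_left fun h => by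
  have := van_add h (hg.mul_left (neg_mem (one_mem O)))
  rw [neg_one_mul, add_neg_cancel_right] at this
  exact this.not_un hf

/-- the sum of `B` and of the maximal ideal of `O` -/
def plus {B O : Subalgebra ℂ K} [IsLocalRing O] (h : B ≤ O) : Subalgebra ℂ K where
  carrier := {f | ∃ a ∈ B, ∃ m, Van O m ∧ f = a + m}
  mul_mem' := by
    rintro _ _ ⟨a, ha, m, hm, rfl⟩ ⟨b, hb, k, hk, rfl⟩
    exact ⟨a * b, mul_mem ha hb, _, van_add (hk.mul_left (add_mem (h ha) hm.1))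
      (hm.mul_left (h hb)), by ring⟩
  add_mem' := by
    rintro _ _ ⟨a, ha, m, hm, rfl⟩ ⟨b, hb, k, hk, rfl⟩
    exact ⟨a + b, add_mem ha hb, _, van_add hm hk, by ring⟩
  algebraMap_mem' c := ⟨_, B.algebraMap_mem c, 0, ⟨zero_mem _, Or.inl rfl⟩, (add_zero _).symm⟩

theorem un_plus {B O : Subalgebra ℂ K} [IsLocalRing O] (h : B ≤ O) {a m : K} (ha : Un B a)
    (hm : Van O m) : Un (plus h) (a + m) := by
  have h1 := un_add (ha.mono h) hm
  refine ⟨h1.1, ⟨a, ha.2.1, m, hm, rfl⟩, a⁻¹, ha.2.2, _,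
    hm.mul_left (neg_mem (mul_mem (h ha.2.2) h1.2.2)), ?_⟩
  have := ha.1
  have := h1.1
  field_simp
  ring

theorem plus_local {B O : Subalgebra ℂ K} [IsLocalRing B] [IsLocalRing O] (h : B ≤ O) :
    IsLocalRing (plus h) := by
  refine .of_isUnit_or_isUnit_one_sub_self ?_
  rintro ⟨_, a, ha, m, hm, rfl⟩
  refine (isUnit_or_isUnit_one_sub_self (⟨a, ha⟩ : B)).imp
    (fun h1 => (un_iff _).2 (un_plus h ((un_iff _).1 h1) hm)) fun h1 => (un_iff _).2 ?_
  have := un_plus h ((un_iff _).1 h1) (hm.mul_left (neg_mem (one_mem O)))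
  rwa [show ((1 - ⟨a, ha⟩ : B) : K) + -1 * m = 1 - (a + m) by push_cast; ring] at this

end Cn

theorem cent : CENT := fun K _ _ S => by
  refine ⟨fun V h hV => ?_, fun V x y hx hy => ?_, Cn.not_crv S, fun x C h => ?_⟩
  · obtain ⟨i, hi⟩ := S.all.center V h
    have hle : chart S.W (S.x i) ≤ Ct.valAlg V h := chart_le hi
    have hd := Cn.dom_ctr hle
    by_cases hm : (ctr hle).IsMaximal
    · exact Or.inl ⟨⟨_, _, S.x_mem i, S.x_ne i, _, hm, rfl⟩, hd⟩
    obtain ⟨C, hC⟩ := S.crv_of_prime _ (S.x_mem i) (S.x_ne i) _ (ctr_isPrime hle) (fun e => by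
      have := S.model.frac _ (S.x_mem i) (S.x_ne i)
      refine hV (eq_top_iff.2 fun f _ => hd.1 f ?_)
      rw [loc_congr _ Ideal.isPrime_bot e]
      exact mem_loc_bot f) hm
    exact Or.inr ⟨C, Pl.ring_eq_of_le (fun f hf => hd.1 f ((hC f).1 hf)) hV⟩
  · obtain ⟨w, hw, h1⟩ := x.exists_in
    obtain ⟨w', hw', h2⟩ := y.exists_in
    have h3 := hy.2 _ (h2.2 w hw) (by rw [inv_div]; exact hx.1 _ (h1.2 w' hw'))
    have h4 : y.In w := ⟨h1.1, fun a ha => by
      have := mul_mem (h2.2 a ha) h3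
      rwa [inv_div, div_mul_div_cancel₀ h2.1] at this⟩
    refine S.pt_eq_of_ctr hw h1 h4 (Ideal.ext fun a => ?_)
    rw [mem_ctr, mem_ctr]
    exact or_congr_right (not_congr ⟨fun h => hy.2 _ (h4.chart_le a.2) (hx.1 _ h),
      fun h => hx.2 _ (h1.chart_le a.2) (hy.1 _ h)⟩)
  · have := Cn.plus_local h.le
    obtain ⟨V, hV⟩ := Ct.exists_dom (Cn.plus h.le)
    have h1 : ∀ f ∈ x.ring, f ∈ Cn.plus h.le := fun f hf =>
      ⟨f, hf, 0, ⟨zero_mem _, Or.inl rfl⟩, (add_zero _).symm⟩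
    have hd : Ct.Dom x.ring V := ⟨fun f hf => hV.1 f (h1 f hf), fun f hf h2 => by
      obtain ⟨a, ha, m, hm, e⟩ := hV.2 f (h1 f hf) h2
      rcases van_or_un hf with h3 | h3
      swap
      · exact h3.2.2
      by_cases h0 : f = 0
      · simp [h0, zero_mem]
      have h4 := Cn.un_add ⟨one_ne_zero, one_mem _, by simp [one_mem]⟩ (h3.mul_left (neg_mem ha))
      rw [show 1 + -a * f = f * m by rw [← mul_inv_cancel₀ h0, e]; ring] at h4
      exact absurd (h4.mono h.le) (hm.mul_left (h f hf)).not_un⟩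
    refine ⟨V, lt_of_le_of_ne (fun f hf => ?_) fun e => Cn.not_crv S x C (e ▸ hd), hd⟩
    by_contra hc
    obtain ⟨a, ha, m, hm, e⟩ := hV.2 f⁻¹ ⟨0, zero_mem _, f⁻¹, ⟨(C.pl.ring.mem_or_inv_mem f).resolve_left
      hc, Or.inr (by rwa [inv_inv])⟩, (zero_add _).symm⟩ (by rwa [inv_inv])
    rw [inv_inv] at e
    exact hc (e ▸ add_mem (h a ha) hm.1)

theorem finc : FINC := fun K _ _ S A hA hK => by
  classical
  have := S.model.fin
  obtain ⟨s, hs⟩ : S.W.FG := Module.Finite.iff_fg.1 inferInstance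
  have key : ∀ i, ∃ g : A, (g : K) ≠ 0 ∧ ∀ a ∈ S.W, g * (a / S.x i) ∈ A := fun i => by
    obtain ⟨g, hg⟩ := IsLocalization.exist_integer_multiples_of_finset (nonZeroDivisors A)
      (s.image fun a => a / S.x i)
    refine ⟨g, fun e => nonZeroDivisors.ne_zero g.2 (Subtype.ext e), fun a ha => ?_⟩
    rw [← hs] at ha
    induction ha using Submodule.span_induction with
    | mem a ha =>
      obtain ⟨b, hb⟩ := hg _ (Finset.mem_image_of_mem _ ha)
      exact (show (b : K) = g * (a / S.x i) from hb) ▸ b.2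
    | zero => simp [zero_mem]
    | add a b _ _ h1 h2 => simpa only [add_div, mul_add] using add_mem h1 h2
    | smul c a _ h1 => simpa only [smul_div_assoc, mul_smul_comm] using A.smul_mem h1 c
  choose g g0 hg using key
  refine (Set.finite_iUnion fun i => S.all.fin_div (g i)).subset ?_
  rintro C ⟨m, hm, hd⟩
  obtain ⟨i, hi⟩ := S.crv_cover C
  refine Set.mem_iUnion.2 ⟨i, fun h0 => ?_⟩
  obtain ⟨a, ha, h1⟩ := S.res C _ (S.x_mem i) hi
  have h2 := mul_mem (hd.2 _ (le_loc A m _ (g i).2) ((Pl.ord_eq_zero_iff _ (g0 i)).1 h0).2)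
    (le_loc A m _ (hg i a ha))
  rw [inv_mul_cancel_left₀ (g0 i)] at h2
  obtain ⟨c, hc⟩ := Geo.val ⟨A, hA, hK, m, hm, rfl⟩ h2
  obtain ⟨h3, h4⟩ := h1 (X - Polynomial.C c) (X_sub_C_ne_zero c)
  rw [map_sub, aeval_X, aeval_C] at h3 h4
  exact hc.2.elim h3 fun h5 => h5 (hd.2 _ hc.1 ((Pl.ord_eq_zero_iff _ h3).1 h4).2)

end Vale.Agent.P253Y.Res
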