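import Vale.Agent.P253Y.Res.Sk

/-! The blowing up of a point. -/

set_option linter.all false

open IsLocalRing Polynomial

namespace Vale.Agent.P253Y.Res

open Vale.Agent.P297Z Vale.Agent.P297Z.Sf

namespace BlowA

variable {K : Type} [Field K] [Algebra ℂ K] {S : Surf K} {x : Pt S.W}

/-- A point over `x` lies in a chart given by a product. -/
theorem exists_in {y : Pt (bl x)} (hd : ∀ f, x.Van f → y.Van f) :
    ∃ l ∈ van x, ∃ w ∈ S.W, l ≠ 0 ∧ x.In w ∧ y.In (l * w) := by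
  obtain ⟨w', hw', hy⟩ := y.exists_in
  have h1 : ∃ l ∈ van x, ∃ w ∈ S.W, ¬ y.Van (l * w / w') := by
    by_contra hc
    push Not at hc
    have h2 : y.Van (w' / w') :=
      Submodule.mul_induction_on (C := fun a => y.Van (a / w')) hw' hc fun a b ha hb => by
        rw [add_div]; exact ha.add hb
    rw [div_self hy.1] at h2
    exact y.not_van_one h2
  obtain ⟨l, hl, w, hw, h2⟩ := h1
  have h3 := (Pt.in_iff hy hw' (Bl.mul_mem_bl hl hw)).2 h2
  have hl0 := left_ne_zero_of_mul h3.1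
  have hw0 := right_ne_zero_of_mul h3.1
  refine ⟨l, hl, w, hw, hl0, ?_, h3⟩
  by_contra hx
  obtain ⟨w₀, hw₀, hx₀⟩ := x.exists_in
  rcases (hd _ ((mem_van.2 ⟨hw, hx⟩).2 w₀ hw₀ hx₀)).2 with h4 | h4
  · exact div_ne_zero hw0 hx₀.1 h4
  · apply h4
    rw [inv_div, ← mul_div_mul_left w₀ w hl0]
    exact h3.2 _ (Bl.mul_mem_bl hl hw₀)

theorem van_div {y : Pt (bl x)} {l w v : K} (hw : w ∈ S.W) (hy : y.In (l * w))
    (hv : v ∈ van x) : v / l ∈ y.ring := by
  rw [← mul_div_mul_right v l (right_ne_zero_of_mul hy.1)]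
  exact hy.2 _ (Bl.mul_mem_bl hv hw)

/-- The maximal ideal of `x` becomes principal. -/
theorem div_mem (hR : S.Reg2) {y : Pt (bl x)} (hle : x.ring ≤ y.ring) {l w : K} (hw : w ∈ S.W)
    (hx : x.In w) (hy : y.In (l * w)) {g : K} (hg : x.Van g) : g / (l / w) ∈ y.ring := by
  obtain ⟨l₁, h1, l₂, h2, s, t, e1, e2, e3⟩ := hR.gens x w hw hx
  obtain ⟨a, ha, b, hb, e⟩ := ((par_iff s t).1 e3).2.2 g hg
  have hd : ∀ v : K, v / w / (l / w) = v / l := fun v => div_div_div_cancel_right₀ hx.1 v l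
  rw [e, e1, e2, add_div, mul_div_assoc, mul_div_assoc, hd, hd]
  exact add_mem (mul_mem (hle ha) (van_div hw hy h1)) (mul_mem (hle hb) (van_div hw hy h2))

theorem dir (hR : S.Reg2) {y : Pt (bl x)} (hle : x.ring ≤ y.ring) (hd : ∀ f, x.Van f → y.Van f)
    {u v : K} (h : Par x.ring u v) : v / u ∈ y.ring ∨ u / v ∈ y.ring := by
  obtain ⟨l, hl, w, hw, hl0, hx, hy⟩ := exists_in hd
  have h0 : l / w ≠ 0 := div_ne_zero hl0 hx.1
  obtain ⟨a, ha, b, hb, e⟩ := h.2.2 _ (hl.2 w hw hx)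
  have hu := div_mem hR hle hw hx hy (g := u) h.1
  have hv := div_mem hR hle hw hx hy (g := v) h.2.1
  generalize l / w = s at *
  by_cases h1 : y.Van (u / s)
  · by_cases h2 : y.Van (v / s)
    · have h3 := (h1.mul_left (hle ha)).add (h2.mul_left (hle hb))
      rw [← mul_div_assoc, ← mul_div_assoc, ← add_div, ← e, div_self h0] at h3
      exact absurd h3 y.not_van_one
    · right
      have h3 := mul_mem hu (Pt.inv_mem hv h2).2
      rwa [← div_eq_mul_inv, div_div_div_cancel_right₀ h0] at h3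
  · left
    have h3 := mul_mem hv (Pt.inv_mem hu h1).2
    rwa [← div_eq_mul_inv, div_div_div_cancel_right₀ h0] at h3

theorem off (hL : S.Loc) (hext : ∀ y y' : Pt (bl x), y.ring ≤ y'.ring → y = y') {y : Pt (bl x)}
    {z : Pt S.W} (hz : z ≠ x) (hle : z.ring ≤ y.ring) : y.ring = z.ring := by
  obtain ⟨l, hl, h3⟩ := hL.sep x z hz.symm
  have h := hL.pt_chart z l hl.1 h3
  rw [← Bl.chart_bl_sq hl h3.1] at h
  obtain ⟨m, hm, h4, -⟩ := h
  rw [← hext ⟨z.ring, l * l, Bl.mul_mem_bl hl hl.1, mul_ne_zero h3.1 h3.1, m, hm, h4⟩ y hle]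

variable {E : Crv (bl x)} {ι : Crv S.W → Crv (bl x)}

theorem eq_of_on (hL : S.Loc) (hB : BlData x E ι) {y : Pt (bl x)} {z : Pt S.W}
    (hle : z.ring ≤ y.ring) (hE : y.On E) : z = x := by
  by_contra hz
  obtain ⟨l, hl, h3⟩ := hL.sep x z (Ne.symm hz)
  obtain ⟨w, hw, hx⟩ := x.exists_in
  have h1 := Bl4.one_le_ord hB (hl.2 w hw hx) (div_ne_zero h3.1 hx.1)
  have h2 := Pl.ord_nonneg_of_mem _ (hE _ (hle (h3.2 w hw)))
  unfold Crv.ord at h1
  rw [Pl.ord_div _ h3.1 hx.1] at h1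
  rw [Pl.ord_div _ hx.1 h3.1] at h2
  omega

theorem on_of_dom (hB : BlData x E ι) {y : Pt (bl x)}
    (hn : ∀ f : K, f ∈ stalk y 0 → f ∈ y.ring) (hd : ∀ f, x.Van f → y.Van f) : y.On E := by
  obtain ⟨l, hl, w, hw, hl0, hx, hy⟩ := exists_in hd
  have h0 : l / w ≠ 0 := div_ne_zero hl0 hx.1
  have h1 : ∃ C : Crv (bl x), y.On C ∧ C.ord w < C.ord l := by
    by_contra hc
    push Not at hc
    refine (hd _ (hl.2 w hw hx)).2.resolve_left h0 (hn _ (Or.inr fun C hC => ?_))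
    have := hc C hC
    unfold Crv.ord at *
    rw [inv_div, Pl.ord_div _ hx.1 hl0]
    simp only [Finsupp.coe_zero, Pi.zero_apply]
    omega
  obtain ⟨C, hC, h2⟩ := h1
  rcases hB.all C with rfl | ⟨C₀, rfl⟩
  · exact hC
  · exfalso
    obtain ⟨l', hl', h3⟩ := hB.in_crv C₀
    have h4 := Pl.ord_nonneg_of_mem _ (hC _ (van_div hw hy hl'))
    have h5 := Pl.ord_nonneg_of_mem _ (h3.2 w hw)
    unfold Crv.ord at h2
    rw [hB.pl] at h2 h4
    rw [Pl.ord_div _ h3.1 hl0] at h4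
    rw [Pl.ord_div _ hx.1 h3.1] at h5
    omega

theorem ord_eq (hL : S.Loc) (hB : BlData x E ι) {D : Sf.Div S.W} {s s' : K} (hs : GenAt x D s)
    (hs' : GenAt x D s') : E.ord s = E.ord s' := by
  have h1 := Pl.ord_nonneg_of_mem _
    (hB.dom _ (Bl4.div_gen_mem S hL hs (Bl4.gen_mem_stalk hs')))
  have h2 := Pl.ord_nonneg_of_mem _
    (hB.dom _ (Bl4.div_gen_mem S hL hs' (Bl4.gen_mem_stalk hs)))
  rw [Pl.ord_div _ hs'.1 hs.1] at h1
  rw [Pl.ord_div _ hs.1 hs'.1] at h2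
  unfold Crv.ord
  omega

theorem exists_mu (hL : S.Loc) (hB : BlData x E ι) : ∃ μ : Sf.Div S.W →+ ℤ,
    ∀ (D : Sf.Div S.W) (s : K), GenAt x (-D) s → μ D = E.ord s := by
  choose s hs using hL.gen x
  refine ⟨AddMonoidHom.mk' (fun D => E.ord (s (-D))) fun D D' => ?_,
    fun D t ht => ord_eq hL hB (hs _) ht⟩
  have h := Bl4.gen_mul (hs (-D)) (hs (-D'))
  rw [← neg_add] at h
  rw [ord_eq hL hB (hs _) h]
  exact Pl.ord_mul _ (hs _).1 (hs _).1

theorem chi_eq (hL : S.Loc) (hB : BlData x E ι) {μ : Sf.Div S.W →+ ℤ}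
    (hμ : ∀ (D : Sf.Div S.W) (s : K), GenAt x (-D) s → μ D = E.ord s)
    (hF : ∀ (D' : Sf.Div (bl x)) (D : Sf.Div S.W) (s : K), (∀ C, D' (ι C) = D C) → GenAt x D s →
      2 * chi D' = 2 * chi D - (D' E + E.ord s) * (D' E + E.ord s - 1))
    (D : Sf.Div S.W) (a : ℤ) : 2 * chi (Finsupp.mapDomain ι D + Finsupp.single E a) =
      2 * chi D - (a - μ D) * (a - μ D - 1) := by
  have hi : Function.Injective ι := fun C C' h => Crv.ext (by rw [← hB.pl C, h, hB.pl])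
  obtain ⟨s, hs⟩ := hL.gen x D
  have h1 := hμ (-D) s (by rwa [neg_neg])
  have h2 := hF (Finsupp.mapDomain ι D + Finsupp.single E a) D s (fun C => by
    rw [Finsupp.add_apply, Finsupp.mapDomain_apply hi, Finsupp.single_eq_of_ne (hB.ne C),
      add_zero]) hs
  rw [Finsupp.add_apply, Finsupp.mapDomain_notin_range _ _ (fun ⟨C, h⟩ => hB.ne C h),
    Finsupp.single_eq_same, zero_add, ← h1, map_neg, ← sub_eq_add_neg] at h2
  exact h2

theorem inter_eq {μ : Sf.Div S.W →+ ℤ}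
    (h : ∀ (D : Sf.Div S.W) (a : ℤ), 2 * chi (Finsupp.mapDomain ι D + Finsupp.single E a) =
      2 * chi D - (a - μ D) * (a - μ D - 1)) (D₁ D₂ : Sf.Div S.W) (a b : ℤ) :
    inter (Finsupp.mapDomain ι D₁ + Finsupp.single E a)
      (Finsupp.mapDomain ι D₂ + Finsupp.single E b) = inter D₁ D₂ - (a - μ D₁) * (b - μ D₂) := by
  have h0 := h 0 0
  have h1 := h D₁ a
  have h2 := h D₂ b
  have h3 := h (D₁ + D₂) (a + b)
  rw [Finsupp.mapDomain_add, Finsupp.single_add, add_add_add_comm, map_add] at h3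
  rw [Finsupp.mapDomain_zero, Finsupp.single_zero, add_zero, map_zero] at h0
  unfold inter
  nlinarith

end BlowA

open BlowA in
theorem blow : BLOW := by
  intro K _ _ S x
  have h := S.all
  obtain ⟨S', e⟩ := Sf.nn K (bl x) (bl1 Sf.model K S h.toLoc h.toReg2 x)
  obtain ⟨E, ι, hB⟩ := bl2 K S h.toLoc h.toReg2 x
  obtain ⟨π, hπ, hd⟩ := bl3 K S h.toLoc h.toReg2 x
  have h' := S'.all
  have hF := bl4 K S h x S' e h' E ι hB
  obtain ⟨W', h1, y, h2, h3, h4, h5⟩ := S'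
  dsimp only at e
  subst e
  obtain ⟨μ, hμ⟩ := exists_mu h.toLoc hB
  have hχ := chi_eq h.toLoc hB hμ hF
  have hd' : ∀ y, π y = x → x.ring ≤ y.ring ∧ ∀ f, x.Van f → y.Van f := fun y hy => by
    have := hd y
    rwa [hy] at this
  refine ⟨⟨bl x, h1, y, h2, h3, h4, h5⟩, ⟨⟨E, ι, hB.pl, hB.ne, hB.all, π, hd, hπ,
    fun y hy => off h.toLoc h'.pt_ext hy (hd y).1,
    fun y => ⟨eq_of_on h.toLoc hB (hd y).1, fun hy => ?_⟩, hB.ord, fun u v huv y hy => ?_,
    μ, hμ, inter_eq hχ, fun D a => ?_⟩⟩⟩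
  · exact on_of_dom hB (fun f => (h'.normal y f).1) (hd' y hy).2
  · exact dir h.toReg2 (hd' y hy).1 (hd' y hy).2 huv
  · have r1 := h.rr D
    have r2 := h'.rr (Finsupp.mapDomain ι D + Finsupp.single E a)
    have r3 := inter_eq hχ D D a a
    have r4 := hχ D a
    have r5 := hχ 0 0
    rw [Finsupp.mapDomain_zero, Finsupp.single_zero, add_zero, map_zero] at r5
    dsimp only at r2 ⊢
    nlinarith

end Vale.Agent.P253Y.Res
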