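import Vale.Agent.P253Y.Res.Sk
import Vale.Agent.P297Z.Surf.AllOf

/-! The elimination of the points of indeterminacy. -/

set_option linter.all false

open IsLocalRing

namespace Vale.Agent.P253Y.Res

open Vale.Agent.P297Z Vale.Agent.P297Z.Sf

namespace DomA

variable {K : Type} [Field K] [Algebra ℂ K] {S : Surf K} {W : Submodule ℂ K}

/-- The linear system `W` of sections of `A` has no fixed curve. -/
def Mv (W : Submodule ℂ K) (A : Sf.Div S.W) : Prop :=
  W ≤ H0 A ∧ ∀ C : Crv S.W, ∃ w ∈ W, w ≠ 0 ∧ C.ord w + A C = 0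

theorem fin_mv (S : Surf K) {T : Finset K} (hT : T.Nonempty) : (∀ t ∈ T, t ≠ 0) →
    ∃ A : Sf.Div S.W, (∀ t ∈ T, ∀ C : Crv S.W, 0 ≤ C.ord t + A C) ∧
      ∀ C : Crv S.W, ∃ t ∈ T, C.ord t + A C = 0 := by
  have h := div_apply S.all.toLoc2
  induction hT using Finset.Nonempty.cons_induction with
  | singleton a => exact fun _ => ⟨-div S.W a, by simp [h], by simp [h]⟩
  | cons a s ha hs ih =>
    intro h0
    obtain ⟨A, h1, h2⟩ := ih fun t ht => h0 t (Finset.mem_cons_of_mem ht)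
    refine ⟨A ⊔ -div S.W a, fun t ht C => ?_, fun C => ?_⟩
    · rw [Finsupp.sup_apply, Finsupp.neg_apply, h]
      rcases Finset.mem_cons.1 ht with rfl | ht
      · omega
      · have := h1 t ht C
        omega
    · rw [Finsupp.sup_apply, Finsupp.neg_apply, h]
      obtain ⟨t, ht, e⟩ := h2 C
      rcases le_total (A C) (-C.ord a) with h3 | h3
      · exact ⟨a, Finset.mem_cons_self _ _, by omega⟩
      · exact ⟨t, Finset.mem_cons_of_mem ht, by omega⟩

theorem exists_mv (S : Surf K) (h : FiniteDimensional ℂ W) (hW : W ≠ ⊥) :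
    ∃ A : Sf.Div S.W, Mv W A := by
  classical
  obtain ⟨T, rfl⟩ := (Submodule.fg_iff_finiteDimensional W).2 h
  obtain ⟨A, h1, h2⟩ := fin_mv S (T := T.erase 0) (by
    by_contra hc
    refine hW (Submodule.span_eq_bot.2 fun t ht => by_contra fun e => hc ⟨t, ?_⟩)
    exact Finset.mem_erase.2 ⟨e, ht⟩) fun t ht => (Finset.mem_erase.1 ht).1
  refine ⟨A, Submodule.span_le.2 fun t ht => ?_, fun C => ?_⟩
  · exact (em (t = 0)).imp_right fun e C _ => h1 t (Finset.mem_erase.2 ⟨e, ht⟩) C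
  · obtain ⟨t, ht, e⟩ := h2 C
    exact ⟨t, Submodule.subset_span (Finset.mem_erase.1 ht).2, (Finset.mem_erase.1 ht).1, e⟩

theorem Mv.sq {A : Sf.Div S.W} (h : Mv W A) : 0 ≤ inter A A := by
  have hA := S.all
  have h1 : ∀ C, 0 ≤ inter A (Finsupp.single C 1) := fun C => by
    obtain ⟨w, hw, h0, e⟩ := h.2 C
    rw [← inter_lin hA.toRR _ _ h0]
    refine inter_nonneg hA.inte (eff_of_mem hA.toLoc2 (h.1 hw) h0)
      (Finsupp.single_nonneg.2 zero_le_one) fun C' => ?_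
    by_cases e' : C' = C
    · left
      rw [e', Finsupp.add_apply, div_apply hA.toLoc2, add_comm, e]
    · exact Or.inr (Finsupp.single_eq_of_ne e')
  obtain ⟨C⟩ := crv_ne hA.toLoc2
  obtain ⟨w, hw, h0, -⟩ := h.2 C
  rw [← inter_lin hA.toRR _ _ h0, inter_comm, ← interHom_apply hA.toRR, eq_sum_single (A + _),
    map_sum]
  refine Finset.sum_nonneg fun C _ => ?_
  rw [map_zsmul, smul_eq_mul]
  exact mul_nonneg (eff_of_mem hA.toLoc2 (h.1 hw) h0 C) (h1 C)

theorem Mv.lt {S' : Surf K} {x : Pt S.W} (b : Blow S S' x) {A : Sf.Div S.W} {A' : Sf.Div S'.W}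
    (h : Mv W A) (h' : Mv W A') (hx : ¬ ∃ w ∈ W, w ≠ 0 ∧ ∀ a ∈ W, a / w ∈ x.ring) :
    inter A' A' < inter A A := by
  have hA := S.all
  have e : A' = Finsupp.mapDomain b.ι A + Finsupp.single b.E (A' b.E) := by
    ext C'
    rcases b.all C' with rfl | ⟨C, rfl⟩
    · rw [Finsupp.add_apply, Finsupp.single_eq_same, Finsupp.mapDomain_notin_range, zero_add]
      exact fun ⟨C, e⟩ => b.ne C e
    · rw [Finsupp.add_apply, Finsupp.single_eq_of_ne (b.ne C), add_zero, Finsupp.mapDomain_apply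
        fun C₁ C₂ e => Crv.ext (by rw [← b.pl, e, b.pl])]
      obtain ⟨w, hw, h0, e⟩ := h.2 C
      obtain ⟨w', hw', h0', e'⟩ := h'.2 (b.ι C)
      have h1 := (h'.1 hw).resolve_left h0 (b.ι C) trivial
      have h2 := (h.1 hw').resolve_left h0' C trivial
      unfold Crv.ord at *
      rw [b.pl] at *
      omega
  obtain ⟨s, hs⟩ := hA.gen x A
  have h1 : ∀ a ∈ W, a / s ∈ x.ring := fun a ha => (hA.normal x _).1 <| by
    by_cases h0 : a = 0
    · exact Or.inl (by simp [h0])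
    refine Or.inr fun C hC => ?_
    have h2 := (h.1 ha).resolve_left h0 C trivial
    have h3 := hs.2 C hC
    unfold Crv.ord at *
    rw [Pl.ord_div _ h0 hs.1, Finsupp.zero_apply]
    omega
  obtain ⟨w, hw, h0, e'⟩ := h'.2 b.E
  have h2 := (b.ordE ⟨w / s, h1 w hw⟩ 1 fun e => div_ne_zero h0 hs.1 (congrArg Subtype.val e)).2 (by
    rw [pow_one, van_iff]
    refine ⟨h1 w hw, Or.inr fun h3 => hx ⟨w, hw, h0, fun a ha => ?_⟩⟩
    have := mul_mem (h1 a ha) h3
    rwa [inv_div, div_mul_div_cancel₀ hs.1] at this)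
  have h3 := b.μ_eq (-A) s (by rwa [neg_neg])
  rw [map_neg] at h3
  unfold Crv.ord at *
  rw [Pl.ord_div _ h0 hs.1] at h2
  rw [e, b.int]
  push_cast at h2
  nlinarith

end DomA

open DomA

theorem dom (hB : BLOW) : DOM := by
  intro K _ _ S W hW h0
  obtain ⟨A, hA⟩ := exists_mv S hW h0
  induction hn : (inter A A).toNat using Nat.strong_induction_on generalizing S with
  | _ n ih =>
    by_cases h : ∀ y : Pt S.W, ∃ w ∈ W, w ≠ 0 ∧ ∀ a ∈ W, a / w ∈ y.ring
    · exact ⟨S, id, fun y => ⟨le_rfl, fun _ h => h⟩, h⟩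
    obtain ⟨x, hx⟩ := not_forall.1 h
    obtain ⟨S', ⟨b⟩⟩ := hB K S x
    obtain ⟨A', hA'⟩ := exists_mv S' hW h0
    have h1 := hA.lt b hA' hx
    have h2 := hA'.sq
    obtain ⟨S'', π, h3, h4⟩ := ih _ (by omega) S' A' hA' rfl
    exact ⟨S'', b.π ∘ π, b.dom.comp h3, h4⟩

end Vale.Agent.P253Y.Res
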