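import Vale.Agent.P253Y.Res.Sk
import Mathlib.RingTheory.DedekindDomain.Factorization
import Mathlib.RingTheory.DedekindDomain.IntegralClosure
import Mathlib.RingTheory.DiscreteValuationRing.TFAE

/-! The ramification indices and the lemma of Abhyankar. -/

set_option linter.all false

open IsLocalRing Polynomial IsDedekindDomain

namespace Vale.Agent.P253Y.Res

open Vale.Agent.P297Z Vale.Agent.P297Z.Sf

namespace AbhA

section Two

variable {A L K : Type} [CommRing A] [IsDomain A] [IsIntegrallyClosed A] [Field L] [Field K]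
  [Algebra A L] [IsFractionRing A L] [Algebra L K] [Algebra A K] [IsScalarTower A L K]

theorem coeff_mem {z : K} (hz : IsIntegral L z) {r : A} (hr : r ≠ 0) (h : IsIntegral A (r • z))
    (i : ℕ) : ∃ a : A, algebraMap A L a =
      (minpoly L z).coeff i * algebraMap A L r ^ ((minpoly L z).natDegree - i) := by
  have h1 := minpoly.isIntegrallyClosed_eq_field_fractions' L h
  rw [← algebraMap_smul L r z, IsIntegrallyClosed.minpoly_smul
    ((map_ne_zero_iff _ (IsFractionRing.injective A L)).2 hr) hz] at h1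
  exact ⟨_, by rw [← coeff_scaleRoots, h1, coeff_map]⟩

theorem int_of_two {z : K} (hz : IsIntegral L z) {u m : A} (hu : Prime u) (hm : ¬ u ∣ m)
    (h1 : IsIntegral A (u • z)) (h2 : IsIntegral A (m • z)) : IsIntegral A z := by
  have hi := IsFractionRing.injective A L
  have hl : minpoly L z ∈ lifts (algebraMap A L) := by
    refine (lifts_iff_coeff_lifts _).2 fun i => ?_
    obtain ⟨a, ha⟩ := coeff_mem hz hu.ne_zero h1 i
    obtain ⟨b, hb⟩ := coeff_mem hz (fun h : m = 0 => hm (h.symm ▸ dvd_zero u)) h2 i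
    generalize (minpoly L z).natDegree - i = j at ha hb
    have e : a * m ^ j = u ^ j * b := hi (by
      rw [map_mul, map_mul, map_pow, map_pow, ha, hb]; ring)
    obtain ⟨c, rfl⟩ := hu.pow_dvd_of_dvd_mul_right j (fun h => hm (hu.dvd_of_dvd_pow h)) ⟨b, e⟩
    refine ⟨c, mul_left_cancel₀ (pow_ne_zero j ((map_ne_zero_iff _ hi).2 hu.ne_zero)) ?_⟩
    rw [← map_pow, ← map_mul, ha, map_pow, mul_comm]
  obtain ⟨q, e, -, hq⟩ := lifts_and_degree_eq_and_monic hl (minpoly.monic hz)
  refine ⟨q, hq, ?_⟩
  rw [← aeval_def, ← aeval_map_algebraMap L, e, minpoly.aeval]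

end Two

theorem ded {D K : Type} [CommRing D] [IsDedekindDomain D] [Field K] [Algebra D K]
    [IsFractionRing D K] {u : D} (hu : u ≠ 0) : ∃ n₀ : ℕ, 0 < n₀ ∧ ∀ n, n₀ ∣ n →
      ∀ (ε : D) (κ : K) (a : ℕ) (y : D), IsUnit ε →
        algebraMap D K y = algebraMap D K u ^ a * algebraMap D K ε * κ ^ n →
        (∃ (k : ℕ) (x : D), algebraMap D K x = algebraMap D K y ^ k / algebraMap D K u) →
        ∃ x : D, algebraMap D K x = algebraMap D K y / algebraMap D K u := by
  have hf := Ideal.finite_factors (I := Ideal.span {u}) (by simpa using hu)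
  have h0 : ∀ (w : HeightOneSpectrum D) {x : D}, x ≠ 0 → w.valuation K (algebraMap D K x) ≠ 0 :=
    fun w x hx => (Valuation.ne_zero_iff _).2
      ((map_ne_zero_iff _ (IsFractionRing.injective D K)).2 hx)
  have hle : ∀ (w : HeightOneSpectrum D) (x : D),
      WithZero.log (w.valuation K (algebraMap D K x)) ≤ 0 := fun w x => by
    by_cases hx : x = 0
    · simp [hx]
    · exact (WithZero.log_le_iff_le_exp (h0 w hx)).2 (w.valuation_le_one x)
  have hlt : ∀ w ∈ hf.toFinset, WithZero.log (w.valuation K (algebraMap D K u)) < 0 :=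
    fun w hw => (WithZero.log_lt_iff_lt_exp (h0 w hu)).2
      ((w.valuation_lt_one_iff_dvd u).2 (hf.mem_toFinset.1 hw))
  refine ⟨∏ w ∈ hf.toFinset, (WithZero.log (w.valuation K (algebraMap D K u))).natAbs,
    Finset.prod_pos fun w hw => Int.natAbs_pos.2 (hlt w hw).ne, ?_⟩
  rintro n hn ε κ a y hε hy ⟨k, x, hx⟩
  refine HeightOneSpectrum.mem_integers_of_valuation_le_one K _ fun w => ?_
  by_cases hy0 : y = 0
  · simp [hy0]
  rw [map_div₀]
  by_cases hw : w ∈ hf.toFinset
  swap
  · rw [w.valuation_eq_one_iff_notMem.2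
      (fun h => hw (hf.mem_toFinset.2 (Ideal.dvd_span_singleton.2 h))), div_one]
    exact w.valuation_le_one y
  have e1 : w.valuation K (algebraMap D K ε) = 1 :=
    w.valuation_eq_one_iff_notMem.2 fun h =>
      w.isPrime.ne_top (Ideal.eq_top_of_isUnit_mem _ h hε)
  have e2 := congrArg (w.valuation K) hy
  rw [map_mul, map_mul, e1, mul_one, map_pow, map_pow] at e2
  have e3 := congrArg WithZero.log e2
  rw [WithZero.log_mul (pow_ne_zero _ (h0 w hu)) (right_ne_zero_of_mul (e2 ▸ h0 w hy0)),
    WithZero.log_pow, WithZero.log_pow] at e3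
  have e4 := hle w x
  rw [hx, map_div₀, map_pow, WithZero.log_div (pow_ne_zero _ (h0 w hy0)) (h0 w hu),
    WithZero.log_pow] at e4
  have e5 := hle w y
  have e6 := hlt w hw
  have e7 : WithZero.log (w.valuation K (algebraMap D K u)) ∣ (n : ℤ) :=
    Int.natAbs_dvd.1 (Int.natCast_dvd_natCast.2 ((Finset.dvd_prod_of_mem _ hw).trans hn))
  refine WithZero.le_exp_of_log_le (a := (0 : ℤ)) ?_
  rw [WithZero.log_div (h0 w hy0) (h0 w hu)]
  generalize WithZero.log (w.valuation K (algebraMap D K u)) = E at *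
  generalize WithZero.log (w.valuation K (algebraMap D K y)) = α at *
  have e8 : -E ∣ -α := by
    rw [neg_dvd, dvd_neg, e3, nsmul_eq_mul, nsmul_eq_mul]
    exact dvd_add (dvd_mul_left _ _) (e7.mul_right _)
  have e9 : α ≠ 0 := fun h => by
    rw [h, smul_zero] at e4
    omega
  have := Int.le_of_dvd (by omega) e8
  omega

section Rad

variable {A K : Type} [CommRing A] [Field K] [Algebra ℂ A] [Algebra ℂ K] [Algebra A K]
  [IsScalarTower ℂ A K]

theorem int_smul (c : ℂ) {f : K} (hf : IsIntegral A f) : IsIntegral A (c • f) := by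
  rw [← algebraMap_smul A c f]
  exact hf.smul _

theorem int_add {s f g : K} {j l : ℕ} (hf : IsIntegral A f) (hg : IsIntegral A g)
    (h1 : IsIntegral A (f ^ j / s)) (h2 : IsIntegral A (g ^ l / s)) :
    IsIntegral A ((f + g) ^ (j + l) / s) := by
  rw [add_pow, Finset.sum_div]
  refine IsIntegral.sum _ fun i hi => ?_
  have hc : IsIntegral A (((j + l).choose i : ℕ) : K) := by
    rw [← map_natCast (algebraMap A K)]
    exact isIntegral_algebraMap
  rcases le_total j i with h | h
  · obtain ⟨d, rfl⟩ := Nat.exists_eq_add_of_le h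
    have := (h1.mul (hf.pow d)).mul ((hg.pow (j + l - (j + d))).mul hc)
    convert this using 1
    ring
  · obtain ⟨d, rfl⟩ := Nat.exists_eq_add_of_le h
    have := (h2.mul (hf.pow i)).mul ((hg.pow d).mul hc)
    rw [show i + d + l - i = d + l by omega]
    convert this using 1
    ring

variable (A) in
/-- The radical of the ideal generated by `s` in the integral closure. -/
def rad (s : K) : Submodule ℂ K where
  carrier := {f | IsIntegral A f ∧ ∃ j : ℕ, IsIntegral A (f ^ j / s)}
  zero_mem' := ⟨isIntegral_zero, 1, by simpa using isIntegral_zero⟩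
  add_mem' := fun ⟨hf, j, h1⟩ ⟨hg, l, h2⟩ => ⟨hf.add hg, j + l, int_add hf hg h1 h2⟩
  smul_mem' := fun c f ⟨hf, j, h1⟩ => ⟨int_smul c hf, j, by
    rw [_root_.smul_pow, smul_div_assoc]
    exact int_smul _ h1⟩

end Rad

end AbhA

open AbhA

theorem abh (hR : REG) : ABH := by
  intro L K _ _ _ _ _ _ _ htd A u v hA hP
  let u' : A := ⟨u, hP.1.1⟩
  let v' : A := ⟨v, hP.2.1.1⟩
  have R : Reg A u' v' := hR L htd A u' v' hA hP
  have := hA.noeth
  have := hA.frac
  have := R.ufd
  have hp : (Ideal.span {u'}).IsPrime := (Ideal.span_singleton_prime R.pu.ne_zero).2 R.pu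
  let O := loc A _ hp
  have : IsNoetherianRing O :=
    IsLocalization.isNoetherianRing (Ideal.span {u'}).primeCompl _ hA.noeth
  have : IsFractionRing O L := isFractionRing_of_le (le_loc A _ hp)
  have : IsDedekindDomain O := by
    refine ((tfae_of_isNoetherianRing_of_isLocalRing_of_isDomain O).out 4 2).1 ?_
    rw [← IsLocalization.AtPrime.map_eq_maximalIdeal (Ideal.span {u'}) O, Ideal.map_span,
      Set.image_singleton]
    exact ⟨⟨_, rfl⟩⟩
  have : CharZero L := charZero_of_injective_algebraMap (algebraMap ℂ L).injective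
  have := integralClosure.isDedekindDomain O L K
  have : IsFractionRing (integralClosure O K) K :=
    integralClosure.isFractionRing_of_finite_extension L K
  have : IsScalarTower A O K := IsScalarTower.of_algebraMap_eq fun _ => rfl
  have hu0 : algebraMap L K u ≠ 0 := by
    simpa using fun h : u = 0 => R.pu.ne_zero (Subtype.ext h)
  obtain ⟨n₀, h0, H⟩ := ded (K := K)
    (u := algebraMap O (integralClosure O K) (algebraMap A O u'))
    fun h => hu0 (congrArg Subtype.val h)
  refine ⟨n₀, h0, fun n hn κ a c y hy h1 ⟨k, h2⟩ => ?_⟩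
  have hv : IsUnit (algebraMap A O v') := IsLocalization.map_units O
    (⟨v', fun h => R.nd (Ideal.mem_span_singleton.1 h)⟩ : (Ideal.span {u'}).primeCompl)
  obtain ⟨x, hx⟩ := H n hn _ κ a ⟨y, h1.tower_top⟩
    ((hv.map (algebraMap O (integralClosure O K))).pow c) (by rw [map_pow]; exact hy)
    ⟨k, ⟨_, h2.tower_top⟩, rfl⟩
  have h3 : IsIntegral O (y / algebraMap L K u) := by
    have := x.2
    rwa [show (x : K) = y / algebraMap L K u from hx] at this
  obtain ⟨m, hm⟩ := h3.exists_multiple_integral_of_isLocalization (Ideal.span {u'}).primeCompl _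
  refine int_of_two (L := L) (Algebra.IsIntegral.isIntegral _) R.pu
    (fun h => m.2 (Ideal.mem_span_singleton.2 h)) ?_ hm
  rwa [Algebra.smul_def, show algebraMap A K u' = algebraMap L K u from rfl,
    mul_div_cancel₀ _ hu0]

theorem rads : RADS := by
  intro L K _ _ _ _ _ _ _ K' _ _ _ _ _ _ A u v n n' k _ hn hn' H f hf hj
  have : IsScalarTower ℂ L K' := IsScalarTower.of_algebraMap_eq fun c => by
    rw [IsScalarTower.algebraMap_apply L K K', ← IsScalarTower.algebraMap_apply ℂ L K,
      ← IsScalarTower.algebraMap_apply ℂ K K']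
  have : IsScalarTower ℂ A K' := IsScalarTower.of_algebraMap_eq fun c =>
    IsScalarTower.algebraMap_apply ℂ L K' c
  have hi := (algebraMap K K').injective
  obtain ⟨m, hm⟩ := hn'
  obtain ⟨z, hz, hs⟩ := k.sum
  have hst : ∀ σ : K' ≃ₐ[K] K', ∀ f ∈ rad A k.s, σ f ∈ rad A k.s := fun σ f ⟨h1, j, h2⟩ => by
    obtain ⟨ζ, η, h3, -, h4, -⟩ := k.gal σ
    refine ⟨h1.map (σ.restrictScalars A), j, ?_⟩
    have h5 := int_smul ζ (h2.map (σ.restrictScalars A))
    rw [AlgEquiv.restrictScalars_apply, map_div₀, map_pow, h4] at h5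
    convert h5 using 1
    have := k.s_ne
    have : algebraMap ℂ K' ζ ≠ 0 := by simpa using h3
    simp only [Algebra.smul_def]
    field_simp
  have key : ∀ a c : ℕ, IsIntegral A (k.P a c f / k.s) := fun a c => by
    obtain ⟨h1, j, h2⟩ := k.stab _ hst a c f ⟨hf, hj⟩
    obtain ⟨κ, e⟩ := k.hom a c f
    rw [zpow_natCast, zpow_natCast] at e
    generalize k.P a c f = g at *
    have e1 : algebraMap K K' (algebraMap L K u ^ a * algebraMap L K v ^ (m * c) * κ ^ n) =
        g ^ n := by
      rw [map_mul, map_mul, map_pow, map_pow, map_pow, ← k.hs, ← k.ht, e, mul_pow, mul_pow,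
        ← pow_mul, ← pow_mul, ← pow_mul, ← pow_mul, mul_comm n a, ← mul_assoc, ← hm, mul_comm n c]
    have h3 := H κ a (m * c) _ rfl ((isIntegral_algebraMap_iff hi).1 (e1 ▸ h1.pow n))
      ⟨j, (isIntegral_algebraMap_iff hi).1 (by
        rw [map_div₀, map_pow, e1, ← k.hs, pow_right_comm, ← div_pow]
        exact h2.pow n)⟩
    have h4 := (isIntegral_algebraMap_iff hi).2 h3
    rw [map_div₀, e1, ← k.hs, ← div_pow] at h4
    exact h4.of_pow hn
  have h6 := int_smul z⁻¹ (IsIntegral.sum (R := A) (s := Finset.range n) _ fun a _ =>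
    IsIntegral.sum (R := A) (s := Finset.range n') _ fun c _ => key a c)
  simp only [← Finset.sum_div] at h6
  rwa [← hs, smul_div_assoc, inv_smul_smul₀ hz] at h6

end Vale.Agent.P253Y.Res
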