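import Vale.Agent.P253Y.Res.Sk

/-! Resolution of singularities of surfaces: the assembly. -/

set_option linter.all false

open IsLocalRing Polynomial

namespace Vale.Agent.P253Y.Res

open Vale.Agent.P297Z Vale.Agent.P297Z.Sf

variable {K : Type} [Field K] [Algebra ℂ K]

/-- The local rings of the singular points. -/
def bad (W : Submodule ℂ K) : Set (Subalgebra ℂ K) := {O | (∃ x : Pt W, x.ring = O) ∧ ¬ Two O}

theorem mod_all (mod : MOD) (htd : Algebra.trdeg ℂ K = 2) (n : ℕ) : ∀ W : Submodule ℂ K, Mdl W →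
    (bad W).Finite → (bad W).ncard = n → (∀ O ∈ bad W, Good O) →
    ∃ W' : Submodule ℂ K, Mdl W' ∧ ∀ x : Pt W', Two x.ring := by
  induction n using Nat.strong_induction_on with
  | _ n ih =>
    intro W hW hf hn hg
    by_cases h : ∀ x : Pt W, Two x.ring
    · exact ⟨W, hW, h⟩
    push Not at h
    obtain ⟨x, hx⟩ := h
    have h1 : x.ring ∈ bad W := ⟨⟨x, rfl⟩, hx⟩
    obtain ⟨W', hW', h2⟩ := mod K htd W hW x (hg _ h1)
    have h3 : bad W' ⊆ bad W \ {x.ring} := by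
      rintro O ⟨⟨z, rfl⟩, hz⟩
      obtain ⟨y, hy, e⟩ := (h2 z).resolve_left hz
      exact ⟨⟨⟨y, e.symm⟩, hz⟩, fun e' => hy (Pt.ext (e.symm.trans e'))⟩
    refine ih _ ?_ W' hW' (hf.subset (h3.trans Set.diff_subset)) rfl fun O hO => hg O (h3 hO).1
    rw [← hn]
    exact (Set.ncard_le_ncard h3 (hf.subset Set.diff_subset)).trans_lt
      (Set.ncard_diff_singleton_lt_of_mem h1 hf)

theorem weak_of (reg : REG) (cover : COVER) (mono : MONO) (plane : PLANE) (ram : RAM) (nrm : NRM)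
    (mod : MOD) (tor : TOR) (tor1 : TOR1) (tt : TT) : WEAK := by
  intro K _ _ htd A h1 h2
  obtain ⟨L, hL, ⟨S₀⟩⟩ := plane K htd A h1 h2
  obtain ⟨G, hG⟩ := ram L K
  obtain ⟨S, P, hS⟩ := mono L S₀ G
  obtain ⟨W, hW, π, hfin, hπ⟩ := nrm L K S.W (mdl S)
  have key : ∀ x : Pt W, Good x.ring ∧ (π x ∉ P → Two x.ring) := by
    intro x
    obtain ⟨q, hq, e⟩ := hπ x
    obtain ⟨u, v, h3, h4, h5⟩ := hS (π x)
    have hy := (mdl S).geo (π x)
    have hr := reg L S.model.td _ ⟨u, h3.1.1⟩ ⟨v, h3.2.1.1⟩ hy h3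
    have u0 : u ≠ 0 := fun e => hr.pu.ne_zero (Subtype.ext e)
    have v0 : v ≠ 0 := fun e => hr.pv.ne_zero (Subtype.ext e)
    have hx := hW.geo x
    rw [e] at hx ⊢
    obtain ⟨t1, t2⟩ := tt L K S.model.td _ u v hy h3 q hq hx
    constructor
    · obtain ⟨n, Λ, φ, hn, h6⟩ :=
        t1 (hG _ _ (mul_mem h3.1.1 h3.2.1.1) (mul_ne_zero u0 v0) h4)
      exact tor K _ n n Λ φ hx hn hn h6
    · intro hP
      obtain ⟨n, Λ, φ, hn, h6⟩ := t2 (hG _ _ h3.1.1 u0 (h5 hP))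
      exact tor1 K _ n Λ φ hn h6
  have hb : (bad W).Finite := by
    refine ((P.finite_toSet.biUnion fun y _ => hfin y).image fun x => x.ring).subset ?_
    rintro O ⟨⟨x, rfl⟩, hx⟩
    refine ⟨x, Set.mem_biUnion (x := π x) ?_ rfl, rfl⟩
    by_contra hc
    exact hx ((key x).2 hc)
  obtain ⟨W', hW', h⟩ := mod_all mod htd _ W hW hb rfl (by
    rintro O ⟨⟨x, rfl⟩, -⟩
    exact (key x).1)
  obtain ⟨S', -⟩ := Sf.nn K W' (cover K htd W' hW' h)
  exact ⟨S'⟩

/-- All the valuation rings that contain `A` have their centre on `S` in the domain of `A`. -/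
def Big (S : Surf K) (A : Subalgebra ℂ K) : Prop :=
  ∀ (x : Pt S.W) (V : ValuationSubring K), Ct.Dom x.ring V → (∀ f ∈ A, f ∈ V) → A ≤ x.ring

theorem Big.up {S S' : Surf K} {A : Subalgebra ℂ K} (h : Big S A) {π : Pt S'.W → Pt S.W}
    (hπ : Dominates π) : Big S' A := by
  intro x V hV hA
  refine (h (π x) V ⟨fun f hf => hV.1 f ((hπ x).1 hf), fun f hf h1 => ?_⟩ hA).trans (hπ x).1
  by_contra hc
  have h2 := (hπ x).2 f ⟨hf, Or.inr hc⟩
  refine h2.2.elim (fun h3 => hc ?_) fun h3 => h3 (hV.2 f h2.1 h1)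
  rw [h3, inv_zero]
  exact zero_mem _

theorem exists_big (dom : DOM) (S : Surf K) (A : Subalgebra ℂ K) (hA : Algebra.FiniteType ℂ A) :
    ∃ (S' : Surf K) (π : Pt S'.W → Pt S.W), Dominates π ∧ Big S' A := by
  classical
  obtain ⟨s, hs⟩ := (Subalgebra.fg_iff_finiteType _).2 hA
  have h1 : (1 : K) ∈ Submodule.span ℂ ((insert 1 s : Finset K) : Set K) :=
    Submodule.subset_span (by simp)
  obtain ⟨S', π, hπ, h⟩ := dom K S (Submodule.span ℂ ((insert 1 s : Finset K) : Set K))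
    inferInstance ((Submodule.ne_bot_iff _).2 ⟨1, h1, one_ne_zero⟩)
  refine ⟨S', π, hπ, fun x V hV hAV => ?_⟩
  obtain ⟨w, hw, w0, h2⟩ := h x
  have h3 : Submodule.span ℂ ((insert 1 s : Finset K) : Set K) ≤ Subalgebra.toSubmodule A := by
    refine Submodule.span_le.2 fun a ha => ?_
    rcases Finset.mem_insert.1 (Finset.mem_coe.1 ha) with rfl | ha
    · exact A.one_mem
    · exact hs ▸ Algebra.subset_adjoin ha
  have h4 : w ∈ x.ring := by
    have := hV.2 _ (h2 1 h1) (by rw [one_div, inv_inv]; exact hAV w (h3 hw))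
    rwa [one_div, inv_inv] at this
  rw [← hs]
  refine Algebra.adjoin_le fun a ha => ?_
  have := mul_mem (h2 a (Submodule.subset_span (by simp [ha]))) h4
  rwa [div_mul_cancel₀ _ w0] at this

theorem exists_big_all (dom : DOM) (S : Surf K) {I : Type} (A : I → Subalgebra ℂ K)
    (hA : ∀ i, Algebra.FiniteType ℂ (A i)) (T : Finset I) :
    ∃ S' : Surf K, ∀ i ∈ T, Big S' (A i) := by
  classical
  induction T using Finset.induction_on with
  | empty => exact ⟨S, by simp⟩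
  | insert i T _ ih =>
    obtain ⟨S₁, h1⟩ := ih
    obtain ⟨S₂, π, hπ, h2⟩ := exists_big dom S₁ (A i) (hA i)
    refine ⟨S₂, fun j hj => ?_⟩
    rcases Finset.mem_insert.1 hj with rfl | hj
    · exact h2
    · exact (h1 j hj).up hπ

theorem Big.over {S : Surf K} {A : Subalgebra ℂ K} (h : Big S A) (m : Ideal A) (hm : m.IsPrime) :
    Over S (loc A m hm) := fun x V h1 h2 => by
  have h3 := h x V h1 fun f hf => h2.1 f (le_loc A m hm hf)
  exact loc_le hm h3 fun b hb => h1.2 _ (h3 b.2) (h2.1 _ (inv_mem_loc hm hb))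

theorem res_of (weak : WEAK) (two : TWO) (dom : DOM) (finc : FINC) (con : CON) (snc : SNC) :
    RES := by
  classical
  intro K _ _ htd I _ _ A h1 h2 h3 h4
  have := Fintype.ofFinite I
  obtain ⟨i₀⟩ : Nonempty I := inferInstance
  obtain ⟨S₀⟩ := weak K htd (A i₀) (h1 i₀) (h2 i₀)
  obtain ⟨S₁, hb⟩ := exists_big_all dom S₀ A h1 Finset.univ
  obtain ⟨S, hS⟩ := con K S₁
    {O | ∃ (i : I) (m : Ideal (A i)) (hm : m.IsMaximal), loc (A i) m hm.isPrime = O}
    (by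
      rintro _ ⟨i, m, hm, rfl⟩
      have hg : Geo (loc (A i) m hm.isPrime) := ⟨A i, h1 i, h2 i, m, hm, rfl⟩
      exact ⟨hg, two K htd _ hg (h3 i m hm), (hb i (Finset.mem_univ i)).over m _⟩)
    (by
      rintro _ ⟨i, m, hm, rfl⟩ _ ⟨j, m', hm', rfl⟩
      exact h4 i j m hm m' hm')
    (by
      refine (Set.finite_iUnion fun i => finc K S₁ (A i) (h1 i) (h2 i)).subset ?_
      rintro C ⟨_, ⟨i, m, hm, rfl⟩, h⟩
      exact Set.mem_iUnion.2 ⟨i, m, hm, h⟩)
  have hA := S.all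
  have k1 : ∀ x : Pt S.W, (∃ (i : I) (m : Ideal (A i)) (hm : m.IsMaximal),
      loc (A i) m hm.isPrime = x.ring) ↔ ∃ i, A i ≤ x.ring := by
    intro x
    constructor
    · rintro ⟨i, m, hm, e⟩
      exact ⟨i, e ▸ le_loc _ _ _⟩
    · rintro ⟨i, hi⟩
      have hm := ((mdl S).geo x).hasVal.ctr_isMaximal hi
      obtain ⟨y, hy⟩ := hS _ ⟨i, _, hm, rfl⟩
      have e := hA.pt_ext y x (hy ▸ loc_ctr_le hi)
      exact ⟨i, _, hm, by rw [← hy, e]⟩
  have k2 : ∀ i, ∃ D : Finset (Crv S.W), ∀ x : Pt S.W, A i ≤ x.ring ↔ Off D x := by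
    intro i
    obtain ⟨s, hs⟩ := (Subalgebra.fg_iff_finiteType _).2 (h1 i)
    have hf : {C : Crv S.W | ∃ a ∈ s, C.ord a < 0}.Finite :=
      (s.finite_toSet.biUnion fun a _ => hA.fin_div a).subset fun C ⟨a, ha, h⟩ =>
        Set.mem_biUnion (x := a) ha h.ne
    refine ⟨hf.toFinset, fun x => ⟨fun h C hC hx => ?_, fun h => ?_⟩⟩
    · obtain ⟨a, ha, h5⟩ := hf.mem_toFinset.1 hC
      exact h5.not_ge (Pl.ord_nonneg_of_mem _ (hx a (h (hs ▸ Algebra.subset_adjoin ha))))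
    · rw [← hs]
      refine Algebra.adjoin_le fun a ha => (hA.normal x a).1 (Or.inr fun C hC => ?_)
      by_contra hc
      exact h C (hf.mem_toFinset.2 ⟨a, ha, by simpa using hc⟩) hC
  choose D hD using k2
  have hf : {x : Pt S.W | ∃ C ∈ D i₀, ∃ C' ∈ Finset.univ.biUnion D,
      C ≠ C' ∧ x.On C ∧ x.On C'}.Finite := by
    refine ((D i₀).finite_toSet.biUnion fun C _ =>
      (Finset.univ.biUnion D).finite_toSet.biUnion fun C' _ =>
        (?_ : {x : Pt S.W | C ≠ C' ∧ x.On C ∧ x.On C'}.Finite)).subset ?_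
    · by_cases e : C = C'
      · simp [e]
      · exact (hA.fin_meet C C' e).subset fun x hx => hx.2
    · rintro x ⟨C, hC, C', hC', h⟩
      exact Set.mem_biUnion (x := C) hC (Set.mem_biUnion (x := C') hC' h)
  obtain ⟨S', D', s1, -, s2, -⟩ := snc K S ((D i₀).filter fun C => ∀ i, C ∈ D i)
    (hf.toFinset.filter fun x => ¬ ∃ i, A i ≤ x.ring)
  refine ⟨S', D', s1, fun O => (s2 O).trans ⟨?_, fun h => ?_⟩⟩
  · rintro ⟨x, h5, h6, rfl⟩
    refine (k1 x).2 ?_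
    by_contra hc
    refine h6 (Finset.mem_filter.2 ⟨hf.mem_toFinset.2 ?_, hc⟩)
    have h7 : ∀ i, ∃ C ∈ D i, x.On C := fun i => by
      by_contra h8
      push Not at h8
      exact hc ⟨i, (hD i x).2 h8⟩
    obtain ⟨C, hC, hx⟩ := h7 i₀
    have h8 : ¬ ∀ i, C ∈ D i := fun h => h5 C (Finset.mem_filter.2 ⟨hC, h⟩) hx
    push Not at h8
    obtain ⟨i, hi⟩ := h8
    obtain ⟨C', hC', hx'⟩ := h7 i
    exact ⟨C, hC, C', Finset.mem_biUnion.2 ⟨i, Finset.mem_univ i, hC'⟩,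
      fun e => hi (e ▸ hC'), hx, hx'⟩
  · obtain ⟨x, rfl⟩ := hS O h
    obtain ⟨i, hi⟩ := (k1 x).1 h
    exact ⟨x, fun C hC => (hD i x).1 hi C ((Finset.mem_filter.1 hC).2 i),
      fun hx => (Finset.mem_filter.1 hx).2 ⟨i, hi⟩, rfl⟩

end Vale.Agent.P253Y.Res
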