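import Vale.Agent.P253Y.Res.Sk

/-! A smooth subdivision of the quadrant. -/

namespace Vale.Agent.P253Y.Res

namespace Cb

/-- the determinant -/
def dt (u v : ℤ × ℤ) : ℤ := u.1 * v.2 - u.2 * v.1

/-- a form that is positive on the second quadrant -/
def ht (u : ℤ × ℤ) : ℤ := u.2 - u.1

theorem posl {a b : ℤ} (h : 0 < a * b) (ha : 0 ≤ a) : 0 < b := by
  by_contra hb
  exact absurd h (not_lt.2 (mul_nonpos_of_nonneg_of_nonpos ha (not_lt.1 hb)))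

theorem posr {a b : ℤ} (h : 0 < a * b) (hb : 0 ≤ b) : 0 < a := posl (mul_comm a b ▸ h) hb

theorem rel (a b c : ℤ × ℤ) : dt a c * ht b = dt b c * ht a + dt a b * ht c := by
  unfold dt ht
  ring

theorem tr {a b c : ℤ × ℤ} (ha : 0 < ht a) (hb : 0 < ht b) (hc : 0 < ht c) (h1 : 0 ≤ dt a b)
    (h2 : 0 ≤ dt b c) : 0 ≤ dt a c := by
  have h : 0 ≤ dt a c * ht b := by rw [rel]; positivity
  exact le_of_mul_le_mul_right (by simpa using h) hb

theorem tr' {a b c : ℤ × ℤ} (ha : 0 < ht a) (hb : 0 < ht b) (hc : 0 < ht c) (h1 : 0 < dt a b)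
    (h2 : 0 < dt b c) : 0 < dt a c := by
  have h : 0 < dt a c * ht b := by rw [rel]; positivity
  exact posr h hb.le

theorem dt_self (a : ℤ × ℤ) : dt a a = 0 := by
  unfold dt
  ring

theorem dt_swap (a b : ℤ × ℤ) : dt a b = -dt b a := by
  unfold dt
  ring

variable (Λ : AddSubgroup (ℤ × ℤ))

/-- a primitive vector -/
def Prim (w : ℤ × ℤ) : Prop :=
  w ∈ Λ ∧ 0 < ht w ∧ ∀ z ∈ Λ, dt z w = 0 → 0 < ht z → ht w ≤ ht z

/-- a pair of generators -/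
def Gen (u v : ℤ × ℤ) : Prop := ∀ l ∈ Λ, ∃ x y : ℤ, l = x • u + y • v

variable {Λ}

theorem exists_prim {w : ℤ × ℤ} (hw : w ∈ Λ) (h0 : 0 < ht w) :
    ∃ z, Prim Λ z ∧ dt z w = 0 ∧ ht z ≤ ht w := by
  obtain ⟨k, ⟨z, hz, h1, h2, rfl⟩, hmin⟩ := Int.exists_least_of_bdd
    (P := fun k => ∃ z ∈ Λ, dt z w = 0 ∧ 0 < ht z ∧ ht z = k)
    ⟨0, fun k ⟨z, _, _, h2, e⟩ => e ▸ h2.le⟩ ⟨_, w, hw, dt_self w, h0, rfl⟩
  refine ⟨z, ⟨hz, h2, fun y hy e h3 => hmin _ ⟨y, hy, ?_, h3, rfl⟩⟩, h1,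
    hmin _ ⟨w, hw, dt_self w, h0, rfl⟩⟩
  have h := rel y z w
  rw [e, h1, zero_mul, zero_mul, add_zero] at h
  exact (mul_eq_zero.1 h).resolve_right h2.ne'

theorem exists_mid {u v : ℤ × ℤ} (hu : Prim Λ u) (hv : Prim Λ v) (hd : 0 < dt u v)
    (hg : ¬ Gen Λ u v) :
    ∃ w, Prim Λ w ∧ 0 < dt u w ∧ dt u w < dt u v ∧ 0 < dt w v ∧ dt w v < dt u v := by
  unfold Gen at hg
  push Not at hg
  obtain ⟨l, hl, hn⟩ := hg
  obtain ⟨w, hw⟩ : ∃ w, w = l - ((dt l v / dt u v) • u + (dt u l / dt u v) • v) := ⟨_, rfl⟩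
  have hm : w ∈ Λ := hw ▸ sub_mem hl (add_mem (Λ.zsmul_mem hu.1 _) (Λ.zsmul_mem hv.1 _))
  have e1 : dt w v = dt l v % dt u v := by
    rw [Int.emod_def, hw]
    generalize dt l v / dt u v = x
    generalize dt u l / dt u v = y
    simp only [dt, Prod.fst_sub, Prod.snd_sub, Prod.fst_add, Prod.snd_add, Prod.smul_fst,
      Prod.smul_snd, smul_eq_mul]
    ring
  have e2 : dt u w = dt u l % dt u v := by
    rw [Int.emod_def, hw]
    generalize dt l v / dt u v = x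
    generalize dt u l / dt u v = y
    simp only [dt, Prod.fst_sub, Prod.snd_sub, Prod.fst_add, Prod.snd_add, Prod.smul_fst,
      Prod.smul_snd, smul_eq_mul]
    ring
  have a1 : 0 ≤ dt w v := e1 ▸ Int.emod_nonneg _ hd.ne'
  have a2 : 0 ≤ dt u w := e2 ▸ Int.emod_nonneg _ hd.ne'
  have b1 : dt w v < dt u v := e1 ▸ Int.emod_lt_of_pos _ hd
  have b2 : dt u w < dt u v := e2 ▸ Int.emod_lt_of_pos _ hd
  have hr := rel u w v
  have hu0 := hu.2.1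
  have hv0 := hv.2.1
  have hne : ¬ (dt w v = 0 ∧ dt u w = 0) := by
    rintro ⟨c1, c2⟩
    refine hn _ _ (sub_eq_zero.1 (hw.symm.trans ?_))
    have f1 : dt u v * w.1 = dt w v * u.1 + dt u w * v.1 := by unfold dt; ring
    have f2 : dt u v * w.2 = dt w v * u.2 + dt u w * v.2 := by unfold dt; ring
    rw [c1, c2, zero_mul, zero_mul, add_zero] at f1 f2
    exact Prod.ext ((mul_eq_zero.1 f1).resolve_left hd.ne') ((mul_eq_zero.1 f2).resolve_left hd.ne')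
  have c1 : 0 < dt w v := by
    refine a1.lt_of_ne fun c => ?_
    have c2 : 0 < dt u w := a2.lt_of_ne fun c' => hne ⟨c.symm, c'.symm⟩
    rw [← c, zero_mul, zero_add] at hr
    have h0 : 0 < ht w := posl (hr ▸ mul_pos c2 hv0) hd.le
    have := hv.2.2 w hm c.symm h0
    nlinarith
  have c2 : 0 < dt u w := by
    refine a2.lt_of_ne fun c => ?_
    rw [← c, zero_mul, add_zero] at hr
    have h0 : 0 < ht w := posl (hr ▸ mul_pos c1 hu0) hd.le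
    have := hu.2.2 w hm (by rw [dt_swap, ← c, neg_zero]) h0
    nlinarith
  have h0 : 0 < ht w := posl (by rw [hr]; positivity) hd.le
  obtain ⟨z, hz, d0, d1⟩ := exists_prim hm h0
  have hz0 := hz.2.1
  have r1 := rel u w z
  have r2 := rel z w v
  rw [dt_swap w z, d0, neg_zero, zero_mul, zero_add] at r1
  rw [d0, zero_mul, add_zero] at r2
  refine ⟨z, hz, posr (r1 ▸ mul_pos c2 hz0) h0.le, ?_,
    posr (r2 ▸ mul_pos c1 hz0) h0.le, ?_⟩
  · refine lt_of_le_of_lt (le_of_mul_le_mul_right ?_ h0) b2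
    rw [r1]
    exact mul_le_mul_of_nonneg_left d1 a2
  · refine lt_of_le_of_lt (le_of_mul_le_mul_right ?_ h0) b1
    rw [r2]
    exact mul_le_mul_of_nonneg_left d1 a1

variable (Λ) in
/-- the subdivision of the cone between `u` and `v` -/
def Sub (u v : ℤ × ℤ) : Prop :=
  ∃ E : Finset (ℤ × ℤ), (∀ e ∈ E, e ∈ Λ ∧ 0 < ht e ∧ 0 < dt u e ∧ 0 < dt e v) ∧
    ∀ M : AddSubmonoid (ℤ × ℤ), u ∈ M → -v ∈ M → (∀ e ∈ E, e ∈ M ∨ -e ∈ M) →
      ∃ b c, Prim Λ b ∧ Prim Λ c ∧ b ∈ M ∧ -c ∈ M ∧ Gen Λ b c ∧ 0 < dt b c ∧ 0 ≤ dt u b ∧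
        0 ≤ dt c v ∧ ∀ e ∈ E, 0 ≤ dt e b ∨ 0 ≤ dt c e

theorem glue {u v w : ℤ × ℤ} (hu : Prim Λ u) (hv : Prim Λ v) (hw : Prim Λ w) (h1 : 0 < dt u w)
    (h2 : 0 < dt w v) (s1 : Sub Λ u w) (s2 : Sub Λ w v) : Sub Λ u v := by
  obtain ⟨E₁, p1, q1⟩ := s1
  obtain ⟨E₂, p2, q2⟩ := s2
  refine ⟨insert w (E₁ ∪ E₂), fun e he => ?_, fun M m1 m2 hM => ?_⟩
  · rcases Finset.mem_insert.1 he with rfl | he
    · exact ⟨hw.1, hw.2.1, h1, h2⟩
    rcases Finset.mem_union.1 he with he | he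
    · obtain ⟨a1, a2, a3, a4⟩ := p1 e he
      exact ⟨a1, a2, a3, tr' a2 hw.2.1 hv.2.1 a4 h2⟩
    · obtain ⟨a1, a2, a3, a4⟩ := p2 e he
      exact ⟨a1, a2, tr' hu.2.1 hw.2.1 a2 h1 a3, a4⟩
  rcases hM w (Finset.mem_insert_self _ _) with hm | hm
  · obtain ⟨b, c, hb, hc, a1, a2, a3, a4, a5, a6, a7⟩ := q2 M hm m2 fun e he =>
      hM e (Finset.mem_insert_of_mem (Finset.mem_union_right _ he))
    refine ⟨b, c, hb, hc, a1, a2, a3, a4, tr hu.2.1 hw.2.1 hb.2.1 h1.le a5, a6, fun e he => ?_⟩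
    rcases Finset.mem_insert.1 he with rfl | he
    · exact Or.inl a5
    rcases Finset.mem_union.1 he with he | he
    · obtain ⟨-, c2, -, c4⟩ := p1 e he
      exact Or.inl (tr c2 hw.2.1 hb.2.1 c4.le a5)
    · exact a7 e he
  · obtain ⟨b, c, hb, hc, a1, a2, a3, a4, a5, a6, a7⟩ := q1 M m1 hm fun e he =>
      hM e (Finset.mem_insert_of_mem (Finset.mem_union_left _ he))
    refine ⟨b, c, hb, hc, a1, a2, a3, a4, a5, tr hc.2.1 hw.2.1 hv.2.1 a6 h2.le, fun e he => ?_⟩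
    rcases Finset.mem_insert.1 he with rfl | he
    · exact Or.inr a6
    rcases Finset.mem_union.1 he with he | he
    · exact a7 e he
    · obtain ⟨-, c2, c3, -⟩ := p2 e he
      exact Or.inr (tr hc.2.1 hw.2.1 c2 a6 c3.le)

theorem sub (N : ℕ) : ∀ u v : ℤ × ℤ, Prim Λ u → Prim Λ v → 0 < dt u v → dt u v ≤ N →
    Sub Λ u v := by
  induction N with
  | zero => intro u v _ _ h1 h2; exact absurd (h1.trans_le h2) (by simp)
  | succ N ih =>
    intro u v hu hv h1 h2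
    by_cases hg : Gen Λ u v
    · exact ⟨∅, by simp, fun M m1 m2 _ =>
        ⟨u, v, hu, hv, m1, m2, hg, h1, (dt_self u).ge, (dt_self v).ge, by simp⟩⟩
    obtain ⟨w, hw, a1, a2, a3, a4⟩ := exists_mid hu hv h1 hg
    push_cast at h2
    exact glue hu hv hw a1 a3 (ih u w hu hw a1 (by omega)) (ih w v hw hv a3 (by omega))

theorem mem_cl {b c l : ℤ × ℤ} (hg : Gen Λ b c) (hd : 0 < dt b c) (hl : l ∈ Λ)
    (h1 : 0 ≤ dt l b) (h2 : 0 ≤ dt l c) : l ∈ AddSubmonoid.closure {-c, b} := by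
  obtain ⟨x, y, rfl⟩ := hg l hl
  have e1 : dt (x • b + y • c) b = -y * dt b c := by
    simp only [dt, Prod.fst_add, Prod.snd_add, Prod.smul_fst, Prod.smul_snd, smul_eq_mul]
    ring
  have e2 : dt (x • b + y • c) c = x * dt b c := by
    simp only [dt, Prod.fst_add, Prod.snd_add, Prod.smul_fst, Prod.smul_snd, smul_eq_mul]
    ring
  rw [e1] at h1
  rw [e2] at h2
  obtain ⟨x', rfl⟩ := Int.eq_ofNat_of_zero_le (nonneg_of_mul_nonneg_left h2 hd)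
  obtain ⟨y', hy⟩ := Int.eq_ofNat_of_zero_le (nonneg_of_mul_nonneg_left h1 hd)
  refine AddSubmonoid.mem_closure_pair _ _ _ |>.2 ⟨y', x', ?_⟩
  rw [← natCast_zsmul, ← natCast_zsmul, ← hy, neg_smul, smul_neg, neg_neg, add_comm]

end Cb

open Cb in
theorem comb : COMB := by
  intro Λ n hn h1 h2
  have hn' : (0 : ℤ) < n := by exact_mod_cast hn
  obtain ⟨u, hu, u1, -⟩ := exists_prim h2 (by simpa [ht] using hn)
  obtain ⟨v, hv, v1, -⟩ := exists_prim (Λ.neg_mem h1) (by simpa [ht] using hn)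
  have u2 : u.1 = 0 := by simpa [dt, hn.ne'] using u1
  have v2 : v.2 = 0 := by simpa [dt, hn.ne'] using v1
  have u3 : 0 < u.2 := by simpa [ht, u2] using hu.2.1
  have v3 : v.1 < 0 := by simpa [ht, v2] using hv.2.1
  have du : ∀ e, dt u e = u.2 * -e.1 := fun e => by rw [dt, u2]; ring
  have dv : ∀ e, dt e v = -v.1 * e.2 := fun e => by rw [dt, v2]; ring
  have hd : 0 < dt u v := by rw [du]; exact mul_pos u3 (by omega)
  obtain ⟨E, p, q⟩ := sub (dt u v).toNat u v hu hv hd (by omega)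
  refine ⟨E, fun e he => ?_, fun M m hM => ?_⟩
  · obtain ⟨a1, -, a3, a4⟩ := p e he
    rw [du] at a3
    rw [dv] at a4
    exact ⟨a1, neg_pos.1 (posl a3 u3.le),
      posl a4 (by omega)⟩
  obtain ⟨b, c, hb, hc, a1, a2, a3, a4, a5, a6, a7⟩ := q M (m u hu.1 ⟨u2.ge, u3.le⟩)
    (m _ (Λ.neg_mem hv.1) ⟨by simpa using v3.le, by simp [v2]⟩) hM
  have a8 := tr hu.2.1 hb.2.1 hc.2.1 a5 a4.le
  have a9 := tr hb.2.1 hc.2.1 hv.2.1 a4.le a6
  rw [du] at a5 a8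
  rw [dv] at a6 a9
  have b1 := nonneg_of_mul_nonneg_right a5 u3
  have c1 := nonneg_of_mul_nonneg_right a8 u3
  have b2 := nonneg_of_mul_nonneg_right a9 (neg_pos.2 v3)
  have c2 := nonneg_of_mul_nonneg_right a6 (neg_pos.2 v3)
  refine ⟨-c, a2, b, a1, Λ.neg_mem hc.1, hb.1, fun l hl l0 => mem_cl a3 a4 hl ?_ ?_,
    fun e he => ?_⟩
  · have l1 : 0 ≤ l.1 := l0.1
    have l2 : 0 ≤ l.2 := l0.2
    unfold dt
    nlinarith [mul_nonneg l1 b2, mul_nonneg l2 b1]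
  · have l1 : 0 ≤ l.1 := l0.1
    have l2 : 0 ≤ l.2 := l0.2
    unfold dt
    nlinarith [mul_nonneg l1 c2, mul_nonneg l2 c1]
  obtain ⟨e1, e2, -, -⟩ := p e he
  have hneg : ∀ z, dt (-e) z = dt z e := fun z => by
    simp only [dt, Prod.fst_neg, Prod.snd_neg]
    ring
  rcases a7 e he with h | h
  · exact Or.inl (mem_cl a3 a4 e1 h (tr e2 hb.2.1 hc.2.1 h a4.le))
  · refine Or.inr (mem_cl a3 a4 (Λ.neg_mem e1) ?_ ?_)
    · rw [hneg]
      exact tr hb.2.1 hc.2.1 e2 a4.le h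
    · rw [hneg]
      exact h

end Vale.Agent.P253Y.Res
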