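import Vale.Agent.P253Y.Res.Sk
import Vale.Agent.P297Y.Alg.Cs
import Vale.Agent.P297Y.Alg.Kill

/-! Over a regular point that is not a point of the surface lies an exceptional curve. -/

set_option linter.all false

open IsLocalRing Polynomial

namespace Vale.Agent.P253Y.Res

open Vale.Agent.P297Z Vale.Agent.P297Z.Sf

theorem con0 (h1 : REG) (h2 : CENT) : CON0 := by
  rintro K _ _ S z hz ⟨u, v, huv⟩ hO hx
  have := hz.isLocalRing
  have hR := h1 K S.model.td z ⟨u, huv.1.1⟩ ⟨v, huv.2.1.1⟩ hz huv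
  obtain ⟨V, hV⟩ := Ct.exists_dom z
  have hne : V ≠ ⊤ := by
    rintro rfl
    have u0 : u ≠ 0 := fun e => hR.pu.ne_zero (Subtype.ext e)
    exact huv.1.2.resolve_left u0 (hV.2 u huv.1.1 (ValuationSubring.mem_top _))
  rcases (h2 K S).ex V hV.const hne with ⟨x, hxV⟩ | ⟨C, rfl⟩
  swap
  · exact ⟨C, hV⟩
  have hle := hO x V hxV hV
  obtain ⟨f, hf, hfz⟩ : ∃ f ∈ x.ring, f ∉ z := by
    by_contra hc
    exact hx x (le_antisymm (fun f hf => by_contra fun h => hc ⟨f, hf, h⟩) hle)
  have := hR.ufd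
  have := hz.frac
  obtain ⟨a, ⟨b, hb⟩, hab, e⟩ := IsFractionRing.exists_reduced_fraction z f
  have b0 : (b : K) ≠ 0 := fun h => nonZeroDivisors.ne_zero hb (Subtype.ext h)
  have e1 : (a : K) = f * b := by
    rw [IsFractionRing.mk'_eq_div] at e
    exact (div_eq_iff b0).1 e
  have hbz : (b : K)⁻¹ ∉ z := fun h => hfz (by
    rw [← mul_inv_cancel_right₀ b0 f, ← e1]
    exact mul_mem a.2 h)
  have hbx : ¬ IsUnit (⟨b, hle b.2⟩ : x.ring) := fun h =>
    hbz (hV.2 b b.2 (hxV.1 _ ((isUnit_iff_inv _).1 h).2))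
  have := S.all.ufd x
  obtain ⟨t, ht, htb⟩ := WfDvdMonoid.exists_irreducible_factor hbx
    (fun h => b0 (congrArg Subtype.val h))
  have ht' : Prime t := ht.prime
  obtain ⟨C, hC, -, -, hdvd⟩ := S.all.crv_of_irr x t ht'
  have := (Ideal.span_singleton_prime ht'.ne_zero).2 ht'
  let p : Ideal z := (Ideal.span {t}).comap (Subalgebra.inclusion hle)
  have hp : p.IsPrime := Ideal.comap_isPrime _ _
  have hmem : ∀ g : z, g ∈ p ↔ t ∣ ⟨g, hle g.2⟩ := fun g => Ideal.mem_span_singleton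
  have hpm : p.IsMaximal := by
    by_contra hc
    obtain ⟨g, hg⟩ := hR.prin p hp hc
    have k1 : b ∈ p := (hmem b).2 htb
    have k2 : a ∈ p := (hmem a).2 (by
      have : (⟨a, hle a.2⟩ : x.ring) = ⟨f, hf⟩ * ⟨b, hle b.2⟩ := Subtype.ext e1
      rw [this]
      exact htb.mul_left _)
    rw [hg] at k1 k2
    have k3 : IsUnit g := hab (Ideal.mem_span_singleton.1 k2) (Ideal.mem_span_singleton.1 k1)
    exact hp.ne_top (hg.trans (Ideal.span_singleton_eq_top.2 k3))
  refine ⟨C, fun g hg => hC g (hle hg), fun g hg hi => by_contra fun hc => ?_⟩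
  have k1 : (⟨g, hg⟩ : z) ∈ p := by
    rw [eq_maximalIdeal hpm]
    exact (mem_max_iff _).2 (Or.inr hc)
  rcases (hdvd _).1 ((hmem _).1 k1) with h | h
  · have h' : g = 0 := h
    rw [h', inv_zero] at hc
    exact hc z.zero_mem
  · exact h.ne' (Pl.ord_unit C.pl (hC g (hle hg)) hi)

theorem con1 (h0 : CON0) (hN : NEG) (hK : KREL) : CON1 := by
  intro K _ _ S z hz h2 hO hx
  obtain ⟨C₁, hC₁⟩ := h0 K S z hz h2 hO hx
  obtain ⟨F, hF, hF0⟩ := hN K S z hz hO
  obtain ⟨Z, hZ, hZ0⟩ := hK K S z hz h2 hO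
  have hmem : ∀ C, C ∈ F.support ↔ Ct.Dom z C.pl.ring := fun C => by
    rw [Finsupp.mem_support_iff]
    exact ⟨fun h => by_contra fun hc => h (hF0 C hc), fun h => (hF C h).1.ne'⟩
  obtain ⟨E, hE, hmax⟩ := F.support.exists_max_image (fun C => (Z C : ℚ) / F C)
    ⟨C₁, (hmem _).2 hC₁⟩
  rw [hmem] at hE
  obtain ⟨f1, f2⟩ := hF E hE
  obtain ⟨z1, z2⟩ := hZ E hE
  have key : ∀ D : Sf.Div S.W, 0 ≤ D → D E = 0 → 0 ≤ inter D (Finsupp.single E 1) :=
    fun D h h' => inter_nonneg S.all.inte h (Finsupp.single_nonneg.2 zero_le_one) fun C => by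
      by_cases e : C = E
      · exact Or.inl (e ▸ h')
      · exact Or.inr (Finsupp.single_eq_of_ne e)
  have k1 := key (Z E • F - F E • Z) (fun C => by
    simp only [Finsupp.coe_zero, Pi.zero_apply, Finsupp.sub_apply, Finsupp.smul_apply,
      smul_eq_mul]
    by_cases h : Ct.Dom z C.pl.ring
    · have a1 := hmax C ((hmem C).2 h)
      have a2 : (0 : ℚ) < F C := by exact_mod_cast (hF C h).1
      have a3 : (0 : ℚ) < F E := by exact_mod_cast f1
      rw [div_le_div_iff₀ a2 a3] at a1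
      have a4 : Z C * F E ≤ Z E * F C := by exact_mod_cast a1
      linarith
    · rw [hF0 C h, hZ0 C h]
      simp) (by simp [mul_comm])
  have k2 := key (F - F E • Finsupp.single E 1) (fun C => by
    simp only [Finsupp.coe_zero, Pi.zero_apply, Finsupp.sub_apply, Finsupp.smul_apply,
      smul_eq_mul]
    by_cases e : C = E
    · simp [e]
    · rw [Finsupp.single_eq_of_ne e, mul_zero, sub_zero]
      by_cases h : Ct.Dom z C.pl.ring
      · exact (hF C h).1.le
      · exact (hF0 C h).ge) (by simp)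
  have k3 := gle cs K S E
  rw [← interHom_apply S.all.toRR, map_sub, map_zsmul, map_zsmul, AddMonoidHom.sub_apply,
    AddMonoidHom.zsmul_apply, AddMonoidHom.zsmul_apply, interHom_apply, interHom_apply,
    smul_eq_mul, smul_eq_mul, ← z2] at k1
  rw [← interHom_apply S.all.toRR, map_sub, map_zsmul, AddMonoidHom.sub_apply,
    AddMonoidHom.zsmul_apply, interHom_apply, interHom_apply, smul_eq_mul] at k2
  have k4 : inter S.kap (Finsupp.single E 1) < 0 := by
    by_contra hc
    have a1 := mul_nonneg f1.le (not_lt.1 hc)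
    have a2 := mul_neg_of_pos_of_neg z1 f2
    linarith
  have k5 : inter (Finsupp.single E 1) (Finsupp.single E 1 : Sf.Div S.W) < 0 := by
    by_contra hc
    have a1 := mul_nonneg f1.le (not_lt.1 hc)
    linarith
  have k6 : -2 ≤ inter (Finsupp.single E 1) (Finsupp.single E 1 : Sf.Div S.W) +
      inter S.kap (Finsupp.single E 1) := le_trans (by omega) k3
  exact ⟨E, hE, by omega, by omega⟩

end Vale.Agent.P253Y.Res
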