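import Vale.Agent.P253Y.Res.Sk
import Vale.Agent.P297Y.Ctr.Model

/-! Contraction of the curves over regular points. -/

set_option linter.all false

open IsLocalRing Polynomial

namespace Vale.Agent.P253Y.Res

open Vale.Agent.P297Z Vale.Agent.P297Z.Sf

namespace Cn

variable {K : Type} [Field K] [Algebra ℂ K]

theorem dom_down {W W' : Submodule ℂ K} {p : Pt W' → Pt W} (h : Dominates p) {y : Pt W'}
    {V : ValuationSubring K} (hV : Ct.Dom y.ring V) : Ct.Dom (p y).ring V := by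
  refine ⟨fun f hf => hV.1 f ((h y).1 hf), fun f hf hi => ?_⟩
  by_contra hc
  rcases ((h y).2 f ⟨hf, Or.inr hc⟩).2 with h0 | h0
  · exact hc (by rw [h0, inv_zero]; exact zero_mem _)
  · exact h0 (hV.2 f ((h y).1 hf) hi)

theorem dom_le {z : Subalgebra ℂ K} (hz : Geo z) {V R : ValuationSubring K} (h : Ct.Dom z R)
    (hle : V ≤ R) (hc : ∀ c, algebraMap ℂ K c ∈ V) : Ct.Dom z V := by
  refine ⟨fun f hf => ?_, fun f hf hi => h.2 f hf (hle hi)⟩
  obtain ⟨c, h1, h2⟩ := hz.val hf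
  have h3 : f - algebraMap ℂ K c ∈ V := by
    rcases h2 with h0 | h0
    · rw [h0]
      exact zero_mem _
    · exact (V.mem_or_inv_mem _).resolve_right fun hi => h0 (h.2 _ h1 (hle hi))
  simpa using add_mem h3 (hc c)

theorem ne_top (S : Surf K) (x : Pt S.W) {V : ValuationSubring K} (h : Ct.Dom x.ring V) :
    V ≠ ⊤ := by
  rintro rfl
  have h1 : IsField x.ring := ⟨⟨0, 1, zero_ne_one⟩, mul_comm, fun {a} ha =>
    ⟨⟨(a : K)⁻¹, h.2 _ a.2 (ValuationSubring.mem_top _)⟩,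
      Subtype.ext (mul_inv_cancel₀ fun e => ha (Subtype.ext e))⟩⟩
  have h2 := S.all.dim x
  rw [ringKrullDim_eq_zero_of_isField h1] at h2
  exact absurd h2 (by decide)

theorem le_on {S : Surf K} (hS : Cent S) {z : Subalgebra ℂ K} (hz : Geo z) (ho : Over S z)
    {E : Crv S.W} (hE : Ct.Dom z E.pl.ring) {x : Pt S.W} (hx : x.On E) : z ≤ x.ring := by
  obtain ⟨V, h1, h2⟩ := hS.lift x E hx
  exact ho x V h2 (dom_le hz hE h1.le h2.const)

end Cn

open Cn

theorem con2 (hC : CENT) : CON2 := by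
  intro K _ _ S S' E c z z' hz hz' ho ho' hE hsep x' V hx' hV
  have hS : Cent S := hC K S
  have hS' : Cent S' := hC K S'
  have key : ∃ x : Pt S.W, c.p x = x' ∧ z' ≤ x.ring ∧ (x.On E → z = z') := by
    rcases hS.ex V hV.const (ne_top S' x' hx') with ⟨x, hx⟩ | ⟨C, hCV⟩
    · refine ⟨x, hS'.uniq V _ _ (dom_down c.dom hx) hx', ho' x V hx hV, fun hxE => hsep V ?_ hV⟩
      have h1 := le_on hS hz ho hE hxE
      exact ⟨fun f hf => hx.1 f (h1 hf), fun f hf hi => hE.2 f hf (hxE _ (hx.2 f (h1 hf) hi))⟩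
    · subst hCV
      by_cases hCE : C = E
      · subst hCE
        obtain ⟨w, hw, hin⟩ := C.exists_in
        obtain ⟨x, hx, -⟩ := (S.all.inf_pt C w hw hin).nonempty
        obtain ⟨V₁, h1, h2⟩ := hS.lift x C hx
        have e := hsep _ hE hV
        exact ⟨x, hS'.uniq V₁ _ _ (dom_down c.dom h2)
          (dom_le ((mdl S').geo x') hx' h1.le h2.const), e ▸ le_on hS hz ho hE hx, fun _ => e⟩
      · obtain ⟨C', rfl⟩ := c.all C hCE
        rw [c.pl] at hx'
        exact (hS'.not_crv x' C' hx').elim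
  obtain ⟨x, e, hle, hon⟩ := key
  intro f hf
  refine (S'.all.normal x' f).1 (or_iff_not_imp_left.2 fun _ C' hC' => ?_)
  obtain ⟨V₁, h1, h2⟩ := hS'.lift x' C' hC'
  rcases hS.ex V₁ h2.const (ne_top S' x' h2) with ⟨y, hy⟩ | ⟨C, hCV⟩
  · have h3 : z' ≤ y.ring := by
      rcases c.inj x y (e.trans (hS'.uniq V₁ _ _ h2 (dom_down c.dom hy))) with h | h
      · exact h ▸ hle
      · exact hon h.1 ▸ le_on hS hz ho hE h.2
    simpa using Pl.ord_nonneg_of_mem C'.pl (h1.le (hy.1 f (h3 hf)))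
  · subst hCV
    exact (h1.ne (Pl.ring_eq_of_le h1.le (Pl.ring_ne_top _))).elim

theorem con (h1 : CON1) (h2 : CON2) : CON := by
  intro K _ _ S M hM hsep hfin
  generalize hn : {C : Crv S.W | ∃ z ∈ M, Ct.Dom z C.pl.ring}.ncard = n
  induction n using Nat.strong_induction_on generalizing S with
  | _ n ih =>
  by_cases h : ∀ z ∈ M, ∃ x : Pt S.W, x.ring = z
  · exact ⟨S, h⟩
  push Not at h
  obtain ⟨z, hz, hne⟩ := h
  obtain ⟨E, hE, hexc⟩ := h1 K S z (hM z hz).1 (hM z hz).2.1 (hM z hz).2.2 hne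
  obtain ⟨S', ⟨c⟩⟩ := Ct.contr K S S.all E hexc
  have hi : Function.Injective c.ι := fun C C' e =>
    Crv.ext ((c.pl C).symm.trans ((congrArg Crv.pl e).trans (c.pl C')))
  have hm : ∀ C ∈ {C : Crv S'.W | ∃ z ∈ M, Ct.Dom z C.pl.ring},
      c.ι C ∈ {C : Crv S.W | ∃ z ∈ M, Ct.Dom z C.pl.ring} \ {E} := by
    rintro C ⟨y, hy, hd⟩
    exact ⟨⟨y, hy, by rw [c.pl]; exact hd⟩, c.ne C⟩
  refine ih _ ?_ S' (fun y hy => ⟨(hM y hy).1, (hM y hy).2.1, h2 K S S' E c z y (hM z hz).1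
    (hM y hy).1 (hM z hz).2.2 (hM y hy).2.2 hE (hsep z hz y hy)⟩)
    (Set.Finite.of_injOn hm hi.injOn (hfin.subset Set.diff_subset)) rfl
  rw [← hn]
  exact (Set.ncard_le_ncard_of_injOn c.ι hm hi.injOn (hfin.subset Set.diff_subset)).trans_lt
    (Set.ncard_diff_singleton_lt_of_mem ⟨z, hz, hE⟩ hfin)

end Vale.Agent.P253Y.Res
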