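import Vale.Agent.P253Y.Res.Sk

/-! The integral closure of a regular local ring of dimension two is free. -/

set_option linter.all false

open IsLocalRing Polynomial TensorProduct

namespace Vale.Agent.P253Y.Res

namespace Fre

/-- A finite module on which two generators of the maximal ideal form a regular sequence is
free. -/
theorem free_two {A M : Type} [CommRing A] [IsLocalRing A] [IsNoetherianRing A] [AddCommGroup M]
    [Module A M] [Module.Finite A M] (s t : A) (hm : maximalIdeal A = Ideal.span {s, t})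
    (h : ∀ x y : M, s • x + t • y = 0 → ∃ z, y = s • z ∧ x = -(t • z)) : Module.Free A M := by
  have := Module.finitePresentation_of_finite A M
  apply Module.free_of_maximalIdeal_rTensor_injective
  have hs : s ∈ maximalIdeal A := hm ▸ Ideal.subset_span (by simp)
  have ht : t ∈ maximalIdeal A := hm ▸ Ideal.subset_span (by simp)
  have key : ∀ w : maximalIdeal A ⊗[A] M, ∃ x y : M,
      w = (⟨s, hs⟩ : maximalIdeal A) ⊗ₜ x + (⟨t, ht⟩ : maximalIdeal A) ⊗ₜ y := by
    intro w
    induction w using TensorProduct.induction_on with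
    | zero => exact ⟨0, 0, by simp⟩
    | tmul a m =>
      have ha : (a : A) ∈ Ideal.span {s, t} := hm ▸ a.2
      obtain ⟨b, c, e⟩ := Ideal.mem_span_pair.1 ha
      refine ⟨b • m, c • m, ?_⟩
      rw [← smul_tmul, ← smul_tmul, ← add_tmul]
      congr 1
      exact Subtype.ext e.symm
    | add w₁ w₂ h₁ h₂ =>
      obtain ⟨x₁, y₁, rfl⟩ := h₁
      obtain ⟨x₂, y₂, rfl⟩ := h₂
      exact ⟨x₁ + x₂, y₁ + y₂, by rw [tmul_add, tmul_add]; abel⟩
  rw [injective_iff_map_eq_zero]
  intro w hw
  obtain ⟨x, y, rfl⟩ := key w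
  have h1 : s • x + t • y = 0 := by
    have := congrArg (TensorProduct.lid A M) hw
    simpa using this
  obtain ⟨z, rfl, rfl⟩ := h x y h1
  rw [tmul_neg, ← smul_tmul, ← smul_tmul]
  have : (t • (⟨s, hs⟩ : maximalIdeal A)) = s • (⟨t, ht⟩ : maximalIdeal A) :=
    Subtype.ext (mul_comm t s)
  rw [this, neg_add_cancel]

variable {A L K : Type} [CommRing A] [IsDomain A] [Field L] [Field K] [Algebra A L]
  [IsFractionRing A L] [Algebra L K] [Algebra A K] [IsScalarTower A L K]

/-- The coefficients of the minimal polynomial of `z` when `s z` is integral. -/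
theorem coeff_mem [IsIntegrallyClosed A] {s : A} (hs : s ≠ 0) {z : K} (hz : IsIntegral L z)
    (h : IsIntegral A (s • z)) (i : ℕ) :
    ∃ a : A, algebraMap A L a =
      (minpoly L z).coeff i * algebraMap A L s ^ ((minpoly L z).natDegree - i) := by
  have h0 : algebraMap A L s ≠ 0 := by
    simpa using hs
  have h1 := IsIntegrallyClosed.minpoly_smul h0 hz
  rw [algebraMap_smul, minpoly.isIntegrallyClosed_eq_field_fractions' L h] at h1
  refine ⟨(minpoly A (s • z)).coeff i, ?_⟩
  rw [← coeff_scaleRoots, ← h1, coeff_map]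

/-- If `s z` and `t z` are integral, then `z` is integral. -/
theorem integral_of_two [IsIntegrallyClosed A] {s t : A} (hs : Prime s) (hst : ¬ s ∣ t)
    {z : K} (hz : IsIntegral L z) (h1 : IsIntegral A (s • z)) (h2 : IsIntegral A (t • z)) :
    IsIntegral A z := by
  have ht : t ≠ 0 := fun h => hst (h ▸ dvd_zero s)
  have hl : minpoly L z ∈ lifts (algebraMap A L) := by
    rw [lifts_iff_coeffs_subset_range]
    intro c hc
    obtain ⟨i, -, rfl⟩ := mem_coeffs_iff.1 hc
    obtain ⟨a, ha⟩ := coeff_mem hs.ne_zero hz h1 i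
    obtain ⟨b, hb⟩ := coeff_mem ht hz h2 i
    set k := (minpoly L z).natDegree - i
    have e : t ^ k * a = s ^ k * b := by
      apply IsFractionRing.injective A L
      rw [map_mul, map_mul, ha, hb, map_pow, map_pow]
      ring
    have hd : s ^ k ∣ a :=
      hs.pow_dvd_of_dvd_mul_left k (fun h => hst (hs.dvd_of_dvd_pow h)) ⟨b, e⟩
    obtain ⟨c, rfl⟩ := hd
    refine ⟨c, ?_⟩
    have h0 : algebraMap A L s ^ k ≠ 0 := pow_ne_zero _ (by simpa using hs.ne_zero)
    rw [map_mul, map_pow, mul_comm] at ha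
    exact mul_right_cancel₀ h0 ha
  obtain ⟨q, hq, -, hm⟩ := lifts_and_natDegree_eq_and_monic hl (minpoly.monic hz)
  refine ⟨q, hm, ?_⟩
  rw [← aeval_def, ← aeval_map_algebraMap L, hq, minpoly.aeval]

end Fre

theorem free (hR : REG) : FREE := by
  intro L K _ _ _ _ _ _ _ htd A hA hT
  obtain ⟨u, v, hP⟩ := hT
  have hr := hR L htd A ⟨u, hP.1.1⟩ ⟨v, hP.2.1.1⟩ hA hP
  have := hA.isLocalRing
  have := hA.noeth
  have := hA.frac
  have := hr.ufd
  have : CharZero L := charZero_of_injective_algebraMap (algebraMap ℂ L).injective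
  have hf : Module.Finite A (integralClosure A K) :=
    IsIntegralClosure.finite A L K (integralClosure A K)
  refine ⟨hf, Fre.free_two (⟨u, hP.1.1⟩ : A) ⟨v, hP.2.1.1⟩ ((par_iff _ _).2 hP) ?_⟩
  intro x y h
  set s : A := ⟨u, hP.1.1⟩
  set t : A := ⟨v, hP.2.1.1⟩
  have h0 : algebraMap A K s ≠ 0 := by
    rw [IsScalarTower.algebraMap_apply A L K]
    simpa using hr.pu.ne_zero
  have h' : s • (x : K) + t • (y : K) = 0 := congrArg Subtype.val h
  have e1 : s • ((y : K) / algebraMap A K s) = y := by
    rw [Algebra.smul_def]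
    field_simp
  have e2 : t • ((y : K) / algebraMap A K s) = -x := by
    rw [Algebra.smul_def, Algebra.smul_def] at h'
    rw [Algebra.smul_def]
    field_simp
    linear_combination h'
  have hz : IsIntegral A ((y : K) / algebraMap A K s) :=
    Fre.integral_of_two (L := L) hr.pu hr.nd (Algebra.IsIntegral.isIntegral _)
      (by rw [e1]; exact y.2) (by rw [e2]; exact (-x).2)
  refine ⟨⟨_, hz⟩, Subtype.ext e1.symm, Subtype.ext ?_⟩
  change (x : K) = -(t • ((y : K) / algebraMap A K s))
  rw [e2, neg_neg]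

end Vale.Agent.P253Y.Res
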