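import Vale.Agent.P253Y.Res.Sk

/-! Descent from the Kummer extension: the singularity is toric. -/

set_option linter.all false

open IsLocalRing Polynomial

namespace Vale.Agent.P253Y.Res

open Vale.Agent.P297Z Vale.Agent.P297Z.Sf

namespace KumP

variable {K K' : Type} [Field K] [Field K'] [Algebra ℂ K] [Algebra ℂ K'] [Algebra K K']
  [IsScalarTower ℂ K K'] {B : Subalgebra ℂ K} {u v : K} {n n' : ℕ}

/-- a unit of the integral closure -/
def UnR (B : Subalgebra ℂ K) (g : K') : Prop := g ≠ 0 ∧ IsIntegral B g ∧ IsIntegral B g⁻¹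

theorem UnR.mul {f g : K'} (hf : UnR B f) (hg : UnR B g) : UnR B (f * g) :=
  ⟨mul_ne_zero hf.1 hg.1, hf.2.1.mul hg.2.1, by rw [mul_inv]; exact hf.2.2.mul hg.2.2⟩

theorem UnR.inv {f : K'} (hf : UnR B f) : UnR B f⁻¹ :=
  ⟨inv_ne_zero hf.1, hf.2.2, by rw [inv_inv]; exact hf.2.1⟩

theorem UnR.one : UnR B (1 : K') := ⟨one_ne_zero, isIntegral_one, by simpa using isIntegral_one⟩

theorem int_of_mem {b : K} (hb : b ∈ B) : IsIntegral B (algebraMap K K' b) :=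
  isIntegral_algebraMap (x := (⟨b, hb⟩ : B))

theorem mem_of_int (hN : ∀ f : K, IsIntegral B f → f ∈ B) {b : K}
    (hb : IsIntegral B (algebraMap K K' b)) : b ∈ B :=
  hN b ((isIntegral_algebraMap_iff (algebraMap K K').injective).1 hb)

theorem UnR.un (hN : ∀ f : K, IsIntegral B f → f ∈ B) {b : K} (hb : UnR B (algebraMap K K' b)) :
    Un B b :=
  ⟨fun h => hb.1 (by rw [h, map_zero]), mem_of_int hN hb.2.1,
    mem_of_int (K' := K') hN (by rw [map_inv₀]; exact hb.2.2)⟩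

variable (k : Kum K K' u v n n')

/-- the monomials -/
noncomputable def mon (l : ℤ × ℤ) : K' := k.s ^ l.1 * k.t ^ l.2

theorem mon_ne (l : ℤ × ℤ) : mon k l ≠ 0 :=
  mul_ne_zero (zpow_ne_zero _ k.s_ne) (zpow_ne_zero _ k.t_ne)

theorem mon_add (l l' : ℤ × ℤ) : mon k (l + l') = mon k l * mon k l' := by
  simp only [mon, Prod.fst_add, Prod.snd_add, zpow_add₀ k.s_ne, zpow_add₀ k.t_ne]
  ring

theorem mon_neg (l : ℤ × ℤ) : mon k (-l) = (mon k l)⁻¹ := by
  simp only [mon, Prod.fst_neg, Prod.snd_neg, zpow_neg, mul_inv]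

theorem mon_nat (i j : ℕ) : mon k (i, j) = k.s ^ i * k.t ^ j := by simp [mon]

variable (B) in
/-- the lattice -/
def lat : AddSubgroup (ℤ × ℤ) where
  carrier := {l | ∃ κ : K, UnR B (algebraMap K K' κ / mon k l)}
  zero_mem' := ⟨1, by simpa [mon] using UnR.one⟩
  add_mem' := by
    rintro l l' ⟨κ, h⟩ ⟨κ', h'⟩
    exact ⟨κ * κ', by rw [map_mul, mon_add, ← div_mul_div_comm]; exact h.mul h'⟩
  neg_mem' := by
    rintro l ⟨κ, h⟩
    exact ⟨κ⁻¹, by rw [map_inv₀, mon_neg, inv_div_inv, ← inv_div]; exact h.inv⟩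

variable (B) in
/-- the monomials in `K` -/
noncomputable def ph (l : ℤ × ℤ) : K :=
  Classical.epsilon fun κ : K => UnR B (algebraMap K K' κ / mon k l)

theorem ph_spec {l : ℤ × ℤ} (h : l ∈ lat B k) : UnR B (algebraMap K K' (ph B k l) / mon k l) :=
  Classical.epsilon_spec h

theorem s_int (hu : u ∈ B) (hn : 0 < n) : IsIntegral B k.s :=
  IsIntegral.of_pow hn (by rw [k.hs]; exact int_of_mem hu)

theorem t_int (hv : v ∈ B) (hn : 0 < n') : IsIntegral B k.t :=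
  IsIntegral.of_pow hn (by rw [k.ht]; exact int_of_mem hv)

theorem fst_un : UnR B (algebraMap K K' u / mon k ((n : ℕ), (0 : ℕ))) := by
  rw [mon_nat, pow_zero, mul_one, k.hs, div_self (k.hs ▸ pow_ne_zero _ k.s_ne)]
  exact UnR.one

theorem snd_un : UnR B (algebraMap K K' v / mon k ((0 : ℕ), (n' : ℕ))) := by
  rw [mon_nat, pow_zero, one_mul, k.ht, div_self (k.ht ▸ pow_ne_zero _ k.t_ne)]
  exact UnR.one

variable (B) in
/-- the ideal of the monomials -/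
noncomputable def J : Submodule B K :=
  Submodule.span B (ph B k '' {l | l ∈ lat B k ∧ 0 ≤ l ∧ l ≠ 0})

theorem mem_J (hN : ∀ f : K, IsIntegral B f → f ∈ B) {i j : ℕ} (h0 : i ≠ 0 ∨ j ≠ 0) {κ : K}
    (h : UnR B (algebraMap K K' κ / mon k (i, j))) {b : K} (hb : b ∈ B) : b * κ ∈ J B k := by
  have hl : ((i : ℤ), (j : ℤ)) ∈ lat B k := ⟨κ, h⟩
  have h1 := ph_spec k hl
  have h2 := h.mul h1.inv
  rw [inv_div, div_mul_div_cancel₀ (mon_ne k _), ← map_div₀] at h2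
  have h3 := h2.un hN
  have h4 : ph B k (i, j) ≠ 0 := fun e => h3.1 (by rw [e, div_zero])
  have h5 : b * κ = (⟨b * (κ / ph B k (i, j)), mul_mem hb h3.2.1⟩ : B) • ph B k (i, j) := by
    change _ = b * (κ / ph B k (i, j)) * ph B k (i, j)
    rw [mul_assoc, div_mul_cancel₀ _ h4]
  rw [h5]
  refine Submodule.smul_mem _ _ (Submodule.subset_span ⟨_, ⟨hl, ?_, ?_⟩, rfl⟩)
  · exact ⟨Int.natCast_nonneg i, Int.natCast_nonneg j⟩
  · intro e
    have e1 : (i : ℤ) = 0 := congrArg Prod.fst e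
    have e2 : (j : ℤ) = 0 := congrArg Prod.snd e
    omega

theorem P_int (a c : ℤ) {f : K'} (hf : IsIntegral B f) : IsIntegral B (k.P a c f) :=
  k.stab (Subalgebra.toSubmodule (icl K' B))
    (fun σ _ hg => IsIntegral.map ((σ : K' →ₐ[K] K').restrictScalars B) hg) a c f hf

/-- a homogeneous element is a unit or a combination of homogeneous elements -/
theorem split (hN : ∀ f : K, IsIntegral B f → f ∈ B) (hu : u ∈ B) (hv : v ∈ B)
    (hr : ∀ f, Van B f → ∃ j : ℕ, ∃ a ∈ B, ∃ b ∈ B, f ^ j = u * a + v * b) (hn : 0 < n)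
    (hd : n' ∣ n) (h2 : Rad2 B k.s k.t) {i j : ℕ} {g : K'} {κ : K} (hg : IsIntegral B g)
    (e : k.s ^ i * k.t ^ j * g = algebraMap K K' κ) (hc : ¬ UnR B g) :
    ∃ (g₁ g₂ : K') (κ₁ κ₂ : K), IsIntegral B g₁ ∧ IsIntegral B g₂ ∧
      k.s ^ (i + 1) * k.t ^ j * g₁ = algebraMap K K' κ₁ ∧
      k.s ^ i * k.t ^ (j + 1) * g₂ = algebraMap K K' κ₂ ∧ κ = κ₁ + κ₂ := by
  have hs := k.s_ne
  have ht := k.t_ne
  have hn' : 0 < n' := Nat.pos_of_dvd_of_pos hd hn
  obtain ⟨r, hr'⟩ := hd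
  have e1 : g ^ n = algebraMap K K' (κ ^ n / (u ^ i * v ^ (j * r))) := by
    rw [map_div₀, map_mul, map_pow, map_pow, map_pow, ← e, ← k.hs, ← k.ht, ← pow_mul, ← pow_mul,
      mul_left_comm n', ← hr', mul_pow, mul_pow, ← pow_mul, ← pow_mul, mul_comm n i,
      mul_div_cancel_left₀ _ (mul_ne_zero (pow_ne_zero _ hs) (pow_ne_zero _ ht))]
  generalize κ ^ n / (u ^ i * v ^ (j * r)) = b at e1
  have hb : b ∈ B := mem_of_int hN (e1 ▸ hg.pow n)
  have hvan : Van B b := by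
    refine (van_or_un hb).resolve_right fun h => hc ?_
    have g0 : g ≠ 0 := fun e0 => h.1 ((algebraMap K K').injective (by
      rw [← e1, e0, zero_pow hn.ne', map_zero]))
    refine ⟨g0, hg, IsIntegral.of_pow hn ?_⟩
    rw [inv_pow, e1, ← map_inv₀]
    exact int_of_mem h.2.2
  obtain ⟨m, a, ha, c, hc', e2⟩ := hr b hvan
  obtain ⟨f₁, f₂, hf₁, hf₂, e3⟩ := h2 g hg ⟨n * m, k.s ^ (n - 1) * algebraMap K K' a,
    k.t ^ (n' - 1) * algebraMap K K' c, ((s_int k hu hn).pow _).mul (int_of_mem ha),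
    ((t_int k hv hn').pow _).mul (int_of_mem hc'), by
      rw [pow_mul, e1, ← map_pow, e2, map_add, map_mul, map_mul, ← k.hs, ← k.ht, ← mul_assoc,
        ← mul_assoc, mul_pow_sub_one hn.ne', mul_pow_sub_one hn'.ne']⟩
  have e4 : g = k.s ^ (-(i : ℤ)) * k.t ^ (-(j : ℤ)) * algebraMap K K' κ := by
    rw [← e, zpow_neg, zpow_neg, zpow_natCast, zpow_natCast]
    field_simp
  have e5 : g = k.s * k.P (-(i : ℤ) - 1) (-(j : ℤ)) f₁ + k.t * k.P (-(i : ℤ)) (-(j : ℤ) - 1) f₂ := by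
    rw [← k.ms, ← k.mt, sub_add_cancel, sub_add_cancel, ← map_add, ← e3]
    conv_rhs => rw [e4, k.fix, ← e4]
  obtain ⟨κ₁, e6⟩ := k.hom (-(i : ℤ) - 1) (-(j : ℤ)) f₁
  obtain ⟨κ₂, e7⟩ := k.hom (-(i : ℤ)) (-(j : ℤ) - 1) f₂
  have e8 : k.s ^ (i + 1) * k.t ^ j * k.P (-(i : ℤ) - 1) (-(j : ℤ)) f₁ = algebraMap K K' κ₁ := by
    rw [e6, zpow_sub_one₀ hs, zpow_neg, zpow_neg, zpow_natCast, zpow_natCast, pow_succ]
    field_simp
  have e9 : k.s ^ i * k.t ^ (j + 1) * k.P (-(i : ℤ)) (-(j : ℤ) - 1) f₂ = algebraMap K K' κ₂ := by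
    rw [e7, zpow_sub_one₀ ht, zpow_neg, zpow_neg, zpow_natCast, zpow_natCast, pow_succ]
    field_simp
  refine ⟨_, _, κ₁, κ₂, P_int k _ _ hf₁, P_int k _ _ hf₂, e8, e9, (algebraMap K K').injective ?_⟩
  rw [map_add, ← e8, ← e9, ← e]
  conv_lhs => rw [e5]
  ring

theorem claim (hN : ∀ f : K, IsIntegral B f → f ∈ B) (hu : u ∈ B) (hv : v ∈ B)
    (hr : ∀ f, Van B f → ∃ j : ℕ, ∃ a ∈ B, ∃ b ∈ B, f ^ j = u * a + v * b) (hn : 0 < n)
    (hd : n' ∣ n) (h2 : Rad2 B k.s k.t) (d : ℕ) : ∀ (i j : ℕ) (g : K') (κ : K),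
    n + n' ≤ i + j + d → IsIntegral B g → k.s ^ i * k.t ^ j * g = algebraMap K K' κ →
    ((i ≠ 0 ∨ j ≠ 0) ∨ ¬ UnR B g) → κ ∈ J B k := by
  have hs := k.s_ne
  have ht := k.t_ne
  have hn' : 0 < n' := Nat.pos_of_dvd_of_pos hd hn
  have si := s_int k hu hn
  have ti := t_int k hv hn'
  induction d with
  | zero =>
    intro i j g κ h hg e _
    rcases (by omega : n ≤ i ∨ n' ≤ j) with h1 | h1
    · obtain ⟨c, rfl⟩ := Nat.exists_eq_add_of_le h1
      have u0 : u ≠ 0 := fun e0 => pow_ne_zero n hs (by rw [k.hs, e0, map_zero])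
      rw [← div_mul_cancel₀ κ u0]
      refine mem_J k hN (Or.inl hn.ne') (fst_un k) (mem_of_int (K' := K') hN ?_)
      rw [map_div₀, ← e, ← k.hs, pow_add, mul_assoc, mul_assoc,
        mul_div_cancel_left₀ _ (pow_ne_zero _ hs)]
      exact (si.pow _).mul ((ti.pow _).mul hg)
    · obtain ⟨c, rfl⟩ := Nat.exists_eq_add_of_le h1
      have v0 : v ≠ 0 := fun e0 => pow_ne_zero n' ht (by rw [k.ht, e0, map_zero])
      rw [← div_mul_cancel₀ κ v0]
      refine mem_J k hN (Or.inr hn'.ne') (snd_un k) (mem_of_int (K' := K') hN ?_)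
      rw [map_div₀, ← e, ← k.ht, pow_add, mul_left_comm, mul_assoc,
        mul_div_cancel_left₀ _ (pow_ne_zero _ ht)]
      exact ((si.pow _).mul (ti.pow _)).mul hg
  | succ d ih =>
    intro i j g κ h hg e h0
    by_cases hc : UnR B g
    · rw [← one_mul κ]
      refine mem_J k hN (h0.resolve_right (not_not.2 hc)) ?_ B.one_mem
      rwa [← e, mon_nat, mul_div_cancel_left₀ _ (mul_ne_zero (pow_ne_zero _ hs) (pow_ne_zero _ ht))]
    · obtain ⟨g₁, g₂, κ₁, κ₂, a1, a2, a3, a4, rfl⟩ := split k hN hu hv hr hn hd h2 hg e hc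
      exact add_mem (ih _ _ _ _ (by omega) a1 a3 (Or.inl (Or.inl (by omega))))
        (ih _ _ _ _ (by omega) a2 a4 (Or.inl (Or.inr (by omega))))

theorem not_int (hN : ∀ f : K, IsIntegral B f → f ∈ B) (hu : Van B u) {s : K'} (hs : s ≠ 0)
    (e : s ^ n = algebraMap K K' u) : ¬ IsIntegral B s⁻¹ := fun h => by
  refine hu.2.elim (fun e0 => pow_ne_zero n hs (by rw [e, e0, map_zero])) fun h1 =>
    h1 (mem_of_int (K' := K') hN ?_)
  rw [map_inv₀, ← e, ← inv_pow]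
  exact h.pow n

end KumP

open KumP in
theorem kum : KUM := by
  intro K K' _ _ _ _ _ _ _ B u v n n' k _ hN hu hv hr hn hd h2
  have hs := k.s_ne
  have ht := k.t_ne
  have si := s_int k hu.1 hn
  have ti := t_int k hv.1 (Nat.pos_of_dvd_of_pos hd hn)
  refine ⟨lat B k, ph B k, ⟨u, fst_un k⟩, ⟨v, snd_un k⟩, fun l hl l' hl' => ?_,
    fun l hl h0 h1 => ?_, fun f hf => ?_⟩
  · refine UnR.un (K' := K') hN ?_
    have h := (ph_spec k (add_mem hl hl')).mul ((ph_spec k hl).mul (ph_spec k hl')).inv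
    rwa [div_mul_div_comm, ← mon_add, inv_div, div_mul_div_cancel₀ (mon_ne k _), ← map_mul,
      ← map_div₀] at h
  · obtain ⟨a, c⟩ := l
    obtain ⟨i, rfl⟩ := Int.eq_ofNat_of_zero_le (show 0 ≤ a from h0.1)
    obtain ⟨j, rfl⟩ := Int.eq_ofNat_of_zero_le (show 0 ≤ c from h0.2)
    have h := ph_spec k hl
    have h3 := h.2.1.mul (mon_nat k i j ▸ (si.pow i).mul (ti.pow j) : IsIntegral B (mon k (i, j)))
    rw [div_mul_cancel₀ _ (mon_ne k _)] at h3
    refine ⟨mem_of_int hN h3, Or.inr fun h4 => ?_⟩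
    have h5 := h.2.1.mul (int_of_mem (K' := K') h4)
    have h6 : algebraMap K K' (ph B k (i, j)) ≠ 0 := fun e => h.1 (by rw [e, zero_div])
    rw [map_inv₀, div_mul_eq_mul_div, mul_inv_cancel₀ h6, mon_nat] at h5
    rcases Nat.eq_zero_or_pos i with rfl | hi
    · rcases Nat.eq_zero_or_pos j with rfl | hj
      · exact h1 rfl
      · obtain ⟨j, rfl⟩ := Nat.exists_eq_add_of_lt hj
        refine not_int hN hv ht k.ht ?_
        have h7 := h5.mul (ti.pow j)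
        rwa [show 1 / (k.s ^ 0 * k.t ^ (0 + j + 1)) * k.t ^ j = k.t⁻¹ by
          rw [zero_add, pow_succ, pow_zero]; field_simp] at h7
    · obtain ⟨i, rfl⟩ := Nat.exists_eq_add_of_lt hi
      refine not_int hN hu hs k.hs ?_
      have h7 := h5.mul ((si.pow i).mul (ti.pow j))
      rwa [show 1 / (k.s ^ (0 + i + 1) * k.t ^ j) * (k.s ^ i * k.t ^ j) = k.s⁻¹ by
        rw [zero_add, pow_succ]; field_simp] at h7
  · exact claim k hN hu.1 hv.1 hr hn hd h2 (n + n') 0 0 (algebraMap K K' f) f (by omega)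
      (int_of_mem hf.1) (by simp) (Or.inr fun h => hf.not_un (h.un hN))

end Vale.Agent.P253Y.Res
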