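import Vale.Agent.P253Y.Res.Sk

/-! From the integral closure of a local ring to its local rings. -/

set_option linter.all false

open IsLocalRing Polynomial

namespace Vale.Agent.P253Y.Res

open Vale.Agent.P297Z Vale.Agent.P297Z.Sf

namespace Locq

variable {L K : Type} [Field L] [Field K] [Algebra ℂ L] [Algebra ℂ K] [Algebra L K]
  [IsScalarTower ℂ L K]

variable (K) in
/-- The map from `A` to its integral closure. -/
def toIcl (A : Subalgebra ℂ L) : A →+* icl K A where
  toFun a := ⟨algebraMap A K a, isIntegral_algebraMap⟩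
  map_one' := Subtype.ext (map_one (algebraMap A K))
  map_mul' a b := Subtype.ext (map_mul (algebraMap A K) a b)
  map_zero' := Subtype.ext (map_zero (algebraMap A K))
  map_add' a b := Subtype.ext (map_add (algebraMap A K) a b)

theorem coe_toIcl (A : Subalgebra ℂ L) (a : A) : (toIcl K A a : K) = algebraMap L K a := rfl

theorem toIcl_isIntegral (A : Subalgebra ℂ L) : (toIcl K A).IsIntegral := by
  intro x
  obtain ⟨p, hp, h⟩ := (x.2 : IsIntegral A (x : K))
  refine ⟨p, hp, Subtype.ext ?_⟩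
  have := Polynomial.hom_eval₂ p (toIcl K A) (icl K A).val.toRingHom x
  refine this.trans ?_
  exact h

section Ext

variable {K' : Type} [Field K'] [Algebra K K'] [Algebra L K'] [IsScalarTower L K K']

theorem int_icl {A : Subalgebra ℂ L} {f : K'} (hf : IsIntegral (icl K A) f) : IsIntegral A f := by
  let _ : Algebra A (icl K A) := (toIcl K A).toAlgebra
  have : Algebra.IsIntegral A (icl K A) := ⟨toIcl_isIntegral A⟩
  have : IsScalarTower A (icl K A) K' := IsScalarTower.of_algebraMap_eq fun a =>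
    IsScalarTower.algebraMap_apply L K K' a
  exact isIntegral_trans f hf

theorem int_map {A : Subalgebra ℂ L} (c : icl K A) : IsIntegral A (algebraMap K K' c) :=
  int_icl (isIntegral_algebraMap (R := icl K A) (A := K') (x := c))

theorem den {A : Subalgebra ℂ L} {q : Ideal (icl K A)} (hq : q.IsPrime) {f : K'}
    (hf : IsIntegral (loc _ q hq) f) :
    ∃ c : icl K A, c ∉ q ∧ IsIntegral A (algebraMap K K' c * f) := by
  have : IsScalarTower (icl K A) (loc _ q hq) K' := IsScalarTower.of_algebraMap_eq fun _ => rfl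
  obtain ⟨⟨c, hc⟩, h1⟩ := IsIntegral.exists_multiple_integral_of_isLocalization q.primeCompl f hf
  refine ⟨c, hc, int_icl (K := K) ?_⟩
  have e : algebraMap K K' c * f = (⟨c, hc⟩ : q.primeCompl) • f := by
    change _ = c • f
    rw [Algebra.smul_def]
    rfl
  rw [e]
  exact h1

theorem int_loc {A : Subalgebra ℂ L} {q : Ideal (icl K A)} (hq : q.IsPrime) {f : K'}
    (hf : IsIntegral A f) : IsIntegral (loc _ q hq) f := by
  let _ : Algebra A (loc _ q hq) :=
    ((algebraMap (icl K A) (loc _ q hq)).comp (toIcl K A)).toAlgebra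
  have : IsScalarTower A (loc _ q hq) K' := IsScalarTower.of_algebraMap_eq fun a =>
    IsScalarTower.algebraMap_apply L K K' a
  exact hf.tower_top

theorem int_inv {A : Subalgebra ℂ L} {q : Ideal (icl K A)} (hq : q.IsPrime) {c : icl K A}
    (hc : c ∉ q) : IsIntegral (loc _ q hq) (algebraMap K K' c)⁻¹ := by
  rw [← map_inv₀]
  exact isIntegral_algebraMap (R := loc _ q hq) (A := K') (x := ⟨_, inv_mem_loc hq hc⟩)

theorem rad2 {A : Subalgebra ℂ L} {q : Ideal (icl K A)} (hq : q.IsPrime) {s t : K'}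
    (h : Rad2 A s t) : Rad2 (loc _ q hq) s t := by
  rintro f hf ⟨k, a, b, ha, hb, e⟩
  obtain ⟨c₁, h1, hf1⟩ := den hq hf
  obtain ⟨c₂, h2, ha1⟩ := den hq ha
  obtain ⟨c₃, h3, hb1⟩ := den hq hb
  have hc : c₁ * c₂ * c₃ ∉ q := fun hm =>
    (hq.mem_or_mem hm).elim (fun hm' => (hq.mem_or_mem hm').elim h1 h2) h3
  have ec : algebraMap K K' (c₁ * c₂ * c₃ : icl K A) =
      algebraMap K K' c₁ * algebraMap K K' c₂ * algebraMap K K' c₃ := by
    rw [← map_mul, ← map_mul]
    rfl
  have i2 := int_map (K' := K') c₂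
  have i3 := int_map (K' := K') c₃
  have i0 := int_map (K' := K') (c₁ * c₂ * c₃)
  have n0 : algebraMap K K' (c₁ * c₂ * c₃ : icl K A) ≠ 0 :=
    (_root_.map_ne_zero _).2 (ne_zero_of_notMem hc)
  have iv := int_inv (K' := K') hq hc
  generalize algebraMap K K' (c₁ * c₂ * c₃ : icl K A) = c at ec i0 n0 iv
  generalize algebraMap K K' (c₁ : K) = d₁ at *
  generalize algebraMap K K' (c₂ : K) = d₂ at *
  generalize algebraMap K K' (c₃ : K) = d₃ at *
  have hg : IsIntegral A (c * f) := by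
    rw [show c * f = d₂ * d₃ * (d₁ * f) by rw [ec]; ring]
    exact (i2.mul i3).mul hf1
  obtain ⟨a', b', ha', hb', e'⟩ := h _ hg ⟨k + 1, c ^ k * d₃ * (d₁ * f) * (d₂ * a),
    c ^ k * d₂ * (d₁ * f) * (d₃ * b), (((i0.pow k).mul i3).mul hf1).mul ha1,
    (((i0.pow k).mul i2).mul hf1).mul hb1, by
      rw [mul_pow, pow_succ f, e, pow_succ c]
      generalize c ^ k = z
      rw [ec]
      ring⟩
  refine ⟨c⁻¹ * a', c⁻¹ * b', iv.mul (int_loc hq ha'), iv.mul (int_loc hq hb'), ?_⟩
  rw [← inv_mul_cancel_left₀ n0 f, e']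
  ring

end Ext

theorem closed {A : Subalgebra ℂ L} {q : Ideal (icl K A)} (hq : q.IsPrime) {f : K}
    (hf : IsIntegral (loc _ q hq) f) : f ∈ loc _ q hq := by
  obtain ⟨c, hc, h⟩ := den hq hf
  exact ⟨⟨_, h⟩, c, hc, mul_comm _ _⟩

theorem van_of_mem {A : Subalgebra ℂ K} {q : Ideal A} (hq : q.IsPrime) {c : A} (hc : c ∈ q) :
    Van (loc A q hq) c := by
  refine ⟨le_loc A q hq c.2, ?_⟩
  by_cases h0 : (c : K) = 0
  · exact Or.inl h0
  · exact Or.inr fun h => (inv_mem_loc_iff hq h0).1 h hc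

theorem lies {A : Subalgebra ℂ L} [IsLocalRing A] {q : Ideal (icl K A)} (hq : q.IsMaximal)
    {a : A} (ha : a ∈ maximalIdeal A) : toIcl K A a ∈ q := by
  have h := Ideal.isMaximal_comap_of_isIntegral_of_isMaximal' (toIcl K A) (toIcl_isIntegral A) q
  rw [← eq_maximalIdeal h] at ha
  exact ha

theorem rad {A : Subalgebra ℂ L} [IsLocalRing A] {u v : A}
    (huv : maximalIdeal A = Ideal.span {u, v}) {q : Ideal (icl K A)} (hq : q.IsMaximal) {f : K}
    (hf : Van (loc _ q hq.isPrime) f) : ∃ j : ℕ, ∃ a ∈ loc _ q hq.isPrime,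
      ∃ b ∈ loc _ q hq.isPrime, f ^ j = algebraMap L K u * a + algebraMap L K v * b := by
  have := hq.isPrime
  let B := loc _ q hq.isPrime
  let ψ : icl K A →+* B := algebraMap _ _
  have key : (⟨f, hf.1⟩ : B) ∈ (Ideal.span {ψ (toIcl K A u), ψ (toIcl K A v)}).radical := by
    rw [Ideal.radical_eq_sInf, Ideal.mem_sInf]
    rintro P ⟨h1, hP⟩
    have hp : (P.comap ψ).IsPrime := Ideal.comap_isPrime _ _
    have h2 : maximalIdeal A ≤ (P.comap ψ).comap (toIcl K A) := by
      rw [huv, Ideal.span_le]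
      rintro x (rfl | rfl)
      · exact h1 (Ideal.subset_span (by simp))
      · exact h1 (Ideal.subset_span (by simp))
    have h3 : ((P.comap ψ).comap (toIcl K A)).IsMaximal := by
      rw [← (maximalIdeal.isMaximal A).eq_of_le (Ideal.comap_isPrime _ _).ne_top h2]
      exact maximalIdeal.isMaximal A
    have h4 : (P.comap ψ).IsMaximal :=
      Ideal.isMaximal_of_isIntegral_of_isMaximal_comap' (toIcl K A) (toIcl_isIntegral A) _ h3
    have h5 : ∀ c, c ∉ q → ψ c ∉ P := fun c hc hm =>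
      hP.ne_top (P.eq_top_of_isUnit_mem hm
        (IsLocalization.map_units B (⟨c, hc⟩ : q.primeCompl)))
    have h6 : P.comap ψ = q := h4.eq_of_le hq.ne_top fun c hc => by
      by_contra hn
      exact h5 c hn hc
    obtain ⟨a, b, hb, e⟩ := hf.1
    have h7 : a ∈ q := by
      by_contra hn
      have a0 := ne_zero_of_notMem hn
      have f0 : f ≠ 0 := fun h => a0 (by rw [← e, h, zero_mul])
      refine hf.2.resolve_left f0 ⟨b, a, hn, ?_⟩
      rw [← e, inv_mul_cancel_left₀ f0]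
    have h8 : (⟨f, hf.1⟩ : B) * ψ b ∈ P := by
      rw [show (⟨f, hf.1⟩ : B) * ψ b = ψ a from Subtype.ext e]
      rw [← h6] at h7
      exact h7
    exact (hP.mem_or_mem h8).resolve_right (h5 b hb)
  obtain ⟨j, hj⟩ := key
  obtain ⟨a, b, e⟩ := Ideal.mem_span_pair.1 hj
  refine ⟨j, a, a.2, b, b.2, ?_⟩
  have e2 : (a : K) * algebraMap L K u + (b : K) * algebraMap L K v = f ^ j :=
    congrArg Subtype.val e
  rw [← e2]
  ring

end Locq

theorem locq : LOCQ := by
  intro L K _ _ _ _ _ _ _ A u v hA huv q hq B hB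
  subst hB
  have := hA.isLocalRing
  have h := (par_iff (⟨u, huv.1.1⟩ : A) ⟨v, huv.2.1.1⟩).2 huv
  refine ⟨fun f hf => Locq.closed _ hf, ?_, ?_, fun f hf => Locq.rad h hq hf,
    fun K' _ _ _ _ _ _ s t hst => Locq.rad2 _ hst⟩
  · exact Locq.van_of_mem _ (Locq.lies hq ((van_iff (⟨u, huv.1.1⟩ : A)).2 huv.1))
  · exact Locq.van_of_mem _ (Locq.lies hq ((van_iff (⟨v, huv.2.1.1⟩ : A)).2 huv.2.1))

end Vale.Agent.P253Y.Res
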