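import Vale.Agent.P253Y.Res.Sk

/-! The blowing up of a primary ideal at one point of a model. -/

set_option linter.all false

open IsLocalRing

namespace Vale.Agent.P253Y.Res

open Vale.Agent.P297Z Vale.Agent.P297Z.Sf

namespace Mo

variable {K : Type} [Field K] [Algebra ℂ K] {W V : Submodule ℂ K}

theorem dm_ctr {A R : Subalgebra ℂ K} [IsLocalRing R] (h : A ≤ R) :
    Dm (loc A (ctr h) (ctr_isPrime h)) R := by
  refine ⟨loc_ctr_le h, ?_⟩
  rintro f ⟨a, b, hb, e⟩ hf
  by_cases h0 : f = 0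
  · rw [h0, inv_zero]; exact zero_mem _
  have hb0 := ne_zero_of_notMem hb
  refine ⟨b, a, ?_, by rw [← e, inv_mul_cancel_left₀ h0]⟩
  rw [mem_ctr, not_or, not_not] at hb ⊢
  rw [← e, mul_inv]
  exact ⟨mul_ne_zero h0 hb0, mul_mem hf hb.2⟩

theorem ring_eq (x : Pt W) {w : K} (hw : w ∈ W) (hx : x.In w) :
    loc (chart W w) (ctr hx.chart_le) (ctr_isPrime _) = x.ring := by
  obtain ⟨B, w₀, h1, h2, m, hm, rfl⟩ := x
  exact loc_chart_eq h1 hw h2 hx.1 hm.isPrime _

/-- A local algebra in which the forms that vanish at the point vanish dominates the point. -/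
theorem dom_of_van (hW : Mdl W) (x : Pt W) {R : Subalgebra ℂ K} [IsLocalRing R] {w : K}
    (hw : w ∈ W) (hw0 : w ≠ 0) (h : chart W w ≤ R) (hv : ∀ a ∈ van x, Van R (a / w)) :
    x.In w ∧ Dm x.ring R := by
  have hx : x.In w := by
    by_contra hx
    have := hv w (mem_van.2 ⟨hw, hx⟩)
    rw [div_self hw0] at this
    exact this.not_un ⟨one_ne_zero, one_mem _, by rw [inv_one]; exact one_mem _⟩
  have key : ∀ f : chart W w, ∃ c : ℂ, f - algebraMap ℂ _ c ∈ ctr h ⊓ ctr hx.chart_le := fun f => by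
    refine val_of_gen (s := Subtype.val ⁻¹' ((fun a => a / w) '' (W : Set K))) ?_ f
      (Algebra.adjoin_adjoin_coe_preimage.ge trivial)
    rintro ⟨_, h1⟩ ⟨a, ha, rfl⟩
    obtain ⟨c, hc⟩ := (hW.geo x).val (hx.2 a ha)
    have h2 := W.sub_mem ha (W.smul_mem c hw)
    have e : (a - c • w) / w = a / w - algebraMap ℂ K c := by
      rw [sub_div, smul_div_assoc, div_self hw0, ← Algebra.algebraMap_eq_smul_one]
    have h3 := hv _ (mem_van.2 ⟨h2, fun o => (Pt.in_iff hx hw h2).1 o (e ▸ hc)⟩)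
    rw [e] at h3
    exact ⟨c, (mem_ctr _ _).2 h3.2, (mem_ctr _ _).2 hc.2⟩
  have h2 := isMaximal_of_val (p := ctr h ⊓ ctr hx.chart_le)
    (fun e => (ctr_isPrime h).ne_top (top_le_iff.1 (e ▸ inf_le_left))) key
  have hq := (h2.eq_of_le (ctr_isPrime h).ne_top inf_le_left).symm.trans
    (h2.eq_of_le (ctr_isPrime _).ne_top inf_le_right)
  refine ⟨hx, ?_⟩
  rw [← ring_eq x hw hx, ← loc_congr (ctr_isPrime h) _ hq]
  exact dm_ctr h

theorem chart_le' {w' : K} {E : Subalgebra ℂ K} (h : ∀ a ∈ W, ∀ v ∈ V, a * v / w' ∈ E) :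
    chart (W * V) w' ≤ E :=
  chart_le fun b hb => Submodule.mul_induction_on hb h fun _ _ h1 h2 => by
    rw [add_div]; exact add_mem h1 h2

theorem le_chart {v : K} (hv : v ∈ V) (h0 : v ≠ 0) (w : K) : chart W w ≤ chart (W * V) (w * v) :=
  chart_le fun a ha => by
    rw [← mul_div_mul_right a w h0]
    exact div_mem_chart (Submodule.mul_mem_mul ha hv)

theorem div_mem {v' w : K} (hv : v' ∈ V) (hw : w ∈ W) (h0 : w ≠ 0) (v : K) :
    v' / v ∈ chart (W * V) (w * v) := by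
  rw [← mul_div_mul_left v' v h0]
  exact div_mem_chart (Submodule.mul_mem_mul hw hv)

/-- Every point is seen on a chart given by a product. -/
theorem exists_prod (z : Pt (W * V)) : ∃ w ∈ W, ∃ v ∈ V, z.In (w * v) := by
  by_contra hc
  push Not at hc
  obtain ⟨w', h1, h2⟩ := z.exists_in
  refine (mem_van.1 (Submodule.mul_induction_on (C := fun a => a ∈ van z) h1
    (fun w hw v hv => mem_van.2 ⟨Submodule.mul_mem_mul hw hv, hc w hw v hv⟩)
    fun _ _ => add_mem)).2 h2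

theorem div_mem_of_span {B E : Subalgebra ℂ K} {T : Set K} {h j : K} (h1 : B ≤ E)
    (h2 : ∀ t ∈ T, t / h ∈ E) (hj : j ∈ Submodule.span B T) : j / h ∈ E := by
  induction hj using Submodule.span_induction with
  | mem t ht => exact h2 t ht
  | zero => rw [zero_div]; exact zero_mem _
  | add a b _ _ ha hb => rw [add_div]; exact add_mem ha hb
  | smul c a _ ha =>
    rw [show c • a / h = (c : K) * (a / h) from mul_div_assoc _ _ _]
    exact mul_mem (h1 c.2) ha

theorem van_of_span {B R : Subalgebra ℂ K} (hR : Geo R) {T : Set K} {h j : K} (h1 : B ≤ R)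
    (h2 : ∀ t ∈ T, Van R (t / h)) (hj : j ∈ Submodule.span B T) : Van R (j / h) := by
  induction hj using Submodule.span_induction with
  | mem t ht => exact h2 t ht
  | zero => rw [zero_div]; exact ⟨zero_mem _, Or.inl rfl⟩
  | add a b _ _ ha hb => rw [add_div]; exact hR.add ha hb
  | smul c a _ ha =>
    rw [show c • a / h = (c : K) * (a / h) from mul_div_assoc _ _ _]
    exact ha.mul_left (h1 c.2)

end Mo

open Mo

theorem mod : MOD := by
  intro K _ _ htd W hW x ⟨T, T1, T2, T3⟩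
  have := hW.fin
  obtain ⟨w₀, hw₀, hx⟩ := x.exists_in
  have : FiniteDimensional ℂ (van x) := Submodule.finiteDimensional_of_le fun _ h => h.1
  obtain ⟨G, hG⟩ : (van x).FG := Module.Finite.iff_fg.1 inferInstance
  have G1 : ∀ l ∈ G, l ∈ van x := fun l hl => hG ▸ Submodule.subset_span hl
  have e1 : ∀ l ∈ G, ∀ᶠ k in Filter.atTop, (l / w₀) ^ k ∈ Submodule.span x.ring (T : Set K) := by
    intro l hl
    have h1 := (G1 l hl).2 w₀ hw₀ hx
    obtain ⟨j, hj⟩ := T2 _ h1
    filter_upwards [Filter.eventually_ge_atTop j] with k hk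
    obtain ⟨i, rfl⟩ := Nat.exists_eq_add_of_le hk
    rw [pow_add, mul_comm]
    exact Submodule.smul_mem _ (⟨_, pow_mem h1.1 i⟩ : x.ring) hj
  have e2 : ∀ t ∈ T, ∀ᶠ k in Filter.atTop, ∃ b, Un x.ring b ∧ t * b * w₀ ^ k ∈ W ^ k := by
    intro t ht
    obtain ⟨a, b, hb, e⟩ := (ring_eq x hw₀ hx).ge (T1 t ht)
    obtain ⟨n, hn⟩ := exists_pow_of_mem_chart hw₀ hx.1 a.2
    rw [mem_ctr, not_or, not_not] at hb
    filter_upwards [Filter.eventually_ge_atTop n] with k hk
    exact ⟨b, ⟨hb.1, hx.chart_le b.2, hb.2⟩, e ▸ hn k hk⟩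
  obtain ⟨k, k1, k2⟩ := (((Filter.eventually_all_finset G).2 e1).and
    ((Filter.eventually_all_finset T).2 e2)).exists
  have p0 : w₀ ^ k ≠ 0 := pow_ne_zero _ hx.1
  let V : Submodule ℂ K := W ^ k ⊓ ((Submodule.span x.ring (T : Set K)).restrictScalars ℂ).comap
    (LinearMap.mulRight ℂ (w₀ ^ k)⁻¹)
  have hV : ∀ v, v ∈ V ↔ v ∈ W ^ k ∧ v / w₀ ^ k ∈ Submodule.span x.ring (T : Set K) := fun v => by
    rw [div_eq_mul_inv]; rfl
  have V1 : ∀ l ∈ G, l ^ k ∈ V := fun l hl =>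
    (hV _).2 ⟨Submodule.pow_mem_pow W (G1 l hl).1 k, div_pow l w₀ k ▸ k1 l hl⟩
  have V2 : ∀ t ∈ T, ∃ b, Un x.ring b ∧ t * b * w₀ ^ k ∈ V := fun t ht => by
    obtain ⟨b, h1, h2⟩ := k2 t ht
    refine ⟨b, h1, (hV _).2 ⟨h2, ?_⟩⟩
    rw [mul_div_cancel_right₀ _ p0, mul_comm]
    exact Submodule.smul_mem _ (⟨b, h1.2.1⟩ : x.ring) (Submodule.subset_span ht)
  obtain ⟨v₀, v1, v2⟩ : ∃ v ∈ V, v ≠ 0 := by
    by_contra hc
    push Not at hc
    have h1 : Submodule.span x.ring (T : Set K) = ⊥ := Submodule.span_eq_bot.2 fun t ht => by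
      obtain ⟨b, h1, h2⟩ := V2 t ht
      exact (mul_eq_zero.1 ((mul_eq_zero.1 (hc _ h2)).resolve_right p0)).resolve_right h1.1
    have h2 : maximalIdeal x.ring = ⊥ := eq_bot_iff.2 fun f hf => by
      obtain ⟨j, hj⟩ := T2 _ ((van_iff f).1 hf)
      rw [h1] at hj
      exact Subtype.ext (eq_zero_of_pow_eq_zero hj)
    have h3 := maximalIdeal_height_eq_ringKrullDim (R := x.ring)
    rw [(hW.geo x).dim htd, h2] at h3
    simp at h3
  have hf : FiniteDimensional ℂ (W * V) := Module.Finite.iff_fg.2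
    ((Module.Finite.iff_fg.1 hW.fin).mul (Module.Finite.iff_fg.1 (by
      have := Module.Finite.iff_fg.2 ((Module.Finite.iff_fg.1 hW.fin).pow k)
      exact Submodule.finiteDimensional_of_le (inf_le_left : V ≤ W ^ k))))
  have hM : Mdl (W * V) := ⟨hf, fun e => mul_ne_zero hx.1 v2
    ((Submodule.mem_bot ℂ).1 (e ▸ Submodule.mul_mem_mul hw₀ v1)), fun w' _ h0 =>
      NNb.frac_of (Submodule.mul_mem_mul hw₀ v1) (by
        have := hW.frac w₀ hw₀ hx.1
        exact isFractionRing_of_le (le_chart v1 v2 w₀)) h0⟩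
  refine ⟨W * V, hM, fun z => ?_⟩
  obtain ⟨w, hw, v, hv, hz⟩ := exists_prod z
  have w0 := left_ne_zero_of_mul hz.1
  have v0 := right_ne_zero_of_mul hz.1
  have hR := hM.geo z
  have h := (le_chart hv v0 w).trans hz.chart_le
  have d1 : ∀ v' ∈ V, v' / v ∈ z.ring := fun v' h' => hz.chart_le (div_mem h' hw w0 v)
  have fin : ∀ {E : Subalgebra ℂ K} (hE : E ≤ z.ring) (s : K), s ≠ 0 → (∀ a ∈ W, a / w ∈ E) →
      (∀ v' ∈ V, v' / s ∈ E) → s / v ∈ z.ring → z.ring ≤ loc E (ctr hE) (ctr_isPrime hE) := by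
    intro E hE s s0 a1 a2 a3
    have h1 : chart (W * V) (w * v) ≤ loc E (ctr hE) (ctr_isPrime hE) :=
      chart_le' fun a ha v' h' => ⟨⟨_, mul_mem (a1 a ha) (a2 v' h')⟩, ⟨_, a2 v hv⟩, by
        rw [mem_ctr, not_or, not_not]
        exact ⟨div_ne_zero v0 s0, by simpa using a3⟩, by
        change a * v' / (w * v) * (v / s) = a / w * (v' / s)
        field_simp⟩
    refine (ring_eq z (Submodule.mul_mem_mul hw hv) hz).ge.trans (loc_le _ h1 fun b hb => ?_)
    rw [mem_ctr, not_or, not_not] at hb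
    exact (dm_ctr hE).2 b (h1 b.2) hb.2
  by_cases hc : ∀ l ∈ G, Van z.ring (l / w)
  · obtain ⟨hxw, hD⟩ := dom_of_van hW x hw w0 h fun a ha =>
      van_of_span hR le_rfl hc (Submodule.span_le_restrictScalars ℂ z.ring _ (hG.ge ha))
    have d2 : ∀ t ∈ T, t / (v / w₀ ^ k) ∈ z.ring := fun t ht => by
      obtain ⟨b, h1, h2⟩ := V2 t ht
      have := mul_mem (d1 _ h2) (hD.1 h1.2.2)
      convert this using 1
      field_simp [h1.1]
    obtain ⟨t, ht, hu⟩ : ∃ t ∈ T, Un z.ring (t / (v / w₀ ^ k)) := by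
      by_contra hn
      push Not at hn
      have := van_of_span hR hD.1 (fun t ht => (van_or_un (d2 t ht)).resolve_right (hn t ht))
        ((hV v).1 hv).2
      rw [div_self (div_ne_zero v0 p0)] at this
      exact this.not_un ⟨one_ne_zero, one_mem _, by rw [inv_one]; exact one_mem _⟩
    have t0 : t ≠ 0 := fun e => hu.1 (by rw [e, zero_div])
    have g1 : ∀ g ∈ (x.ring : Set K) ∪ (fun s => s / t) '' (T : Set K), g ∈ z.ring := by
      rintro g (hg | ⟨s, hs, rfl⟩)
      · exact hD.1 hg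
      · have := mul_mem (d2 s hs) hu.2.2
        convert this using 1
        field_simp
    refine Or.inl (T3 t ht t0 _ hR hD ⟨g1, fun f hf => ?_⟩)
    have hE := Algebra.adjoin_le (R := ℂ) (S := z.ring) g1
    have b1 : x.ring ≤ Algebra.adjoin ℂ ((x.ring : Set K) ∪ (fun s => s / t) '' (T : Set K)) :=
      fun g hg => Algebra.subset_adjoin (Or.inl hg)
    obtain ⟨a, b, hb, e⟩ := fin hE (w₀ ^ k * t) (mul_ne_zero p0 t0) (fun a ha => b1 (hxw.2 a ha))
      (fun v' h' => by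
        rw [← div_div]
        exact div_mem_of_span b1 (fun s hs => Algebra.subset_adjoin (Or.inr ⟨s, hs, rfl⟩))
          ((hV v').1 h').2) (by
        convert hu.2.1 using 1
        field_simp) hf
    rw [mem_ctr, not_or, not_not] at hb
    exact ⟨a, a.2, b, b.2, ⟨hb.1, hE b.2, hb.2⟩, e⟩
  · push Not at hc
    obtain ⟨l, hl, hu⟩ := hc
    replace hu := (van_or_un (h (div_mem_chart (G1 l hl).1))).resolve_left hu
    have e := le_antisymm (fin h (w ^ k) (pow_ne_zero _ w0) (fun a ha => div_mem_chart ha)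
      (fun v' h' => pow_div_mem (fun a ha => div_mem_chart ha) k v' ((hV v').1 h').1) (by
        have := mul_mem (pow_mem hu.2.2 k) (d1 _ (V1 l hl))
        have l0 : l ≠ 0 := fun e => hu.1 (by rw [e, zero_div])
        convert this using 1
        rw [inv_div, div_pow]
        field_simp)) (loc_ctr_le h)
    refine Or.inr ⟨⟨_, w, hw, w0, ctr h, hR.hasVal.ctr_isMaximal h, rfl⟩, fun o => ?_, e⟩
    have h1 : z.ring = x.ring := e.trans (congrArg Pt.ring o)
    exact Van.not_un (O := x.ring) ((G1 l hl).2 w hw ⟨w0, fun a ha => h1 ▸ h (div_mem_chart ha)⟩)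
      (h1 ▸ hu)

end Vale.Agent.P253Y.Res
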