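import Vale.Agent.P253Y.Res.Sk

/-! Poles in normal crossings, and the branch locus of a finite extension. -/

open IsLocalRing Polynomial

namespace Vale.Agent.P253Y.Res

open Vale.Agent.P297Z Vale.Agent.P297Z.Sf

namespace Mono

theorem exists_pow {K : Type} [Field K] [Algebra ℂ K] (S : Surf K) (y : Pt S.W) {t g : K}
    (ht : t ∈ y.ring) (h : t ≠ 0 → ∀ C, y.On C → C.ord g < 0 → 0 < C.ord t) :
    ∃ N : ℕ, t ^ N * g ∈ y.ring := by
  by_cases h0 : t = 0
  · exact ⟨1, by rw [h0, pow_one, zero_mul]; exact zero_mem _⟩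
  by_cases h1 : g = 0
  · exact ⟨0, by rw [h1, mul_zero]; exact zero_mem _⟩
  obtain ⟨b, hb⟩ := ((S.all.fin_div g).image fun C => C.ord g).bddBelow
  refine ⟨b.natAbs, (S.all.normal y _).1 (Or.inr fun C hC => ?_)⟩
  have h2 := Pl.ord_nonneg_of_mem C.pl (hC t ht)
  have h3 := h h0 C hC
  unfold Crv.ord at *
  rw [Pl.ord_mul _ (pow_ne_zero _ h0) h1, Pl.ord_pow, Finsupp.zero_apply, add_zero]
  rcases le_or_gt 0 (C.pl.ord g) with h4 | h4
  · positivity
  · have h5 : b ≤ C.pl.ord g := hb ⟨C, h4.ne, rfl⟩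
    have h6 : (b.natAbs : ℤ) ≤ b.natAbs * C.pl.ord t :=
      le_mul_of_one_le_right (Int.natCast_nonneg _) (h3 h4)
    omega

variable {L K : Type} [Field L] [Field K] [Algebra ℂ L] [Algebra L K]

theorem exists_lift (A : Subalgebra ℂ L) {g : L} (hg : g ∈ A) {p : L[X]} (hp : p.Monic)
    (h : ∀ c ∈ p.coeffs, ∃ N : ℕ, g ^ N * c ∈ A) :
    ∃ (N : ℕ) (F : A[X]), F.Monic ∧ F.map (algebraMap A L) = p.scaleRoots (g ^ N) := by
  choose! n hn using h
  refine ⟨p.coeffs.sup n, ?_⟩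
  have h1 : p.scaleRoots (g ^ p.coeffs.sup n) ∈ lifts (algebraMap A L) := by
    rw [lifts_iff_coeff_lifts]
    intro i
    suffices h : (p.scaleRoots (g ^ p.coeffs.sup n)).coeff i ∈ A from ⟨⟨_, h⟩, rfl⟩
    rw [coeff_scaleRoots]
    by_cases h0 : p.coeff i = 0
    · rw [h0, zero_mul]
      exact zero_mem _
    rcases (le_natDegree_of_ne_zero h0).eq_or_lt with h1 | h1
    · rw [h1, Nat.sub_self, pow_zero, mul_one, hp.coeff_natDegree]
      exact one_mem _
    · have h2 := coeff_mem_coeffs h0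
      obtain ⟨k, hk⟩ := Nat.exists_eq_add_of_le ((Finset.le_sup (f := n) h2).trans
        (Nat.le_mul_of_pos_right _ (Nat.sub_pos_of_lt h1)))
      rw [← pow_mul, hk, pow_add, ← mul_assoc, mul_comm (p.coeff i)]
      exact mul_mem (hn _ h2) (pow_mem hg k)
  obtain ⟨F, a1, -, a2⟩ := lifts_and_natDegree_eq_and_monic h1 ((monic_scaleRoots_iff _).2 hp)
  exact ⟨F, a2, a1⟩

omit [Algebra ℂ L] in
theorem deriv_scale (p : L[X]) (s : L) (θ : K) :
    algebraMap L K s * aeval (algebraMap L K s * θ) (derivative (p.scaleRoots s)) =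
      algebraMap L K s ^ p.natDegree * aeval θ (derivative p) := by
  have h : (p.scaleRoots s).comp (C s * X) = C (s ^ p.natDegree) * p := by
    ext i
    rw [comp_C_mul_X_coeff, coeff_scaleRoots, coeff_C_mul]
    by_cases h0 : p.coeff i = 0
    · simp [h0]
    · rw [mul_assoc, ← pow_add, Nat.sub_add_cancel (le_natDegree_of_ne_zero h0), mul_comm]
  have h1 := congrArg (fun q => aeval θ (derivative q)) h
  rw [derivative_C_mul] at h1
  simpa [derivative_comp, aeval_comp] using h1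

end Mono

open Mono

theorem mono (hS : SNC) : MONO := by
  intro K _ _ S G
  classical
  have hD := G.finite_toSet.biUnion fun g _ => S.all.fin_div g
  obtain ⟨S', D', a1, a2, -⟩ := hS K S hD.toFinset ∅
  have hP : (⋃ C ∈ D', ⋃ C' ∈ D'.erase C, {x : Pt S'.W | x.On C ∧ x.On C'}).Finite :=
    D'.finite_toSet.biUnion fun C _ => (D'.erase C).finite_toSet.biUnion fun C' h =>
      S'.all.fin_meet C C' (Finset.mem_erase.1 h).1.symm
  have key : ∀ g ∈ G, ∀ C : Crv S'.W, C.ord g < 0 → C ∈ D' := fun g hg C h => by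
    by_contra h1
    obtain ⟨C₀, h2, h3⟩ := a2 C h1
    refine h2 (hD.mem_toFinset.2 (Set.mem_biUnion hg ?_))
    show C₀.pl.ord g ≠ 0
    rw [h3]
    exact h.ne
  refine ⟨S', hP.toFinset, fun y => ?_⟩
  have H : ∃ u v, Par y.ring u v ∧ (∀ C ∈ D', y.On C → 0 < C.ord u ∨ 0 < C.ord v) ∧
      (y ∉ hP.toFinset → ∀ C ∈ D', y.On C → 0 < C.ord u) := by
    obtain ⟨u, v, h1, h2⟩ := a1 y
    have h3 := (par_iff u v).1 h1
    by_cases h : ∀ C ∈ D', y.On C → 0 < C.ord u
    · exact ⟨u, v, h3, h2, fun _ => h⟩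
    · push Not at h
      obtain ⟨C₀, c1, c2, c3⟩ := h
      refine ⟨v, u, h3.symm, fun C k1 k2 => (h2 C k1 k2).symm, fun hy C k1 k2 => ?_⟩
      obtain rfl : C = C₀ := by
        by_contra e
        exact hy (hP.mem_toFinset.2 (Set.mem_iUnion₂.2 ⟨C₀, c1,
          Set.mem_iUnion₂.2 ⟨C, Finset.mem_erase.2 ⟨e, k1⟩, c2, k2⟩⟩))
      exact (h2 C k1 k2).resolve_left c3.not_gt
  obtain ⟨u, v, h1, h2, h3⟩ := H
  refine ⟨u, v, h1, fun g hg => exists_pow S' y (mul_mem h1.1.1 h1.2.1.1) fun h0 C hC h => ?_,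
    fun hy g hg => exists_pow S' y h1.1.1 fun _ C hC h => h3 hy C (key g hg C h) hC⟩
  have k1 := Pl.ord_nonneg_of_mem C.pl (hC u h1.1.1)
  have k2 := Pl.ord_nonneg_of_mem C.pl (hC v h1.2.1.1)
  have k3 := h2 C (key g hg C h) hC
  unfold Crv.ord at *
  rw [Pl.ord_mul _ (left_ne_zero_of_mul h0) (right_ne_zero_of_mul h0)]
  omega

theorem ram : RAM := by
  intro L K _ _ _ _ _ _ _
  classical
  have : CharZero L := charZero_of_injective_algebraMap (algebraMap ℂ L).injective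
  obtain ⟨θ, hθ⟩ := Field.exists_primitive_element L K
  have hi : ∀ x : K, IsIntegral L x := fun x => Algebra.IsIntegral.isIntegral x
  have hδ : aeval θ (derivative (minpoly L θ)) ≠ 0 :=
    (Algebra.IsSeparable.isSeparable L θ).aeval_derivative_ne_zero (minpoly.aeval L θ)
  set δ := aeval θ (derivative (minpoly L θ)) with hδ'
  refine ⟨(minpoly L θ).coeffs ∪ (minpoly L δ⁻¹).coeffs, fun A g hg g0 h => ?_⟩
  obtain ⟨N, F, f1, f2⟩ := exists_lift A hg (minpoly.monic (hi θ))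
    fun c hc => h c (Finset.mem_union_left _ hc)
  obtain ⟨N', F', e1, e2⟩ := exists_lift A hg (minpoly.monic (hi δ⁻¹))
    fun c hc => h c (Finset.mem_union_right _ hc)
  have s0 : algebraMap L K (g ^ N) ≠ 0 := by simpa using fun h => absurd h g0
  have hd := deriv_scale (minpoly L θ) (g ^ N) θ
  rw [← f2, derivative_map, aeval_map_algebraMap, ← hδ'] at hd
  have d0 : aeval (algebraMap L K (g ^ N) * θ) (derivative F) ≠ 0 :=
    right_ne_zero_of_mul (hd ▸ mul_ne_zero (pow_ne_zero _ s0) hδ)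
  refine ⟨algebraMap L K (g ^ N) * θ, F, N * (minpoly L θ).natDegree + N', f1, ?_, ?_, d0, ?_⟩
  · rw [← aeval_map_algebraMap L, f2]
    exact scaleRoots_aeval_eq_zero (minpoly.aeval L θ)
  · rw [eq_top_iff, ← hθ, IntermediateField.adjoin_simple_le_iff]
    have h1 := mul_mem (IntermediateField.algebraMap_mem _ (g ^ N)⁻¹)
      (IntermediateField.mem_adjoin_simple_self L (algebraMap L K (g ^ N) * θ))
    rwa [map_inv₀, inv_mul_cancel_left₀ s0] at h1
  · have h1 : IsIntegral A (algebraMap L K (g ^ N') * δ⁻¹) := ⟨F', e1, by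
      rw [← aeval_def, ← aeval_map_algebraMap L, e2]
      exact scaleRoots_aeval_eq_zero (minpoly.aeval L δ⁻¹)⟩
    have h2 : IsIntegral A (algebraMap L K (g ^ N)) :=
      isIntegral_algebraMap (R := A) (A := K) (x := ⟨g ^ N, pow_mem hg N⟩)
    refine (congrArg _ ?_).mp (h2.mul h1)
    rw [eq_div_iff d0, mul_right_comm, hd, pow_add, pow_mul, map_pow, map_pow]
    field_simp

end Vale.Agent.P253Y.Res
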