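import Vale.Agent.P253Y.Res.Sk

/-! The curves that are contracted to a point: a negative divisor, the relative canonical
divisor. -/

set_option linter.all false

open IsLocalRing Polynomial

namespace Vale.Agent.P253Y.Res

open Vale.Agent.P297Z Vale.Agent.P297Z.Sf

namespace Ng

variable {K : Type} [Field K] [Algebra ℂ K] {S : Surf K} {z : Subalgebra ℂ K}

theorem ord_pos {C : Crv S.W} (h : Ct.Dom z C.pl.ring) {f : K} (hf : Van z f) (h0 : f ≠ 0) :
    0 < C.ord f :=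
  Pl.ord_pos_of_inv_notMem _ fun h1 => hf.2.resolve_left h0 (h.2 f hf.1 h1)

theorem le_pt (c : Cent S) (hz : Geo z) (ho : Over S z) {C : Crv S.W} (h : Ct.Dom z C.pl.ring)
    {x : Pt S.W} (hx : x.On C) : z ≤ x.ring := by
  obtain ⟨V, hV, hd⟩ := c.lift x C hx
  refine ho x V hd ⟨fun f hf => ?_, fun f hf h1 => h.2 f hf (hV.le h1)⟩
  obtain ⟨a, ha⟩ := hz.val hf
  have h1 : f - algebraMap ℂ K a ∈ V := by
    rcases ha.2 with h2 | h2
    · rw [h2]; exact V.zero_mem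
    · exact (V.mem_or_inv_mem _).resolve_right fun h3 => h2 (h.2 _ ha.1 (hV.le h3))
  simpa using V.add_mem _ _ h1 (hd.const a)

theorem exists_frac (hz : Geo z) (f : K) : ∃ a ∈ z, ∃ b ∈ z, b ≠ 0 ∧ f * b = a := by
  have := hz.frac
  obtain ⟨a, b, hb, e⟩ := IsFractionRing.div_surjective (A := z) f
  have b0 : (b : K) ≠ 0 := fun h => nonZeroDivisors.ne_zero hb (Subtype.ext h)
  exact ⟨a, a.2, b, b.2, b0, by rw [← e]; exact div_mul_cancel₀ _ b0⟩

theorem exists_pos (hz : Geo z) {C : Crv S.W} (h : ∀ f ∈ z, f ∈ C.pl.ring) :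
    ∃ a ∈ z, a ≠ 0 ∧ 0 < C.ord a := by
  obtain ⟨t, t0, ht⟩ := Pl.exists_ord_eq_one C.pl
  obtain ⟨a, ha, b, hb, b0, e⟩ := exists_frac hz t
  refine ⟨a, ha, e ▸ mul_ne_zero t0 b0, ?_⟩
  have := Pl.ord_nonneg_of_mem _ (h b hb)
  unfold Crv.ord
  rw [← e, Pl.ord_mul _ t0 b0]
  omega

theorem exists_van (hz : Geo z) {C : Crv S.W} (h : Ct.Dom z C.pl.ring) :
    ∃ u, u ≠ 0 ∧ Van z u := by
  obtain ⟨a, ha, a0, h1⟩ := exists_pos hz h.1
  refine ⟨a, a0, ha, Or.inr fun h2 => ?_⟩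
  have := Pl.ord_nonneg_of_mem _ (h.1 _ h2)
  rw [Pl.ord_inv] at this
  unfold Crv.ord at h1
  omega

theorem fin_con (hz : Geo z) : {C : Crv S.W | Ct.Dom z C.pl.ring}.Finite := by
  rcases {C : Crv S.W | Ct.Dom z C.pl.ring}.eq_empty_or_nonempty with h | ⟨C, h⟩
  · rw [h]; exact Set.finite_empty
  · obtain ⟨u, u0, hu⟩ := exists_van hz h
    exact (S.all.fin_div u).subset fun C' h' => (ord_pos h' hu u0).ne'

theorem disj {Z : Sf.Div S.W} {C : Crv S.W} (h : Z C = 0) (C' : Crv S.W) :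
    Z C' = 0 ∨ (Finsupp.single C (1 : ℤ)) C' = 0 := by
  by_cases e : C' = C
  · exact Or.inl (e ▸ h)
  · exact Or.inr (Finsupp.single_eq_of_ne e)

theorem inter_zero {Z : Sf.Div S.W} {C : Crv S.W} (h0 : 0 ≤ Z) (h : Z C = 0)
    (h1 : ∀ (x : Pt S.W) C', x.On C → x.On C' → Z C' = 0) : inter Z (Finsupp.single C 1) = 0 := by
  have h2 : (0 : Sf.Div S.W) ≤ Finsupp.single C 1 := Finsupp.single_nonneg.2 zero_le_one
  rw [inter_eq S.all.inte h0 h2 (disj h)]
  refine finsum_eq_zero_of_forall_eq_zero fun x => ?_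
  by_contra hc
  obtain ⟨⟨C₁, a1, a2⟩, C₂, a3, a4⟩ := (S.all.multPos x Z _ h0 h2 (disj h)).2.1
    fun e => hc (by simp [e])
  have : C₂ = C := by
    by_contra e
    exact a4 (Finsupp.single_eq_of_ne e)
  exact a2 (h1 x C₁ (this ▸ a3) a1)

theorem inter_sub (A B D : Sf.Div S.W) : inter (A - B) D = inter A D - inter B D := by
  have := S.all.add (A - B) B D
  rw [sub_add_cancel] at this
  omega

theorem inter_posPart {R : Sf.Div S.W} {C : Crv S.W} (h : R C = 0)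
    (h1 : ∀ (x : Pt S.W) C', x.On C → x.On C' → 0 ≤ R C') :
    inter R (Finsupp.single C 1) = inter (R ⊔ 0) (Finsupp.single C 1) := by
  have q : R = (R ⊔ 0) - (-R ⊔ 0) := (posPart_sub_negPart R).symm
  conv_lhs => rw [q, inter_sub]
  rw [inter_zero (Z := -R ⊔ 0) le_sup_right (by simp [Finsupp.sup_apply, h])
    fun x C' a b => by simpa [Finsupp.sup_apply] using h1 x C' a b, sub_zero]

theorem inter_div (f : K) (h0 : f ≠ 0) (D : Sf.Div S.W) : inter (Sf.div S.W f) D = 0 := by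
  have h1 := inter_lin S.all.toRR 0 D h0
  have h2 := S.all.add 0 0 D
  rw [zero_add] at h1 h2
  omega

open Classical in
/-- The part of the divisor of `f` on the contracted curves. -/
theorem part (c : Cent S) (hz : Geo z) (ho : Over S z) {f : K} (hf : Van z f) (h0 : f ≠ 0)
    {C : Crv S.W} (h : Ct.Dom z C.pl.ring) :
    inter ((Sf.div S.W f).filter fun C => Ct.Dom z C.pl.ring) (Finsupp.single C 1) ≤ 0 ∧
    ((∃ (x : Pt S.W) (C' : Crv S.W), x.On C ∧ x.On C' ∧ ¬ Ct.Dom z C'.pl.ring ∧ 0 < C'.ord f) →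
      inter ((Sf.div S.W f).filter fun C => Ct.Dom z C.pl.ring) (Finsupp.single C 1) < 0) := by
  set R := (Sf.div S.W f).filter fun C => ¬ Ct.Dom z C.pl.ring with hR
  have e : ((Sf.div S.W f).filter fun C => Ct.Dom z C.pl.ring) = Sf.div S.W f - R := by
    rw [eq_sub_iff_add_eq, hR, Finsupp.filter_pos_add_filter_neg]
  have r0 : R C = 0 := Finsupp.filter_apply_neg _ _ (not_not.2 h)
  have r1 : ∀ (x : Pt S.W) C', x.On C → x.On C' → 0 ≤ R C' := fun x C' a b => by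
    rw [hR, Finsupp.filter_apply]
    split_ifs
    · exact le_rfl
    · rw [div_apply S.all.toLoc2]
      exact Pl.ord_nonneg_of_mem _ (b f (le_pt c hz ho h a hf.1))
  have r2 : (R ⊔ 0) C = 0 := by simp [Finsupp.sup_apply, r0]
  have h2 : (0 : Sf.Div S.W) ≤ Finsupp.single C 1 := Finsupp.single_nonneg.2 zero_le_one
  rw [e, inter_sub, inter_div f h0, inter_posPart r0 r1, zero_sub, neg_nonpos, neg_neg_iff_pos]
  refine ⟨inter_nonneg S.all.inte le_sup_right h2 (disj r2), ?_⟩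
  rintro ⟨x, C', a1, a2, a3, a4⟩
  refine inter_pos S.all.toLoc1 S.all.multPos S.all.inte le_sup_right h2 (disj r2)
    ⟨C', a2, ?_⟩ ⟨C, a1, by simp⟩
  rw [Finsupp.sup_apply, hR, Finsupp.filter_apply, if_pos a3, div_apply S.all.toLoc2]
  exact (a4.trans_le le_sup_left).ne'

/-- A function whose divisor has a branch through a given contracted curve. -/
theorem exists_branch (c : Cent S) (hz : Geo z) (ho : Over S z) {C : Crv S.W}
    (h : Ct.Dom z C.pl.ring) : ∃ f, f ≠ 0 ∧ Van z f ∧ ∃ (x : Pt S.W) (C' : Crv S.W),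
      x.On C ∧ x.On C' ∧ ¬ Ct.Dom z C'.pl.ring ∧ 0 < C'.ord f := by
  obtain ⟨w, hw, hC⟩ := C.exists_in
  obtain ⟨a, ha, hτ⟩ := S.all.res C w hw hC
  obtain ⟨u, u0, hu⟩ := exists_van hz h
  obtain ⟨α, hα, β, hβ, β0, e⟩ := exists_frac hz (a / w)
  have hfin : (⋃ C' ∈ {C' : Crv S.W | Ct.Dom z C'.pl.ring} \ {C},
      {x : Pt S.W | x.On C' ∧ x.On C}).Finite :=
    ((fin_con hz).subset Set.diff_subset).biUnion fun C' h' => S.all.fin_meet C' C h'.2
  obtain ⟨x, ⟨x1, x2⟩, x3⟩ := ((S.all.inf_pt C w hw hC).diff hfin).nonempty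
  obtain ⟨t, ht⟩ := S.all.val x _ (x2.2 a ha)
  obtain ⟨g0, g1⟩ := hτ (X - Polynomial.C t) (X_sub_C_ne_zero t)
  rw [map_sub, aeval_X, aeval_C] at g0 g1
  set g := a / w - algebraMap ℂ K t with hg
  obtain ⟨C', b1, b2⟩ : ∃ C', x.On C' ∧ 0 < C'.ord g := by
    by_contra hc
    push Not at hc
    refine ht.2.resolve_left g0 ((S.all.normal x _).1 (Or.inr fun C' h' => ?_))
    have := hc C' h'
    unfold Crv.ord at *
    rw [Pl.ord_inv, Finsupp.zero_apply]
    omega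
  have e2 : g * β * u = (α - algebraMap ℂ K t * β) * u := by rw [hg, sub_mul, e]
  refine ⟨g * β * u, mul_ne_zero (mul_ne_zero g0 β0) u0, ?_, x, C', x1, b1, fun h' => ?_, ?_⟩
  · rw [e2]
    exact hu.mul_left (sub_mem hα (mul_mem (z.algebraMap_mem t) hβ))
  · refine x3 (Set.mem_biUnion (x := C') ⟨h', ?_⟩ ⟨b1, x1⟩)
    rintro rfl
    exact b2.ne' g1
  · have h1 := Pl.ord_nonneg_of_mem _ (b1 β (le_pt c hz ho h x1 hβ))
    have h2 := Pl.ord_nonneg_of_mem _ (b1 u (le_pt c hz ho h x1 hu.1))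
    unfold Crv.ord at *
    rw [Pl.ord_mul _ (mul_ne_zero g0 β0) u0, Pl.ord_mul _ g0 β0]
    omega

theorem can_pos {u v : K} (huv : AlgebraicIndependent ℂ ![u, v]) {C : Crv S.W}
    (h : Ct.Dom z C.pl.ring) (hu : Van z u) (hv : Van z v) : 0 < canDiv S.W u v C := by
  obtain ⟨δ₁, δ₂, h1, h2, h3, h4⟩ := (S.all.least u v huv C).1
  obtain ⟨t, t0, ht⟩ := Pl.exists_ord_eq_one C.pl
  have k : ∀ f, Van z f → f / t ∈ C.pl.ring := fun f hf => by
    by_cases h0 : f = 0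
    · rw [h0, zero_div]; exact C.pl.ring.zero_mem
    · have := ord_pos h hf h0
      rw [← Pl.ord_nonneg_iff _ (div_ne_zero h0 t0), Pl.ord_div _ h0 t0]
      unfold Crv.ord at this
      omega
  have tm : t ∈ C.pl.ring := (Pl.ord_nonneg_iff _ t0).1 (by omega)
  have a1 := k u hu
  have a2 := k v hv
  generalize hu' : u / t = u' at a1
  generalize hv' : v / t = v' at a2
  have e1 : u = t * u' := by rw [← hu', mul_div_cancel₀ _ t0]
  have e2 : v = t * v' := by rw [← hv', mul_div_cancel₀ _ t0]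
  have e3 : wedge u v δ₁ δ₂ = t * (t * (δ₁ u' * δ₂ v' - δ₁ v' * δ₂ u') +
      (δ₁ u' * v' * δ₂ t + u' * δ₁ t * δ₂ v' - δ₁ v' * u' * δ₂ t - v' * δ₁ t * δ₂ u')) := by
    rw [e1, e2]
    simp only [wedge, Derivation.leibniz, smul_eq_mul]
    ring
  have b1 := h1 u' a1
  have b2 := h1 v' a2
  have b3 := h1 t tm
  have b4 := h2 u' a1
  have b5 := h2 v' a2
  have b6 := h2 t tm
  have h5 := Pl.ord_nonneg_of_mem C.pl (add_mem (mul_mem tm (sub_mem (mul_mem b1 b5)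
    (mul_mem b2 b4))) (sub_mem (sub_mem (add_mem (mul_mem (mul_mem b1 a2) b6)
    (mul_mem (mul_mem a1 b3) b5)) (mul_mem (mul_mem b2 a1) b6)) (mul_mem (mul_mem a2 b3) b4)))
  rw [e3] at h3 h4
  rw [← h4, Pl.ord_mul _ t0 (right_ne_zero_of_mul h3)]
  omega

/-- A curve that contains `z` and is not contracted is a localisation of `z`. -/
theorem regDer (hz : Geo z) {u v : z} (hr : Reg z u v) {C : Crv S.W}
    (h : ∀ f ∈ z, f ∈ C.pl.ring) (hn : ¬ Ct.Dom z C.pl.ring) {δ : Derivation ℂ K K}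
    (hδ : ∀ f ∈ z, δ f ∈ z) : RegDer C.pl δ := by
  have := hz.isLocalRing
  have := hz.frac
  have := hr.ufd
  have hle : z ≤ Ct.valAlg C.pl.ring C.const_mem := h
  have hm : ¬ (ctr hle).IsMaximal := fun hm => hn ⟨h, fun f hf h1 => by
    by_contra hc
    have h2 : (⟨f, hf⟩ : z) ∈ ctr hle := by
      rw [eq_maximalIdeal hm]
      exact (mem_max_iff _).2 (Or.inr hc)
    rcases (mem_ctr hle _).1 h2 with h3 | h3
    · have h4 : f = 0 := h3
      rw [h4, inv_zero] at hc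
      exact hc z.zero_mem
    · exact h3 h1⟩
  obtain ⟨π, hπ⟩ := (hr.prin _ (ctr_isPrime hle) hm).principal
  intro f hf
  obtain ⟨a, ⟨b, hb⟩, hab, e⟩ := IsFractionRing.exists_reduced_fraction z f
  have b0 : (b : K) ≠ 0 := fun h => nonZeroDivisors.ne_zero hb (Subtype.ext h)
  have e1 : f = a * (b : K)⁻¹ := by
    rw [← e, IsFractionRing.mk'_eq_div, div_eq_mul_inv]
    rfl
  have hd : ∀ y : z, y ∈ ctr hle ↔ π ∣ y := fun y => by
    rw [hπ]
    exact Ideal.mem_span_singleton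
  have b1 : (b : K)⁻¹ ∈ C.pl.ring := by
    by_contra hc
    have h1 : π ∣ b := (hd b).1 ((mem_ctr hle b).2 (Or.inr hc))
    have h2 : a ∉ ctr hle := fun h2 => (ctr_isPrime hle).ne_top
      (Ideal.eq_top_of_isUnit_mem _ ((hd π).2 dvd_rfl) (hab ((hd a).1 h2) h1))
    rw [mem_ctr, not_or, not_not] at h2
    refine hc ?_
    have : (b : K)⁻¹ = (a : K)⁻¹ * f := by rw [e1, inv_mul_cancel_left₀ h2.1]
    rw [this]
    exact mul_mem (show (a : K)⁻¹ ∈ C.pl.ring from h2.2) hf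
  have e2 : δ f = (b : K)⁻¹ * (δ a - f * δ b) := by
    have h1 : δ (f * b) = δ a := by rw [e1, inv_mul_cancel_right₀ b0]
    rw [Derivation.leibniz, smul_eq_mul, smul_eq_mul] at h1
    rw [← h1]
    field_simp
    ring
  rw [e2]
  exact mul_mem b1 (sub_mem (h _ (hδ _ a.2)) (mul_mem hf (h _ (hδ _ b.2))))

end Ng

open Ng

open Classical in
theorem neg (hc : CENT) : NEG := by
  intro K _ _ S z hz ho
  have c := hc K S
  choose! f f0 hf hb using fun (C : Crv S.W) (h : Ct.Dom z C.pl.ring) => exists_branch c hz ho h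
  have hm : ∀ C, C ∈ (fin_con (S := S) hz).toFinset ↔ Ct.Dom z C.pl.ring := fun C =>
    Set.Finite.mem_toFinset _
  refine ⟨∑ C₀ ∈ (fin_con hz).toFinset, (Sf.div S.W (f C₀)).filter fun C => Ct.Dom z C.pl.ring,
    fun C h => ⟨?_, ?_⟩, fun C h => ?_⟩
  · rw [Finsupp.finset_sum_apply]
    refine Finset.sum_pos (fun C₀ h₀ => ?_) ⟨C, (hm C).2 h⟩
    rw [Finsupp.filter_apply, if_pos h, div_apply S.all.toLoc2]
    exact ord_pos h (hf C₀ ((hm _).1 h₀)) (f0 C₀ ((hm _).1 h₀))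
  · rw [← interHom_apply S.all.toRR, map_sum, AddMonoidHom.finset_sum_apply]
    exact Finset.sum_neg' (fun C₀ h₀ =>
      (part c hz ho (hf C₀ ((hm _).1 h₀)) (f0 C₀ ((hm _).1 h₀)) h).1)
      ⟨C, (hm C).2 h, (part c hz ho (hf C h) (f0 C h) h).2 (hb C h)⟩
  · rw [Finsupp.finset_sum_apply]
    exact Finset.sum_eq_zero fun C₀ _ => Finsupp.filter_apply_neg _ _ h

open Classical in
theorem krel (hr : REG) (hd : DERZ) (hc : CENT) : KREL := by
  rintro K _ _ S z hz ⟨u, v, hp⟩ ho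
  have c := hc K S
  obtain ⟨huv, δ₁, δ₂, h1, h2, h3⟩ := hd K S.model.td z u v hz hp
  have r := hr K S.model.td z ⟨u, hp.1.1⟩ ⟨v, hp.2.1.1⟩ hz hp
  obtain ⟨g, g0, hg⟩ := Bl5.can_change S S.all.toLoc S.all.toCan huv
  refine ⟨(canDiv S.W u v).filter fun C => Ct.Dom z C.pl.ring, fun C h => ⟨?_, ?_⟩,
    fun C h => Finsupp.filter_apply_neg _ _ h⟩
  · rw [Finsupp.filter_apply, if_pos h]
    exact can_pos huv h hp.1 hp.2.1
  set R := (canDiv S.W u v).filter fun C => ¬ Ct.Dom z C.pl.ring with hR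
  have e : ((canDiv S.W u v).filter fun C => Ct.Dom z C.pl.ring) = canDiv S.W u v - R := by
    rw [eq_sub_iff_add_eq, hR, Finsupp.filter_pos_add_filter_neg]
  have r0 : R C = 0 := Finsupp.filter_apply_neg _ _ (not_not.2 h)
  have r1 : ∀ (x : Pt S.W) C', x.On C → x.On C' → R C' = 0 := fun x C' a b => by
    rw [hR, Finsupp.filter_apply]
    split_ifs with h'
    · rfl
    have hle : ∀ f ∈ z, f ∈ C'.pl.ring := fun f hf => b f (le_pt c hz ho h a hf)
    refine (S.all.least u v huv C').unique ⟨⟨δ₁, δ₂, regDer hz r hle h' h1,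
      regDer hz r hle h' h2, by rw [h3]; exact one_ne_zero, by rw [h3, Pl.ord_one]⟩, ?_⟩
    rintro k ⟨ε₁, ε₂, a1, a2, -, rfl⟩
    exact Pl.ord_nonneg_of_mem _ (sub_mem (mul_mem (a1 u (hle u hp.1.1)) (a2 v (hle v hp.2.1.1)))
      (mul_mem (a1 v (hle v hp.2.1.1)) (a2 u (hle u hp.1.1))))
  rw [e, inter_sub, inter_posPart r0 fun x C' a b => (r1 x C' a b).ge,
    inter_zero (Z := R ⊔ 0) le_sup_right (by simp [Finsupp.sup_apply, r0])
      fun x C' a b => by simp [Finsupp.sup_apply, r1 x C' a b], sub_zero, hg,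
    inter_lin S.all.toRR _ _ g0]

end Vale.Agent.P253Y.Res
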