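import Vale.Agent.P253Y.Res.Sk
import Mathlib.RingTheory.QuasiFinite.Basic

/-! The normalisation of a projective model in a finite extension. -/

set_option linter.all false

open IsLocalRing Polynomial

namespace Vale.Agent.P253Y.Res

open Vale.Agent.P297Z Vale.Agent.P297Z.Sf

namespace Nrm

variable {L K : Type} [Field L] [Field K] [Algebra ℂ L] [Algebra ℂ K] [Algebra L K]
  [IsScalarTower ℂ L K]

/-- Finiteness of the integral closure. -/
theorem icl_fin [FiniteDimensional L K] (A : Subalgebra ℂ L) [Algebra.FiniteType ℂ A]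
    [IsFractionRing A L] : Module.Finite A (integralClosure A K) := by
  obtain ⟨n, g, hinj, hfin⟩ := exists_finite_inj_algHom_of_fg ℂ A
  let P := MvPolynomial (Fin n) ℂ
  let _ : Algebra P A := g.toRingHom.toAlgebra
  have : Module.Finite P A := hfin
  have : FaithfulSMul P A := (faithfulSMul_iff_algebraMap_injective _ _).2 hinj
  let _ : Algebra P L := ((algebraMap A L).comp (algebraMap P A)).toAlgebra
  have : IsScalarTower P A L := IsScalarTower.of_algebraMap_eq fun _ => rfl
  have : FaithfulSMul P L := (faithfulSMul_iff_algebraMap_injective _ _).2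
    ((IsFractionRing.injective A L).comp hinj)
  let _ : Algebra P K := ((algebraMap L K).comp (algebraMap P L)).toAlgebra
  have : IsScalarTower P A K := IsScalarTower.of_algebraMap_eq fun _ => rfl
  let _ := FractionRing.liftAlgebra P L
  have := FractionRing.isScalarTower_liftAlgebra P L
  have : FiniteDimensional (FractionRing P) L := .of_isLocalization P A (nonZeroDivisors P)
  let _ : Algebra (FractionRing P) K :=
    ((algebraMap L K).comp (algebraMap (FractionRing P) L)).toAlgebra
  have : IsScalarTower (FractionRing P) L K := IsScalarTower.of_algebraMap_eq fun _ => rfl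
  have : IsScalarTower P (FractionRing P) K := IsScalarTower.of_algebraMap_eq fun a =>
    congrArg (algebraMap L K) (IsScalarTower.algebraMap_apply P (FractionRing P) L a)
  have : FiniteDimensional (FractionRing P) K := .trans _ L K
  have : IsIntegralClosure (integralClosure A K) P K :=
    ⟨Subtype.val_injective, ⟨fun h => ⟨⟨_, h.tower_top⟩, rfl⟩,
      fun ⟨y, h⟩ => h ▸ isIntegral_trans (A := A) _ y.2⟩⟩
  have := IsIntegralClosure.finite P (FractionRing P) K (integralClosure A K)
  exact .of_restrictScalars_finite P A _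

theorem icl_ft (A : Subalgebra ℂ L) [Algebra.FiniteType ℂ A]
    [h : Module.Finite A (integralClosure A K)] : Algebra.FiniteType ℂ (icl K A) := by
  let _ : Algebra A (icl K A) := (integralClosure A K).algebra
  have : IsScalarTower ℂ A (icl K A) :=
    .of_algebraMap_eq fun c => Subtype.ext (IsScalarTower.algebraMap_apply ℂ L K c)
  have : Module.Finite A (icl K A) := h
  exact .trans (S := A) inferInstance inferInstance

theorem int_mono {A B : Subalgebra ℂ L} (h : A ≤ B) {f : K} (hf : IsIntegral A f) :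
    IsIntegral B f :=
  hf.map_of_comp_eq (Subalgebra.inclusion h).toRingHom (RingHom.id K) (by ext; rfl)

theorem icl_loc {A : Subalgebra ℂ L} {p : Ideal A} (hp : p.IsPrime) {f : K}
    (hf : IsIntegral (loc A p hp) f) : ∃ u : A, u ∉ p ∧ IsIntegral A (u • f) := by
  have : IsScalarTower A (loc A p hp) K := IsScalarTower.of_algebraMap_eq fun _ => rfl
  obtain ⟨⟨u, hu⟩, h1⟩ := IsIntegral.exists_multiple_integral_of_isLocalization p.primeCompl f hf
  exact ⟨u, hu, h1⟩

theorem fin_loc {A : Subalgebra ℂ L} [Module.Finite A (integralClosure A K)] {p : Ideal A}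
    (hp : p.IsPrime) : Module.Finite (loc A p hp) (integralClosure (loc A p hp) K) := by
  have : IsScalarTower A (loc A p hp) K := IsScalarTower.of_algebraMap_eq fun _ => rfl
  obtain ⟨T, hT⟩ : (Subalgebra.toSubmodule (integralClosure A K)).FG :=
    Module.Finite.iff_fg.1 ‹_›
  refine (Module.Finite.iff_fg (N := Subalgebra.toSubmodule (integralClosure (loc A p hp) K))).2
    ⟨T, le_antisymm (Submodule.span_le.2 fun f hf => int_mono (le_loc A p hp)
      (hT.le (Submodule.subset_span hf))) fun f hf => ?_⟩
  obtain ⟨u, hu, h⟩ := icl_loc hp hf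
  have h1 := Submodule.smul_mem _ (⟨_, inv_mem_loc hp hu⟩ : loc A p hp)
    (Submodule.span_le_restrictScalars A (loc A p hp) _ (hT.ge h))
  have e : (⟨_, inv_mem_loc hp hu⟩ : loc A p hp) • u • f = f :=
    inv_smul_smul₀ (ne_zero_of_notMem hu) f
  rwa [e] at h1

theorem fin_max (O : Subalgebra ℂ L) [IsLocalRing O] [Module.Finite O (integralClosure O K)] :
    {q : Ideal (icl K O) | q.IsMaximal}.Finite :=
  (Algebra.QuasiFinite.finite_primesOver (S := integralClosure O K) (maximalIdeal O)).subset
    fun q hq => ⟨Ideal.IsMaximal.isPrime hq, ⟨(eq_maximalIdeal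
      (Ideal.isMaximal_comap_of_isIntegral_of_isMaximal (R := O) (S := integralClosure O K) q
        (hI := hq))).symm⟩⟩

/-- A point of the normalisation lies over a point. -/
theorem lies {A : Subalgebra ℂ L} [Algebra.FiniteType ℂ (icl K A)] (q : Ideal (icl K A))
    (hq : q.IsMaximal) : ∃ (m : Ideal A) (hm : m.IsMaximal)
      (q' : Ideal (icl K (loc A m hm.isPrime))) (hq' : q'.IsMaximal),
      loc _ q hq.isPrime = loc _ q' hq'.isPrime := by
  have hm := Ideal.isMaximal_comap_of_isIntegral_of_isMaximal (R := A) (S := integralClosure A K) q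
    (hI := hq)
  have h : icl K (loc A _ hm.isPrime) ≤ loc _ q hq.isPrime := fun f hf => by
    obtain ⟨u, hu, h⟩ := icl_loc hm.isPrime hf
    exact ⟨⟨_, h⟩, algebraMap A (integralClosure A K) u, hu, by
      rw [mul_comm]; exact (Algebra.smul_def u f).symm⟩
  exact ⟨_, hm, ctr h, (hasVal_loc q hq).ctr_isMaximal h, (loc_ctr_eq hq.isPrime h
    fun f hf => le_loc _ _ _ (int_mono (le_loc A _ hm.isPrime) hf)).symm⟩

variable {W : Submodule ℂ L}

/-- An integral function on a chart extends to a section of a power of the hyperplane bundle. -/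
theorem sec {w : L} (hw : w ∈ W) (h0 : w ≠ 0) {b : K} (hb : IsIntegral (chart W w) b) :
    ∀ᶠ k : ℕ in Filter.atTop, ∀ w' : L,
      IsIntegral (chart W w') (b * algebraMap L K w ^ k / algebraMap L K w' ^ k) := by
  obtain ⟨p, hp, e⟩ := hb
  choose n hn using fun j => exists_pow_of_mem_chart hw h0 (p.coeff j).2
  filter_upwards [Filter.eventually_ge_atTop ((Finset.range p.natDegree).sup n)] with k hk w'
  have hp' := hp.map (algebraMap (chart W w) L)
  have h1 : (p.map (algebraMap _ L)).scaleRoots ((w / w') ^ k) ∈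
      lifts (algebraMap (chart W w') L) := by
    refine (lifts_iff_coeff_lifts _).2 fun j => ?_
    suffices h : ((p.map (algebraMap _ L)).scaleRoots ((w / w') ^ k)).coeff j ∈ chart W w' from
      ⟨⟨_, h⟩, rfl⟩
    rw [coeff_scaleRoots, hp.natDegree_map, coeff_map]
    rcases lt_trichotomy j p.natDegree with h | rfl | h
    · rw [← pow_mul, div_pow, ← mul_div_assoc]
      refine pow_div_mem (fun a => div_mem_chart) _ _ (hn j _ ?_)
      exact ((Finset.le_sup (Finset.mem_range.2 h)).trans hk).trans
        (Nat.le_mul_of_pos_right _ (Nat.sub_pos_of_lt h))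
    · simp [hp.coeff_natDegree, one_mem]
    · simp [coeff_eq_zero_of_natDegree_lt h, zero_mem]
  obtain ⟨q, h2, -, h3⟩ := lifts_and_natDegree_eq_and_monic h1 ((monic_scaleRoots_iff _).2 hp')
  refine ⟨q, h3, ?_⟩
  rw [IsScalarTower.algebraMap_eq _ L K, ← eval₂_map, h2, mul_div_assoc, ← div_pow, ← map_div₀,
    ← map_pow, mul_comm]
  exact scaleRoots_eval₂_eq_zero _ (by rw [eval₂_map]; exact e)

theorem frac_of {W : Submodule ℂ K} {w w' : K} (hw : w ∈ W) (h0 : w ≠ 0) (h0' : w' ≠ 0)
    [IsFractionRing (chart W w) K] : IsFractionRing (chart W w') K := by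
  refine IsFractionRing.of_field _ _ fun z => ?_
  obtain ⟨a, b, -, rfl⟩ := IsFractionRing.div_surjective (A := chart W w) z
  obtain ⟨n, hn⟩ := exists_pow_of_mem_chart hw h0 a.2
  obtain ⟨m, hm⟩ := exists_pow_of_mem_chart hw h0 b.2
  refine ⟨⟨_, pow_div_mem (fun a => div_mem_chart) _ _ (hn (n + m) (by omega))⟩,
    ⟨_, pow_div_mem (fun a => div_mem_chart) _ _ (hm (n + m) (by omega))⟩, ?_⟩
  change (a : K) / b = a * _ / _ / (b * _ / _)
  rw [div_div_div_cancel_right₀ (pow_ne_zero _ h0'), mul_div_mul_right _ _ (pow_ne_zero _ h0)]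

theorem int_val {A : Subalgebra ℂ L} {V : ValuationSubring K} (h : ∀ a ∈ A, algebraMap L K a ∈ V)
    {f : K} (hf : IsIntegral A f) : f ∈ V := by
  let φ : A →+* V := (algebraMap A K).codRestrict V fun a => h a a.2
  obtain ⟨y, hy⟩ := IsIntegrallyClosed.isIntegral_iff.1
    (show IsIntegral V f from hf.map_of_comp_eq φ (RingHom.id K) (by ext; rfl))
  exact hy ▸ y.2

end Nrm

open Nrm in
theorem nrm : NRM := by
  classical
  intro L K _ _ _ _ _ _ _ W hW
  have := hW.fin
  obtain ⟨s₀, hs₀⟩ : W.FG := Module.Finite.iff_fg.1 inferInstance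
  let s := s₀.erase 0
  have hs : Submodule.span ℂ (s : Set L) = W := by
    rw [Finset.coe_erase, Submodule.span_sdiff_singleton_zero, hs₀]
  have sW : ∀ w ∈ s, w ∈ W ∧ w ≠ 0 := fun w hw =>
    ⟨hs.le (Submodule.subset_span hw), Finset.ne_of_mem_erase hw⟩
  have sn : s.Nonempty := Finset.nonempty_iff_ne_empty.2 fun h => hW.ne (by simp [← hs, h])
  have hfin : ∀ w ∈ W, w ≠ 0 → Module.Finite (chart W w) (integralClosure (chart W w) K) :=
    fun w hw h0 => by
      have := hW.frac w hw h0
      have := chart_finiteType (W := W) w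
      exact icl_fin _
  have hft : ∀ w ∈ W, w ≠ 0 → Algebra.FiniteType ℂ (icl K (chart W w)) := fun w hw h0 => by
    have := hfin w hw h0
    have := chart_finiteType (W := W) w
    exact icl_ft _
  choose! T hT using fun w hw h0 => (Subalgebra.fg_iff_finiteType _).2 (hft w hw h0)
  obtain ⟨k, hk⟩ := ((Filter.eventually_all_finset s).2 fun w hw =>
    (Filter.eventually_all_finset (insert 1 (T w))).2 fun b hb => sec (sW w hw).1 (sW w hw).2
      (b := b) ((Finset.mem_insert.1 hb).elim (fun h => h ▸ isIntegral_one) fun h =>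
        (hT w (sW w hw).1 (sW w hw).2).le (Algebra.subset_adjoin h))).exists
  let G := s.biUnion fun w => (insert 1 (T w)).image (· * algebraMap L K w ^ k)
  let W' := Submodule.span ℂ (G : Set K)
  have hG : ∀ w ∈ s, ∀ b ∈ insert 1 (T w), b * algebraMap L K w ^ k ∈ W' := fun w hw b hb =>
    Submodule.subset_span (Finset.mem_biUnion.2 ⟨w, hw, Finset.mem_image_of_mem _ hb⟩)
  have h1 : ∀ w ∈ s, algebraMap L K w ^ k ∈ W' := fun w hw => by
    simpa using hG w hw 1 (Finset.mem_insert_self _ _)
  have h2 : ∀ w ∈ s, algebraMap L K w ^ k ≠ 0 := fun w hw => by simp [(sW w hw).2]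
  have h3 : ∀ w ∈ s, chart W' (algebraMap L K w ^ k) = icl K (chart W w) := fun w hw => by
    refine le_antisymm (chart_le fun a ha => ?_) ?_
    · induction ha using Submodule.span_induction with
      | mem x hx =>
        obtain ⟨w', hw', hx⟩ := Finset.mem_biUnion.1 hx
        obtain ⟨b, hb, rfl⟩ := Finset.mem_image.1 hx
        exact hk w' hw' b hb w
      | zero => simp
      | add x y _ _ hx hy => rw [add_div]; exact add_mem hx hy
      | smul c x _ hx => rw [smul_div_assoc]; exact Subalgebra.smul_mem _ hx c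
    · rw [← hT w (sW w hw).1 (sW w hw).2]
      refine Algebra.adjoin_le fun b hb => ?_
      simpa [h2 w hw] using div_mem_chart (w := algebraMap L K w ^ k)
        (hG w hw b (Finset.mem_insert_of_mem hb))
  have hM : Mdl W' := by
    obtain ⟨w, hw⟩ := sn
    refine ⟨FiniteDimensional.span_finset ℂ G, fun h => h2 w hw (by simpa [h] using h1 w hw),
      fun a _ a0 => ?_⟩
    have := hW.frac w (sW w hw).1 (sW w hw).2
    have : IsFractionRing (chart W' (algebraMap L K w ^ k)) K := by
      rw [h3 w hw]
      exact integralClosure.isFractionRing_of_finite_extension L K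
    exact frac_of (h1 w hw) (h2 w hw) a0
  have key : ∀ x : Pt W', ∃ y : Pt W, ∃ (q : Ideal (icl K y.ring)) (hq : q.IsMaximal),
      x.ring = loc _ q hq.isPrime := fun x => by
    have hv := (hM.geo x).hasVal
    obtain ⟨V, hV⟩ := Ct.exists_dom x.ring
    obtain ⟨a, ha, a0, m, hm, e⟩ := x.prop
    obtain ⟨w, hw, hmax⟩ := s.exists_max_image (fun w => V.valuation (algebraMap L K w)) sn
    have h4 : chart W w ≤ (Ct.valAlg V hV.const).comap (IsScalarTower.toAlgHom ℂ L K) := by
      refine chart_le fun c hc => ?_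
      rw [← hs] at hc
      induction hc using Submodule.span_induction with
      | mem x hx =>
        change algebraMap L K (x / w) ∈ V
        rw [← V.valuation_le_one_iff, map_div₀, map_div₀]
        exact div_le_one_of_le₀ (hmax x hx) zero_le
      | zero => simp
      | add x y _ _ hx hy => rw [add_div]; exact add_mem hx hy
      | smul c x _ hx => rw [smul_div_assoc]; exact Subalgebra.smul_mem _ hx c
    have h5 : ∀ c ∈ W', c / a ∈ x.ring := fun c hc => e ▸ le_loc _ _ _ (div_mem_chart hc)
    have h6 := hV.2 _ (h5 _ (h1 w hw)) (by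
      rw [inv_div]
      exact int_val h4 ((h3 w hw).le (div_mem_chart ha)))
    have h7 : chart W' (algebraMap L K w ^ k) ≤ loc _ m hm.isPrime := chart_le fun c hc => by
      have := mul_mem (h5 c hc) h6
      rwa [inv_div, div_mul_div_cancel₀ a0, e] at this
    have h8 : ∃ (q : Ideal (chart W' (algebraMap L K w ^ k))) (hq : q.IsMaximal),
        x.ring = loc _ q hq.isPrime := by
      have := hM.fin
      have := chart_finiteType (W := W') a
      exact ⟨ctr h7, (hasVal_loc m hm).ctr_isMaximal h7,
        e.trans (loc_chart_eq ha (h1 w hw) a0 (h2 w hw) _ h7).symm⟩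
    rw [h3 w hw] at h8
    obtain ⟨q, hq, e1⟩ := h8
    have := hft w (sW w hw).1 (sW w hw).2
    obtain ⟨m', hm', q', hq', e2⟩ := lies q hq
    exact ⟨⟨_, w, (sW w hw).1, (sW w hw).2, m', hm', rfl⟩, q', hq', e1.trans e2⟩
  choose π hπ using key
  refine ⟨W', hM, π, fun y => ?_, hπ⟩
  have : Module.Finite y.ring (integralClosure y.ring K) := by
    obtain ⟨w, hw, w0, m, hm, e⟩ := y.prop
    have := hfin w hw w0
    rw [e]
    exact fin_loc _
  have := (fin_max (K := K) y.ring).to_subtype
  refine Set.Finite.of_finite_image (f := Pt.ring) ((Set.finite_range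
    fun q : {q : Ideal (icl K y.ring) | q.IsMaximal} => loc _ q.1 q.2.isPrime).subset ?_)
    fun _ _ _ _ h => Pt.ext h
  rintro _ ⟨x, rfl, rfl⟩
  obtain ⟨q, hq, e⟩ := hπ x
  exact ⟨⟨q, hq⟩, e.symm⟩

end Vale.Agent.P253Y.Res
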