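import Vale.Agent.P253Y.Res.Sk
import Mathlib.RingTheory.RegularLocalRing.Polynomial
import Mathlib.FieldTheory.IntermediateField.Adjoin.Algebra

/-! The projective plane as a model of a subfield of finite index. -/

set_option linter.all false

open Set

namespace Vale.Agent.P253Y.Res

open Vale.Agent.P297Z Vale.Agent.P297Z.Sf

namespace Pln

variable {K : Type} [Field K] [Algebra ℂ K]

/-- the charts of a space with three generators have two generators -/
theorem chart_eq (e : Fin 3 → K) {w : K} (hw : w ∈ Submodule.span ℂ (range e)) (h0 : w ≠ 0) :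
    ∃ x : Fin 2 → K, chart (Submodule.span ℂ (range e)) w = Algebra.adjoin ℂ (range x) := by
  obtain ⟨c, hc⟩ := (Submodule.mem_span_range_iff_exists_fun ℂ).1 hw
  obtain ⟨i, hi⟩ : ∃ i, c i ≠ 0 := by
    by_contra! h
    exact h0 (by simp [← hc, h])
  refine ⟨fun j => e (i.succAbove j) / w, le_antisymm (chart_le fun a ha => ?_)
    (Algebra.adjoin_le ?_)⟩
  · have h1 : ∀ j, e (i.succAbove j) / w ∈
        Algebra.adjoin ℂ (range fun j => e (i.succAbove j) / w) :=
      fun j => Algebra.subset_adjoin ⟨j, rfl⟩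
    have h2 : e i / w = (c i)⁻¹ • (1 - ∑ j, c (i.succAbove j) • (e (i.succAbove j) / w)) := by
      rw [eq_inv_smul_iff₀ hi, eq_sub_iff_add_eq, ← div_self h0]
      conv_rhs => rw [← hc, Fin.sum_univ_succAbove _ i, add_div, Finset.sum_div]
      simp only [smul_div_assoc, ← Fin.sum_univ_succAbove (fun j => c j • e j) i, hc]
    obtain ⟨d, rfl⟩ := (Submodule.mem_span_range_iff_exists_fun ℂ).1 ha
    rw [Finset.sum_div]
    refine sum_mem fun j _ => ?_
    rw [smul_div_assoc]
    refine Subalgebra.smul_mem _ ?_ _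
    rcases Fin.eq_self_or_eq_succAbove i j with rfl | ⟨j, rfl⟩
    · rw [h2]
      exact Subalgebra.smul_mem _ (sub_mem (one_mem _)
        (sum_mem fun j _ => Subalgebra.smul_mem _ (h1 j) _)) _
    · exact h1 j
  · rintro _ ⟨j, rfl⟩
    exact div_mem_chart (Submodule.subset_span ⟨_, rfl⟩)

theorem reg (htd : Algebra.trdeg ℂ K = 2) (x : Fin 2 → K)
    (h : IsFractionRing (Algebra.adjoin ℂ (range x)) K) :
    IsRegularRing (Algebra.adjoin ℂ (range x)) := by
  have : Algebra.IsAlgebraic (Algebra.adjoin ℂ (range x)) K :=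
    IsLocalization.isAlgebraic K (nonZeroDivisors _)
  have hx := Algebra.IsAlgebraic.isTranscendenceBasis_of_le_trdeg_of_finite ℂ x (by simp [htd])
  exact IsRegularRing.of_ringEquiv hx.1.aevalEquiv.toRingEquiv

theorem surf (htd : Algebra.trdeg ℂ K = 2) (x : Fin 2 → K)
    (h : IsFractionRing (Algebra.adjoin ℂ (range x)) K) : Nonempty (Surf K) := by
  let e : Fin 3 → K := Fin.cons 1 x
  have h1 : (1 : K) ∈ Submodule.span ℂ (range e) := Submodule.subset_span ⟨0, rfl⟩
  have h2 : IsFractionRing (chart (Submodule.span ℂ (range e)) 1) K :=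
    isFractionRing_of_le (A := Algebra.adjoin ℂ (range x)) (Algebra.adjoin_le (by
      rintro _ ⟨j, rfl⟩
      exact div_one (x j) ▸ div_mem_chart (Submodule.subset_span ⟨j.succ, rfl⟩)))
  obtain ⟨S, -⟩ := nn K (Submodule.span ℂ (range e)) ⟨.span_of_finite ℂ (finite_range e),
    fun h0 => one_ne_zero ((Submodule.mem_bot ℂ).1 (h0 ▸ h1)), htd,
    fun w _ h0 => NNb.frac_of h1 h2 h0, fun w hw h0 => by
      have h3 := NNb.frac_of h1 h2 h0
      obtain ⟨y, hy⟩ := chart_eq e hw h0
      rw [hy] at h3 ⊢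
      exact reg htd y h3⟩
  exact ⟨S⟩

end Pln

theorem plane : PLANE := by
  intro K _ _ htd A h1 h2
  obtain ⟨ι, t, ht⟩ := exists_isTranscendenceBasis' ℂ K
  obtain ⟨σ⟩ : Nonempty (Fin 2 ≃ ι) := Cardinal.eq.1 (by simp [ht.cardinalMk_eq_trdeg, htd])
  have hx := ht.comp_equiv σ
  set x := t ∘ σ
  set L := IntermediateField.adjoin ℂ (range x) with hL
  have h3 : Algebra.IsAlgebraic L K := hx.isAlgebraic_field
  have h4 : Algebra.EssFiniteType A K := .of_isLocalization K (nonZeroDivisors A)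
  have h5 : Algebra.EssFiniteType ℂ K := .comp ℂ A K
  have h6 : Algebra.EssFiniteType L K := .of_comp ℂ L K
  have h7 := trdeg_add_eq ℂ L (A := K)
  rw [trdeg_eq_zero (R := L) (A := K), add_zero, htd] at h7
  let y : Fin 2 → L := fun j => ⟨x j, IntermediateField.subset_adjoin ℂ _ ⟨j, rfl⟩⟩
  have h8 : ∀ r : MvPolynomial (Fin 2) ℂ, MvPolynomial.aeval y r ∈ Algebra.adjoin ℂ (range y) :=
    fun r => Algebra.adjoin_range_eq_range_aeval ℂ y ▸ ⟨r, rfl⟩
  refine ⟨L, Algebra.finite_of_essFiniteType_of_isAlgebraic,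
    Pln.surf h7 y (IsFractionRing.of_field _ _ fun z => ?_)⟩
  obtain ⟨r, s, e⟩ := (IntermediateField.mem_adjoin_range_iff ℂ x z).1 z.2
  refine ⟨⟨_, h8 r⟩, ⟨_, h8 s⟩, Subtype.ext (e.trans ?_)⟩
  have h9 : ∀ r : MvPolynomial (Fin 2) ℂ, MvPolynomial.aeval x r =
      ((MvPolynomial.aeval y r : L) : K) := fun r =>
    (MvPolynomial.comp_aeval_apply y L.val r).symm
  rw [h9, h9]
  rfl

end Vale.Agent.P253Y.Res
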