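import Vale.Agent.P253Y.Res.Sk

/-! The Kummer extension and the projections on the eigenspaces of its Galois group. -/

set_option linter.all false

open Polynomial

namespace Vale.Agent.P253Y.Res

namespace Pj

variable {K K' : Type} [Field K] [Algebra ℂ K] [Field K'] [Algebra ℂ K'] [Algebra K K']
  [IsScalarTower ℂ K K']

theorem root {x s : K'} {n : ℕ} (hn : 0 < n) (hs : s ≠ 0) (h : x ^ n = s ^ n) :
    ∃ ζ : ℂ, ζ ^ n = 1 ∧ x = ζ • s := by
  have : NeZero n := ⟨hn.ne'⟩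
  have p := Complex.isPrimitiveRoot_exp n hn.ne'
  obtain ⟨i, -, e⟩ := (p.map_of_injective (algebraMap ℂ K').injective).eq_pow_of_pow_eq_one
    (ξ := x / s) (by rw [div_pow, h, div_self (pow_ne_zero _ hs)])
  exact ⟨_ ^ i, by rw [pow_right_comm, p.pow_eq_one, one_pow], by
    rw [Algebra.smul_def, map_pow, e, div_mul_cancel₀ _ hs]⟩

theorem geom {ζ : ℂ} {n : ℕ} (h : ζ ^ n = 1) (h1 : ζ ≠ 1) :
    ∑ a ∈ Finset.range n, (ζ ^ (a : ℤ))⁻¹ = 0 := by
  simp only [zpow_natCast, ← inv_pow]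
  rw [geom_sum_eq (inv_ne_one.2 h1), inv_pow, h, inv_one, sub_self, zero_div]

theorem smul_aut (σ : K' ≃ₐ[K] K') (z : ℂ) (x : K') : σ (z • x) = z • σ x := by
  rw [← algebraMap_smul K z x, map_smul, algebraMap_smul]

variable [FiniteDimensional K K']

variable (K) in
/-- The projection on the line spanned by `m`. -/
noncomputable def pr (m : K') : K' →ₗ[ℂ] K' where
  toFun f := (Fintype.card (K' ≃ₐ[K] K') : ℂ)⁻¹ • ∑ σ : K' ≃ₐ[K] K', m * σ (m⁻¹ * f)
  map_add' f g := by simp only [mul_add, map_add, Finset.sum_add_distrib, smul_add]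
  map_smul' z f := by
    simp only [mul_smul_comm, smul_aut, ← Finset.smul_sum, RingHom.id_apply, smul_comm z]

theorem pr_apply (m f : K') : pr K m f =
    (Fintype.card (K' ≃ₐ[K] K') : ℂ)⁻¹ • ∑ σ : K' ≃ₐ[K] K', m * σ (m⁻¹ * f) := rfl

theorem pr_mul {m s : K'} (hs : s ≠ 0) (f : K') : pr K (s * m) (s * f) = s * pr K m f := by
  simp only [pr_apply, mul_smul_comm, Finset.mul_sum, mul_assoc, mul_inv_rev,
    inv_mul_cancel_left₀ hs]

theorem eig {σ : K' ≃ₐ[K] K'} {s t : K'} {ζ η : ℂ} (hs : s ≠ 0) (ht : t ≠ 0) (h1 : σ s = ζ • s)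
    (h2 : σ t = η • t) (a c : ℤ) (f : K') :
    s ^ a * t ^ c * σ ((s ^ a * t ^ c)⁻¹ * f) = ((ζ ^ a)⁻¹ * (η ^ c)⁻¹) • σ f := by
  have := zpow_ne_zero a hs
  have := zpow_ne_zero c ht
  simp only [map_mul, map_inv₀, map_zpow₀, h1, h2, Algebra.smul_def, mul_zpow, mul_inv]
  field_simp

theorem kum [IsGalois K K'] {u v : K} {n n' : ℕ} (hn : 0 < n) (hn' : 0 < n') {s t : K'}
    (s0 : s ≠ 0) (t0 : t ≠ 0) (hs : s ^ n = algebraMap K K' u) (ht : t ^ n' = algebraMap K K' v)
    (top : IntermediateField.adjoin K {s, t} = ⊤) : Nonempty (Kum K K' u v n n') := by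
  choose ζ z1 z2 using fun σ : K' ≃ₐ[K] K' =>
    root (x := σ s) hn s0 (by rw [← map_pow, hs, σ.commutes])
  choose η y1 y2 using fun σ : K' ≃ₐ[K] K' =>
    root (x := σ t) hn' t0 (by rw [← map_pow, ht, σ.commutes])
  have N : (Fintype.card (K' ≃ₐ[K] K') : ℂ) ≠ 0 := Nat.cast_ne_zero.2 Fintype.card_ne_zero
  refine ⟨⟨s, t, fun a c => pr K (s ^ a * t ^ c), hs, ht, s0, t0, top, fun a c f => ?_,
    fun a c κ => ?_, fun a c f => ?_, fun a c f => ?_, fun I h a c f hf => ?_, fun σ =>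
      ⟨_, _, ne_zero_pow hn.ne' (z1 σ ▸ one_ne_zero), ne_zero_pow hn'.ne' (y1 σ ▸ one_ne_zero),
        z2 σ, y2 σ⟩,
    (Fintype.card (K' ≃ₐ[K] K') : ℂ)⁻¹ * (n * n'), mul_ne_zero (inv_ne_zero N)
      (mul_ne_zero (Nat.cast_ne_zero.2 hn.ne') (Nat.cast_ne_zero.2 hn'.ne')), fun f => ?_⟩⟩
  · rw [pr_apply, ← Finset.mul_sum, ← trace_eq_sum_automorphisms, ← mul_smul_comm,
      Algebra.smul_def, IsScalarTower.algebraMap_apply ℂ K K', ← map_mul]
    exact ⟨_, rfl⟩
  · rw [pr_apply, inv_mul_cancel_left₀ (mul_ne_zero (zpow_ne_zero a s0) (zpow_ne_zero c t0))]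
    simp only [AlgEquiv.commutes, Finset.sum_const, Finset.card_univ]
    rw [← Nat.cast_smul_eq_nsmul ℂ, inv_smul_smul₀ N]
  · rw [zpow_add_one₀ s0, mul_comm _ s, mul_assoc, pr_mul s0]
  · rw [zpow_add_one₀ t0, ← mul_assoc, mul_comm _ t, pr_mul t0]
  · simp only [pr_apply, fun σ => eig s0 t0 (z2 σ) (y2 σ)]
    exact I.smul_mem _ (I.sum_mem fun σ _ => I.smul_mem _ (h σ f hf))
  · simp only [pr_apply, fun σ => eig s0 t0 (z2 σ) (y2 σ), ← Finset.smul_sum, mul_smul]
    congr 1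
    simp only [Finset.sum_comm (t := Finset.univ), ← Finset.smul_sum, ← Finset.sum_smul]
    rw [Finset.sum_eq_single 1 (fun σ _ h => ?_) (by simp)]
    · have a : ζ 1 = 1 := smul_left_injective ℂ s0 ((z2 1).symm.trans (one_smul ℂ s).symm)
      have b : η 1 = 1 := smul_left_injective ℂ t0 ((y2 1).symm.trans (one_smul ℂ t).symm)
      simp [a, b]
    by_cases a : ζ σ = 1
    · by_cases b : η σ = 1
      · refine (h (AlgEquiv.ext fun x => ?_)).elim
        have hx : x ∈ IntermediateField.adjoin K {s, t} := top ▸ trivial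
        induction hx using IntermediateField.adjoin_induction with
        | mem x hx =>
          rcases hx with rfl | rfl
          · rw [z2, a, one_smul, AlgEquiv.one_apply]
          · rw [y2, b, one_smul, AlgEquiv.one_apply]
        | algebraMap x => rw [σ.commutes, AlgEquiv.one_apply]
        | add x y _ _ h h' => rw [map_add, map_add, h, h']
        | inv x _ h => rw [map_inv₀, map_inv₀, h]
        | mul x y _ _ h h' => rw [map_mul, map_mul, h, h']
      · rw [geom (y1 σ) b, zero_smul, smul_zero]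
    · rw [geom (z1 σ) a, zero_smul]

end Pj

theorem proj : PROJ := by
  intro K _ _ u v n n' hu hv hn hn'
  let p : K[X] := (X ^ n - C u) * (X ^ n' - C v)
  have p0 : p ≠ 0 := mul_ne_zero (X_pow_sub_C_ne_zero hn u) (X_pow_sub_C_ne_zero hn' v)
  have : CharZero K := charZero_of_injective_algebraMap (algebraMap ℂ K).injective
  have : IsGalois K p.SplittingField := {}
  have ex : ∀ (w : K) (k : ℕ), 0 < k → X ^ k - C w ∣ p →
      ∃ s : p.SplittingField, s ^ k = algebraMap K _ w := fun w k hk h => by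
    obtain ⟨s, e⟩ := ((SplittingField.splits p).of_dvd (map_ne_zero p0)
      (Polynomial.map_dvd _ h)).exists_eval_eq_zero (by
        rw [degree_map, degree_X_pow_sub_C hk]
        exact_mod_cast hk.ne')
    exact ⟨s, sub_eq_zero.1 (by simpa using e)⟩
  obtain ⟨s, hs⟩ := ex u n hn (dvd_mul_right _ _)
  obtain ⟨t, ht⟩ := ex v n' hn' (dvd_mul_left _ _)
  have s0 : s ≠ 0 := ne_zero_pow hn.ne' (hs ▸ (_root_.map_ne_zero _).2 hu)
  have t0 : t ≠ 0 := ne_zero_pow hn'.ne' (ht ▸ (_root_.map_ne_zero _).2 hv)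
  refine ⟨p.SplittingField, inferInstance, inferInstance, inferInstance, inferInstance,
    inferInstance, Pj.kum hn hn' s0 t0 hs ht (IntermediateField.toSubalgebra_injective
      (top_le_iff.1 ((SplittingField.adjoin_rootSet p).ge.trans (Algebra.adjoin_le fun x hx => ?_))))⟩
  have k : ∀ (z : ℂ) (y : p.SplittingField), y ∈ ({s, t} : Set _) →
      z • y ∈ IntermediateField.adjoin K {s, t} := fun z y hy => by
    rw [← algebraMap_smul K z y]
    exact IntermediateField.smul_mem _ (IntermediateField.subset_adjoin _ _ hy)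
  have e := (mem_rootSet.1 hx).2
  simp only [p, map_mul, map_sub, map_pow, aeval_X, aeval_C, mul_eq_zero, sub_eq_zero] at e
  rcases e with e | e
  · obtain ⟨z, -, rfl⟩ := Pj.root hn s0 (e.trans hs.symm)
    exact k z s (by simp)
  · obtain ⟨z, -, rfl⟩ := Pj.root hn' t0 (e.trans ht.symm)
    exact k z t (by simp)

end Vale.Agent.P253Y.Res
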