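import Vale.Agent.P253Y.Res.Sk

/-! The purity of the branch locus. -/

set_option linter.all false

open IsLocalRing Polynomial Matrix
open scoped nonZeroDivisors

namespace Vale.Agent.P253Y.Res

namespace Pur

/-- A matrix whose powers have trace zero is nilpotent. -/
theorem nil_of_trace {F ι : Type} [Field F] [CharZero F] [Fintype ι] [DecidableEq ι]
    (M : Matrix ι ι F) (h : ∀ k : ℕ, (M ^ (k + 1)).trace = 0) : IsNilpotent M := by
  have h0 : M.charpoly ≠ 0 := (Matrix.charpoly_monic M).ne_zero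
  obtain ⟨q, hq, hX⟩ := exists_eq_pow_rootMultiplicity_mul_and_not_dvd M.charpoly h0 0
  set r := rootMultiplicity 0 M.charpoly
  simp only [map_zero, sub_zero] at hq hX
  have hc : IsCoprime ((X : F[X]) ^ (r + 1)) q :=
    ((prime_X (R := F)).irreducible.coprime_iff_not_dvd.2 hX).pow_left
  obtain ⟨u, v, huv⟩ := hc
  have hp : aeval M (X ^ r * q : F[X]) = 0 := hq ▸ Matrix.aeval_self_charpoly M
  have ht : ∀ w : F[X], (aeval M (w * X)).trace = 0 := fun w => by
    induction w using Polynomial.induction_on' with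
    | add a b ha hb => rw [add_mul, map_add, trace_add, ha, hb, add_zero]
    | monomial n a =>
      rw [monomial_mul_X, aeval_monomial, ← Algebra.smul_def, trace_smul, h, smul_zero]
  have he : IsIdempotentElem (aeval M (u * X ^ (r + 1))) := by
    have : u * X ^ (r + 1) * (u * X ^ (r + 1)) = u * X ^ (r + 1) - u * v * X * (X ^ r * q) := by
      linear_combination (u * X ^ (r + 1)) * huv
    rw [IsIdempotentElem, ← map_mul, this, map_sub, map_mul _ (u * v * X), hp, mul_zero, sub_zero]
  have he0 : aeval M (u * X ^ (r + 1)) = 0 := by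
    have h1 : IsIdempotentElem (Matrix.toLinAlgEquiv' (aeval M (u * X ^ (r + 1)))) := he.map _
    have h2 := LinearMap.IsIdempotentElem.eq_zero_of_trace_eq_zero h1 (by
      have := ht (u * X ^ r)
      rw [mul_assoc, ← pow_succ] at this
      rw [← this]
      exact Matrix.trace_toLin'_eq _)
    exact (map_eq_zero_iff _ Matrix.toLinAlgEquiv'.injective).1 h2
  refine ⟨r, ?_⟩
  have : (X ^ r : F[X]) = X ^ r * (u * X ^ (r + 1)) + v * (X ^ r * q) := by
    linear_combination (-X ^ r) * huv
  rw [← aeval_X_pow (R := F), this, map_add, map_mul _ (X ^ r), he0, map_mul _ v, hp, mul_zero,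
    mul_zero, add_zero]

section Gen

variable {A R ι : Type} [CommRing A] [CommRing R] [Algebra A R] [Fintype ι] [DecidableEq ι]
  (e : Module.Basis ι A R)

/-- The regular representation after a change of coefficients. -/
noncomputable def rho {F : Type} [CommRing F] (φ : A →+* F) : R →+* Matrix ι ι F :=
  φ.mapMatrix.comp (Algebra.leftMulMatrix e).toRingHom

theorem rho_trace {F : Type} [CommRing F] (φ : A →+* F) (x : R) :
    (rho e φ x).trace = φ (Algebra.trace A R x) := by
  rw [Algebra.trace_eq_matrix_trace e]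
  exact (AddMonoidHom.map_trace φ.toAddMonoidHom _).symm

theorem rho_alg {F : Type} [CommRing F] (φ : A →+* F) {a : A} (h : φ a = 0) :
    rho e φ (algebraMap A R a) = 0 := by
  have : rho e φ (algebraMap A R a) = φ.mapMatrix (algebraMap A (Matrix ι ι A) a) :=
    congrArg φ.mapMatrix ((Algebra.leftMulMatrix e).commutes a)
  rw [this]
  ext i j
  simp only [RingHom.mapMatrix_apply, map_apply, Matrix.algebraMap_matrix_apply, Matrix.zero_apply]
  split_ifs
  · exact h
  · exact map_zero φ

theorem repr_of_rho {F : Type} [CommRing F] (φ : A →+* F) {x : R} (h : rho e φ x = 0) (i : ι) :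
    φ (e.repr x i) = 0 := by
  have h1 := congrFun (Algebra.leftMulMatrix_mulVec_repr e x 1) i
  rw [mul_one] at h1
  rw [← h1, mulVec, dotProduct, map_sum]
  refine Finset.sum_eq_zero fun j _ => ?_
  have : φ (Algebra.leftMulMatrix e x i j) = 0 := congrFun (congrFun h i) j
  rw [map_mul, this, zero_mul]

theorem dvd_iff (p : A) (x : R) : algebraMap A R p ∣ x ↔ ∀ i, p ∣ e.repr x i := by
  constructor
  · rintro ⟨w, rfl⟩ i
    rw [← Algebra.smul_def, map_smul]
    exact ⟨_, rfl⟩
  · intro h
    choose c hc using h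
    refine ⟨∑ i, c i • e i, ?_⟩
    rw [← Algebra.smul_def, Finset.smul_sum]
    conv_lhs => rw [← e.sum_repr x]
    exact Finset.sum_congr rfl fun i _ => by rw [hc, mul_smul]

/-- A prime divisor of the discriminant gives an element of the kernel of the trace form. -/
theorem exists_ker {p : A} (hp : Prime p) (h : p ∣ Algebra.discr A e) :
    ∃ x : R, ¬ algebraMap A R p ∣ x ∧ ∀ y, p ∣ Algebra.trace A R (x * y) := by
  have : (Ideal.span {p}).IsPrime := (Ideal.span_singleton_prime hp.ne_zero).2 hp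
  let φ := Ideal.Quotient.mk (Ideal.span {p})
  have hφ : ∀ a, φ a = 0 ↔ p ∣ a := fun a => by
    rw [Ideal.Quotient.eq_zero_iff_mem, Ideal.mem_span_singleton]
  have h1 : (φ.mapMatrix (Algebra.traceMatrix A e)).det = 0 := by
    rw [← RingHom.map_det, hφ]
    exact h
  obtain ⟨v, hv, h2⟩ := Matrix.exists_mulVec_eq_zero_iff.2 h1
  choose c hc using fun i => Ideal.Quotient.mk_surjective (v i)
  have h3 := Algebra.traceMatrix_of_basis_mulVec e (e.equivFun.symm c)
  rw [LinearEquiv.apply_symm_apply] at h3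
  refine ⟨e.equivFun.symm c, fun hx => hv (funext fun i => ?_), fun y => ?_⟩
  · have h4 := (dvd_iff e p _).1 hx i
    rw [← e.equivFun_apply, LinearEquiv.apply_symm_apply] at h4
    rw [← hc]
    exact (hφ _).2 h4
  · rw [← e.sum_repr y, Finset.mul_sum, map_sum]
    refine Finset.dvd_sum fun i _ => ?_
    rw [mul_smul_comm, map_smul, smul_eq_mul]
    refine Dvd.dvd.mul_left ((hφ _).1 ?_) _
    rw [← congrFun h3 i, RingHom.map_mulVec, show φ ∘ c = v from funext hc]
    exact congrFun h2 i

/-- A prime that stays radical does not divide the discriminant. -/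
theorem not_dvd_of_rad [Algebra ℂ A] {p : A} (hp : Prime p)
    (hr : ∀ (x : R) (k : ℕ), algebraMap A R p ∣ x ^ k → algebraMap A R p ∣ x) :
    ¬ p ∣ Algebra.discr A e := fun h => by
  obtain ⟨x, hx, ht⟩ := exists_ker e hp h
  have : (Ideal.span {p}).IsPrime := (Ideal.span_singleton_prime hp.ne_zero).2 hp
  let F := FractionRing (A ⧸ Ideal.span {p})
  let φ : A →+* F := (algebraMap _ F).comp (Ideal.Quotient.mk (Ideal.span {p}))
  have hφ : ∀ a, φ a = 0 ↔ p ∣ a := fun a => by
    rw [RingHom.comp_apply, map_eq_zero_iff _ (IsFractionRing.injective _ F),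
      Ideal.Quotient.eq_zero_iff_mem, Ideal.mem_span_singleton]
  have : CharZero F := charZero_of_injective_ringHom (φ.comp (algebraMap ℂ A)).injective
  obtain ⟨k, hk⟩ := nil_of_trace (rho e φ x) fun k => by
    rw [← map_pow, rho_trace, hφ, pow_succ']
    exact ht _
  rw [← map_pow] at hk
  exact hx (hr x k ((dvd_iff e p _).2 fun i => (hφ _).1 (repr_of_rho e φ hk i)))

/-- If the discriminant is a unit, prime ideals stay radical. -/
theorem rad_of_unit (h : IsUnit (Algebra.discr A e)) (m : Ideal A) [m.IsPrime] (f : R) (k : ℕ)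
    (hf : f ^ k ∈ m.map (algebraMap A R)) (i : ι) : e.repr f i ∈ m := by
  let φ := Ideal.Quotient.mk m
  have h1 : rho e φ (f ^ k) = 0 := by
    have : m.map (algebraMap A R) ≤ RingHom.ker (rho e φ) :=
      Ideal.map_le_iff_le_comap.2 fun a ha => rho_alg e φ (Ideal.Quotient.eq_zero_iff_mem.2 ha)
    exact this hf
  have h2 : ∀ y, φ (Algebra.trace A R (f * y)) = 0 := fun y => by
    rw [← rho_trace e]
    refine (Matrix.isNilpotent_trace_of_isNilpotent ⟨k, ?_⟩).eq_zero
    rw [← map_pow, mul_pow, map_mul, h1, zero_mul]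
  have h3 : φ.mapMatrix (Algebra.traceMatrix A e) *ᵥ (φ ∘ e.equivFun f) = 0 := by
    funext j
    have := congrFun (Algebra.traceMatrix_of_basis_mulVec e f) j
    rw [RingHom.mapMatrix_apply, ← RingHom.map_mulVec, this, h2]
    rfl
  have h4 : (φ.mapMatrix (Algebra.traceMatrix A e)).det ≠ 0 := by
    rw [← RingHom.map_det]
    exact (h.map φ).ne_zero
  exact Ideal.Quotient.eq_zero_iff_mem.1 (congrFun (Matrix.eq_zero_of_mulVec_eq_zero h4 h3) i)

end Gen

section Dual

variable {A L K : Type} [CommRing A] [IsDomain A] [IsIntegrallyClosed A] [Field L] [Field K]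
  [Algebra A L] [IsFractionRing A L] [Algebra L K] [Algebra A K] [IsScalarTower A L K]
  [FiniteDimensional L K] [Algebra.IsSeparable L K]

/-- The trace dual is contained in the inverse of the different of a generator. -/
theorem int_of_dual {θ : K} {F : A[X]} (hm : F.Monic) (hF : aeval θ F = 0)
    (ht : IntermediateField.adjoin L {θ} = ⊤) {z : K}
    (hz : ∀ y, IsIntegral A y → Algebra.trace L K (z * y) ∈ (1 : Submodule A L)) :
    IsIntegral A (aeval θ (derivative F) * z) := by
  have hθ : IsIntegral A θ := ⟨F, hm, hF⟩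
  have hadj : ∀ y ∈ Algebra.adjoin A {θ}, IsIntegral A y := fun y hy =>
    (adjoin_le_integralClosure hθ) hy
  have h1 := traceForm_dualSubmodule_adjoin A L
    (Algebra.adjoin_eq_top_of_primitive_element (Algebra.IsAlgebraic.isAlgebraic θ) ht) hθ
  have h2 : z ∈ (Algebra.traceForm L K).dualSubmodule
      (Subalgebra.toSubmodule (Algebra.adjoin A {θ})) := fun y hy => hz y (hadj y hy)
  rw [h1] at h2
  obtain ⟨w, hw, hwz⟩ := (Submodule.mem_smul_pointwise_iff_exists _ _ _).1 h2
  have : FaithfulSMul A K := .trans A L K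
  obtain ⟨H, hH⟩ := minpoly.isIntegrallyClosed_dvd hθ hF
  have h3 : aeval θ (derivative F) = aeval θ (derivative (minpoly L θ)) * aeval θ H := by
    rw [minpoly.isIntegrallyClosed_eq_field_fractions' L hθ, derivative_map, aeval_map_algebraMap,
      hH, derivative_mul, map_add, map_mul, map_mul, minpoly.aeval, zero_mul, add_zero]
  have h4 : aeval θ (derivative (minpoly L θ)) ≠ 0 :=
    (Algebra.IsSeparable.isSeparable L θ).aeval_derivative_ne_zero (minpoly.aeval L θ)
  have h5 : aeval θ (derivative F) * z = aeval θ H * w := by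
    rw [h3, ← hwz, smul_eq_mul]
    field_simp
  rw [h5]
  exact (hadj _ (Polynomial.aeval_mem_adjoin_singleton A θ)).mul (hadj w hw)

/-- A prime outside the branch locus does not divide the discriminant. -/
theorem not_dvd_of_ram {ι : Type} [Fintype ι] [DecidableEq ι]
    (e : Module.Basis ι A (integralClosure A K)) {θ : K} {F : A[X]} {N : ℕ} {g : A}
    (hm : F.Monic) (hF : aeval θ F = 0) (ht : IntermediateField.adjoin L {θ} = ⊤)
    (h0 : aeval θ (derivative F) ≠ 0)
    (hg : IsIntegral A (algebraMap A K g ^ N / aeval θ (derivative F))) {p : A} (hp : Prime p)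
    (hpg : ¬ p ∣ g) : ¬ p ∣ Algebra.discr A e := fun h => by
  obtain ⟨x, hx, htr⟩ := exists_ker e hp h
  have := Module.Free.of_basis e
  have := Module.Finite.of_basis e
  have := IsIntegralClosure.isLocalization A L K (integralClosure A K)
  have hpL : algebraMap A L p ≠ 0 :=
    (map_ne_zero_iff _ (IsFractionRing.injective A L)).2 hp.ne_zero
  have hpK : algebraMap A K p ≠ 0 := by
    rw [IsScalarTower.algebraMap_apply A L K]
    exact (_root_.map_ne_zero _).2 hpL
  have h1 := int_of_dual hm hF ht (z := (x : K) / algebraMap A K p) fun y hy => by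
    obtain ⟨c, hc⟩ := htr ⟨y, hy⟩
    have h2 := Algebra.trace_localization A (Rₘ := L) (Sₘ := K) A⁰ (x * ⟨y, hy⟩)
    have h3 : (x : K) / algebraMap A K p * y =
        (algebraMap A L p)⁻¹ • algebraMap (integralClosure A K) K (x * ⟨y, hy⟩) := by
      rw [Algebra.smul_def, map_inv₀, ← IsScalarTower.algebraMap_apply]
      change _ = _ * ((x : K) * y)
      ring
    rw [h3, map_smul, h2, hc, map_mul, smul_eq_mul, inv_mul_cancel_left₀ hpL]
    exact Submodule.mem_one.2 ⟨c, rfl⟩
  have h2 : algebraMap A (integralClosure A K) p ∣ g ^ N • x := by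
    refine ⟨⟨_, hg.mul h1⟩, Subtype.ext ?_⟩
    change g ^ N • (x : K) = algebraMap A K p * _
    rw [Algebra.smul_def, map_pow]
    field_simp
  refine hx ((dvd_iff e p x).2 fun i => ?_)
  have h3 := (dvd_iff e p _).1 h2 i
  rw [map_smul, Finsupp.smul_apply, smul_eq_mul] at h3
  exact (hp.dvd_or_dvd h3).resolve_left fun h4 => hpg (hp.dvd_of_dvd_pow h4)

end Dual

end Pur

open Pur in
/-- The purity of the branch locus. -/
theorem pur (hreg : REG) (hfree : FREE) : PUR := by
  intro L K _ _ _ _ _ _ _ htd A s t hA hpar hs hram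
  have hR := hreg L htd A ⟨s, hpar.1.1⟩ ⟨t, hpar.2.1.1⟩ hA hpar
  obtain ⟨hfin, hfr⟩ := hfree L K htd A hA ⟨s, t, hpar⟩
  have := hA.isLocalRing
  have := hA.frac
  have := hR.ufd
  have : CharZero L := charZero_of_injective_algebraMap (algebraMap ℂ L).injective
  classical
  let e := Module.Free.chooseBasis A (integralClosure A K)
  have rad : ∀ p : A, Prime p → RadI A (algebraMap L K p) → ¬ p ∣ Algebra.discr A e :=
    fun p hp hr => not_dvd_of_rad e hp fun x k ⟨w, hw⟩ => by
      have h0 : algebraMap L K p ≠ 0 :=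
        (_root_.map_ne_zero _).2 fun h => hp.ne_zero (Subtype.ext h)
      have h1 : (x : K) ^ k = algebraMap L K p * w := congrArg Subtype.val hw
      have h2 := hr x x.2 ⟨k, by rw [h1, mul_div_cancel_left₀ _ h0]; exact w.2⟩
      exact ⟨⟨_, h2⟩, Subtype.ext (mul_div_cancel₀ (x : K) h0).symm⟩
  have ass : ∀ p q : A, Prime p → Prime q → p ∣ q → p ∣ Algebra.discr A e →
      q ∣ Algebra.discr A e := fun p q hp hq h1 h2 =>
    ((hp.associated_of_dvd hq h1).symm.dvd).trans h2
  have key : ∀ p : A, Prime p → ¬ p ∣ Algebra.discr A e := fun p hp hd => by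
    rcases hram with ⟨θ, F, N, h1, h2, h3, h4, h5⟩ | ⟨⟨θ, F, N, h1, h2, h3, h4, h5⟩, ht⟩
    · exact not_dvd_of_ram e (g := ⟨s, hpar.1.1⟩) h1 h2 h3 h4 h5 hp
        (fun h => rad _ hR.pu hs (ass _ _ hp hR.pu h hd)) hd
    · exact not_dvd_of_ram e (g := ⟨s, hpar.1.1⟩ * ⟨t, hpar.2.1.1⟩) h1 h2 h3 h4 h5 hp
        (fun h => (hp.dvd_or_dvd h).elim (fun h => rad _ hR.pu hs (ass _ _ hp hR.pu h hd))
          fun h => rad _ hR.pv ht (ass _ _ hp hR.pv h hd)) hd
  have hu : IsUnit (Algebra.discr A e) := by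
    by_contra hn
    have h0 : Algebra.discr A e ≠ 0 := fun h => key _ hR.pu (h ▸ dvd_zero _)
    obtain ⟨p, hp, hd⟩ := WfDvdMonoid.exists_irreducible_factor hn h0
    exact key p hp.prime hd
  have hm := (par_iff (⟨s, hpar.1.1⟩ : A) ⟨t, hpar.2.1.1⟩).2 hpar
  have hmap : ∀ f : integralClosure A K,
      f ∈ (maximalIdeal A).map (algebraMap A (integralClosure A K)) ↔
      ∃ a b : K, IsIntegral A a ∧ IsIntegral A b ∧
        (f : K) = algebraMap L K s * a + algebraMap L K t * b := fun f => by
    rw [hm, Ideal.map_span, Set.image_pair, Ideal.mem_span_pair]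
    constructor
    · rintro ⟨a, b, rfl⟩
      exact ⟨a, b, a.2, b.2, by rw [mul_comm a, mul_comm b]; rfl⟩
    · rintro ⟨a, b, ha, hb, h⟩
      exact ⟨⟨a, ha⟩, ⟨b, hb⟩, Subtype.ext (by rw [h, mul_comm _ a, mul_comm _ b]; rfl)⟩
  rintro f hf ⟨k, hk⟩
  refine (hmap ⟨f, hf⟩).1 ?_
  have h1 := rad_of_unit e hu (maximalIdeal A) ⟨f, hf⟩ k ((hmap _).2 hk)
  rw [← e.sum_repr ⟨f, hf⟩]
  refine Ideal.sum_mem _ fun i _ => ?_
  rw [Algebra.smul_def]
  exact Ideal.mul_mem_right _ _ (Ideal.mem_map_of_mem _ (h1 i))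

end Vale.Agent.P253Y.Res
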