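import Vale.Agent.P253Y.Res.Sk
import Mathlib.RingTheory.UniqueFactorizationDomain.Kaplansky
import Mathlib.RingTheory.DiscreteValuationRing.TFAE

/-! Regular local rings of dimension two. -/

set_option linter.all false

open IsLocalRing

namespace Vale.Agent.P253Y.Res

open Vale.Agent.P297Z Vale.Agent.P297Z.Sf

namespace Rg

theorem pid {R : Type} [CommRing R] [IsDomain R] [IsLocalRing R] [IsNoetherianRing R]
    (h : (maximalIdeal R).IsPrincipal) : IsPrincipalIdealRing R :=
  ((tfae_of_isNoetherianRing_of_isLocalRing_of_isDomain R).out 4 0).1 h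

variable {O : Type} [CommRing O] [IsDomain O] [IsRegularLocalRing O] {u v : O}

theorem prime (hd : ringKrullDim O = 2) (h : maximalIdeal O = Ideal.span {u, v}) : Prime u :=
  P299.R.prime_of_notMem_sq (R2.left_mem h) (R2.notMem_sq hd h)

theorem prin₀ (hd : ringKrullDim O = 2) (h : maximalIdeal O = Ideal.span {u, v}) {p : Ideal O}
    (hp : p.IsPrime) (hu : u ∉ p) : p.IsPrincipal := by
  have h1 := (P299.R.regular_quotient (R2.left_mem h) (R2.notMem_sq hd h)).1
  have h2 := P299.R.isDomain (O ⧸ Ideal.span {u})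
  have hs := Ideal.Quotient.mk_surjective (I := Ideal.span {u})
  have h3 : IsPrincipalIdealRing (O ⧸ Ideal.span {u}) := pid ⟨Ideal.Quotient.mk _ v, by
    rw [← map_maximalIdeal_of_surjective _ hs, h, Ideal.map_span, Set.image_pair,
      Ideal.Quotient.eq_zero_iff_mem.2 (Ideal.mem_span_singleton_self u), Ideal.span_insert_zero]⟩
  obtain ⟨f', hf'⟩ := (h3.principal (p.map (Ideal.Quotient.mk (Ideal.span {u})))).principal
  obtain ⟨f, hf, rfl⟩ := (Ideal.mem_map_iff_of_surjective _ hs).1
    (hf' ▸ Submodule.mem_span_singleton_self f')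
  refine ⟨f, le_antisymm (Submodule.le_of_le_smul_of_le_jacobson_bot (IsNoetherian.noetherian _)
    (maximalIdeal_le_jacobson ⊥) fun g hg => ?_) ((Submodule.span_singleton_le_iff_mem _ _).2 hf)⟩
  obtain ⟨a', ha⟩ := Ideal.mem_span_singleton'.1
    (hf' ▸ Ideal.mem_map_of_mem (Ideal.Quotient.mk (Ideal.span {u})) hg)
  obtain ⟨a, rfl⟩ := hs a'
  rw [← map_mul, Ideal.Quotient.eq] at ha
  obtain ⟨b, hb⟩ := Ideal.mem_span_singleton'.1 ha
  have h4 : b ∈ p := (hp.mem_or_mem (hb ▸ sub_mem (p.mul_mem_left a hf) hg)).resolve_right hu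
  rw [show g = a • f + u • (-b) by rw [smul_eq_mul, smul_eq_mul]; linear_combination hb]
  exact Submodule.add_mem_sup (Submodule.smul_mem _ _ (Submodule.mem_span_singleton_self f))
    (Submodule.smul_mem_smul (R2.left_mem h) (neg_mem h4))

theorem prin (hd : ringKrullDim O = 2) (h : maximalIdeal O = Ideal.span {u, v}) (p : Ideal O)
    (hp : p.IsPrime) (hm : ¬ p.IsMaximal) : p.IsPrincipal := by
  by_cases hu : u ∈ p
  · refine prin₀ (u := v) (v := u) hd (h.trans (by rw [Set.pair_comm])) hp fun hv => hm ?_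
    rw [(maximalIdeal.isMaximal O).eq_of_le hp.ne_top (h.le.trans (Ideal.span_le.2 ?_)) |>.symm]
    · exact maximalIdeal.isMaximal O
    · exact Set.insert_subset hu (Set.singleton_subset_iff.2 hv)
  · exact prin₀ hd h hp hu

theorem ufd (hd : ringKrullDim O = 2) (h : maximalIdeal O = Ideal.span {u, v}) :
    UniqueFactorizationMonoid O := by
  refine UniqueFactorizationMonoid.iff_exists_prime_mem_of_isPrime.2 fun p h0 hp => ?_
  by_cases hm : p.IsMaximal
  · exact ⟨u, eq_maximalIdeal hm ▸ R2.left_mem h, prime hd h⟩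
  · obtain ⟨f, rfl⟩ := (prin hd h p hp hm).principal
    exact ⟨f, Submodule.mem_span_singleton_self f,
      (Ideal.span_singleton_prime fun e => h0 (Ideal.span_singleton_eq_bot.2 e)).1 hp⟩

end Rg

theorem reg : REG := by
  intro K _ _ htd O u v hG hP
  have := hG.isLocalRing
  have := hG.noeth
  have hd := hG.dim htd
  have h := (par_iff u v).2 hP
  have h' : maximalIdeal O = Ideal.span {v, u} := h.trans (by rw [Set.pair_comm])
  have hr : IsRegularLocalRing O := IsRegularLocalRing.of_spanFinrank_maximalIdeal_le _ (by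
    have h1 := (Submodule.spanFinrank_span_le_ncard_of_finite (R := O) (Set.toFinite {u, v})).trans
      ((Set.ncard_insert_le u {v}).trans_eq (by rw [Set.ncard_singleton]))
    rw [hd, h]
    exact_mod_cast h1)
  exact ⟨Rg.prin hd h, Rg.ufd hd h, Rg.prime hd h, Rg.prime hd h', R2.not_dvd hd h,
    R2.not_dvd hd h', hr⟩

theorem two : TWO := by
  intro K _ _ htd O hG hr
  obtain ⟨s, -, t, -, h⟩ := R2.gens (hG.dim htd) (Ideal.span_eq (maximalIdeal O)).symm
  exact ⟨s, t, (par_iff s t).1 h⟩

theorem reg_loc {K : Type} [Field K] [Algebra ℂ K] {A : Subalgebra ℂ K} [IsNoetherianRing A]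
    {P m : Ideal A} (hP : P.IsPrime) (hm : m.IsPrime) (hlt : P < m)
    (h : ∀ p : Ideal (loc A m hm), p.IsPrime → ¬ p.IsMaximal → p.IsPrincipal) :
    IsRegularLocalRing (loc A P hP) := by
  have : IsNoetherianRing (loc A P hP) := IsLocalization.isNoetherianRing P.primeCompl _ ‹_›
  have hd : Disjoint (m.primeCompl : Set A) P := Set.disjoint_left.2 fun a ha hb => ha (hlt.le hb)
  have h3 := IsLocalization.under_map_of_isPrime_disjoint m.primeCompl (loc A m hm) hP hd
  obtain ⟨f, hf⟩ := (h (P.map (algebraMap A (loc A m hm)))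
    (IsLocalization.isPrime_of_isPrime_disjoint m.primeCompl _ P hP hd) fun k => hlt.ne
      (h3.symm.trans ((congrArg _ (eq_maximalIdeal k)).trans
        (IsLocalization.AtPrime.under_maximalIdeal (loc A m hm) m)))).principal
  have h4 : loc A m hm ≤ loc A P hP := fun g ⟨a, b, hb, e⟩ => ⟨a, b, fun k => hb (hlt.le k), e⟩
  let j : loc A m hm →+* loc A P hP := (Subalgebra.inclusion h4).toRingHom
  have h5 : algebraMap A (loc A P hP) = j.comp (algebraMap A (loc A m hm)) :=
    RingHom.ext fun _ => Subtype.ext rfl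
  have := Rg.pid (R := loc A P hP) ⟨j f, by
    rw [← IsLocalization.AtPrime.map_eq_maximalIdeal P (loc A P hP), h5, ← Ideal.map_map, hf,
      Ideal.submodule_span_eq, Ideal.map_span, Set.image_singleton, Ideal.submodule_span_eq]⟩
  infer_instance

theorem cover : COVER := by
  intro K _ _ htd W hW h2
  obtain ⟨w₀, hw₀, h0⟩ := (Submodule.ne_bot_iff W).1 hW.ne
  refine model K W hW.fin hW.ne htd ⟨w₀, hw₀, hW.frac w₀ hw₀ h0⟩ fun w hw h0 P hP => ?_
  obtain ⟨m, hm, hle⟩ := P.exists_le_maximal hP.ne_top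
  obtain ⟨u, v, h⟩ := h2 (Pt.ofMax hw h0 m hm)
  have R := reg K htd _ ⟨u, h.1.1⟩ ⟨v, h.2.1.1⟩ (hW.geo (Pt.ofMax hw h0 m hm)) h
  rcases hle.eq_or_lt with rfl | hlt
  · exact R.reg
  have := hW.fin
  have : IsNoetherianRing (chart W w) :=
    have := chart_finiteType (W := W) w
    Algebra.FiniteType.isNoetherianRing ℂ _
  exact reg_loc hP hm.isPrime hlt R.prin

end Vale.Agent.P253Y.Res
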