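import Vale.Agent.P253Y.Res.Sk

/-! Adjunction of roots of the parameters. -/

set_option linter.all false

open IsLocalRing Polynomial

namespace Vale.Agent.P253Y.Res

open Vale.Agent.P297Z Vale.Agent.P297Z.Sf

namespace RootA

variable {L L' : Type} [Field L] [Field L'] [Algebra ℂ L] [Algebra ℂ L'] [Algebra L L']
  [IsScalarTower ℂ L L']

/-- The algebra generated by `A`, `s` and `t`. -/
noncomputable def ext (A : Subalgebra ℂ L) (s t : L') : Subalgebra ℂ L' :=
  Algebra.adjoin ℂ (algebraMap L L' '' (A : Set L) ∪ {s, t})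

variable {A : Subalgebra ℂ L} {u v : L} {s t : L'} {n n' : ℕ}

theorem mem_a {a : L} (ha : a ∈ A) : algebraMap L L' a ∈ ext A s t :=
  Algebra.subset_adjoin (Or.inl ⟨a, ha, rfl⟩)

theorem mem_s : s ∈ ext A s t := Algebra.subset_adjoin (Or.inr (by simp))

theorem mem_t : t ∈ ext A s t := Algebra.subset_adjoin (Or.inr (by simp))

theorem int_a {a : L} (ha : a ∈ A) : IsIntegral A (algebraMap L L' a) :=
  isIntegral_algebraMap (R := A) (A := L') (x := ⟨a, ha⟩)

theorem integral (hu : u ∈ A) (hv : v ∈ A) (hn : 0 < n) (hn' : 0 < n')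
    (hs : s ^ n = algebraMap L L' u) (ht : t ^ n' = algebraMap L L' v) :
    ∀ f ∈ ext A s t, IsIntegral A f := by
  intro f hf
  induction hf using Algebra.adjoin_induction with
  | mem x hx =>
    rcases hx with ⟨a, ha, rfl⟩ | rfl | rfl
    · exact int_a ha
    · exact IsIntegral.of_pow hn (hs ▸ int_a hu)
    · exact IsIntegral.of_pow hn' (ht ▸ int_a hv)
  | algebraMap r =>
    rw [IsScalarTower.algebraMap_apply ℂ L L']
    exact int_a (A.algebraMap_mem r)
  | add x y _ _ hx hy => exact hx.add hy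
  | mul x y _ _ hx hy => exact hx.mul hy

theorem value (hA : Geo A) (hP : Par A u v) (hn : 0 < n) (hn' : 0 < n')
    (hs : s ^ n = algebraMap L L' u) (ht : t ^ n' = algebraMap L L' v) :
    ∀ f ∈ ext A s t, ∃ c : ℂ, ∃ a ∈ ext A s t, ∃ b ∈ ext A s t,
      f - algebraMap ℂ L' c = a * s + b * t := by
  intro f hf
  induction hf using Algebra.adjoin_induction with
  | mem x hx =>
    rcases hx with ⟨a, ha, rfl⟩ | rfl | rfl
    · obtain ⟨c, hc⟩ := hA.val ha
      obtain ⟨p, hp, q, hq, e⟩ := hP.2.2 _ hc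
      obtain ⟨k, rfl⟩ := Nat.exists_eq_succ_of_ne_zero hn.ne'
      obtain ⟨k', rfl⟩ := Nat.exists_eq_succ_of_ne_zero hn'.ne'
      refine ⟨c, _, mul_mem (mem_a hp) (pow_mem mem_s k), _, mul_mem (mem_a hq) (pow_mem mem_t k'),
        ?_⟩
      rw [IsScalarTower.algebraMap_apply ℂ L L', ← map_sub, e, map_add, map_mul, map_mul, ← hs,
        ← ht, pow_succ, pow_succ]
      ring
    · exact ⟨0, 1, one_mem _, 0, zero_mem _, by simp⟩
    · exact ⟨0, 0, zero_mem _, 1, one_mem _, by simp⟩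
  | algebraMap r => exact ⟨r, 0, zero_mem _, 0, zero_mem _, by simp⟩
  | add x y _ _ hx hy =>
    obtain ⟨c, a, ha, b, hb, e⟩ := hx
    obtain ⟨c', a', ha', b', hb', e'⟩ := hy
    exact ⟨c + c', a + a', add_mem ha ha', b + b', add_mem hb hb', by
      rw [map_add]; linear_combination e + e'⟩
  | mul x y hx0 hy0 hx hy =>
    obtain ⟨c, a, ha, b, hb, e⟩ := hx
    obtain ⟨c', a', ha', b', hb', e'⟩ := hy
    have hc := (ext A s t).algebraMap_mem c
    exact ⟨c * c', a * y + algebraMap ℂ L' c * a', add_mem (mul_mem ha hy0) (mul_mem hc ha'),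
      b * y + algebraMap ℂ L' c * b', add_mem (mul_mem hb hy0) (mul_mem hc hb'), by
      rw [map_mul]; linear_combination y * e + algebraMap ℂ L' c * e'⟩

/-- The inclusion of `A`. -/
noncomputable def inc (A : Subalgebra ℂ L) (s t : L') : A →+* ext A s t :=
  ((algebraMap L L').comp A.val.toRingHom).codRestrict (ext A s t) fun a => mem_a a.2

theorem inc_int (h : ∀ f ∈ ext A s t, IsIntegral A f) : (inc A s t).IsIntegral := fun f => by
  obtain ⟨p, hp, e⟩ := h f f.2
  refine ⟨p, hp, Subtype.ext ?_⟩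
  exact (hom_eval₂ p (inc A s t) (ext A s t).val.toRingHom f).trans e

theorem unique (hA : Geo A) (hP : Par A u v) (hn : 0 < n) (hn' : 0 < n')
    (hs : s ^ n = algebraMap L L' u) (ht : t ^ n' = algebraMap L L' v)
    (M : Ideal (ext A s t)) (hM : M.IsMaximal) :
    M = Ideal.span {⟨s, mem_s⟩, ⟨t, mem_t⟩} := by
  have := hA.isLocalRing
  have h1 : M.comap (inc A s t) = maximalIdeal A := eq_maximalIdeal
    (Ideal.isMaximal_comap_of_isIntegral_of_isMaximal' _
      (inc_int (integral hP.1.1 hP.2.1.1 hn hn' hs ht)) M)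
  have h2 : ∀ (w : L) (hw : Van A w) (r : ext A s t) (k : ℕ), (r : L') ^ k = algebraMap L L' w →
      r ∈ M := fun w hw r k e => by
    have h3 : (⟨w, hw.1⟩ : A) ∈ M.comap (inc A s t) := h1 ▸ (van_iff _).2 hw
    refine hM.isPrime.mem_of_pow_mem k ?_
    have : r ^ k = inc A s t ⟨w, hw.1⟩ := Subtype.ext e
    rw [this]
    exact h3
  have h4 : Ideal.span {(⟨s, mem_s⟩ : ext A s t), ⟨t, mem_t⟩} ≤ M := by
    rw [Ideal.span_le]
    rintro r (rfl | rfl)
    · exact h2 u hP.1 _ n hs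
    · exact h2 v hP.2.1 _ n' ht
  refine ((isMaximal_of_val (fun h => hM.ne_top (top_le_iff.1 (h ▸ h4))) fun f => ?_).eq_of_le
    hM.ne_top h4).symm
  obtain ⟨c, a, ha, b, hb, e⟩ := value hA hP hn hn' hs ht f f.2
  exact ⟨c, Ideal.mem_span_pair.2 ⟨⟨a, ha⟩, ⟨b, hb⟩, Subtype.ext e.symm⟩⟩

theorem geo (hA : Geo A) [IsLocalRing (ext A s t)] (hv : HasVal (ext A s t))
    (htop : IntermediateField.adjoin L {s, t} = ⊤) : Geo (ext A s t) := by
  obtain ⟨A₀, h1, h2, m, hm, rfl⟩ := hA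
  let φ := IsScalarTower.toAlgHom ℂ L L'
  let A₁ : Subalgebra ℂ L' := A₀.map φ ⊔ Algebra.adjoin ℂ {s, t}
  have ha : ∀ a : A₀, algebraMap L L' a ∈ A₁ := fun a =>
    (le_sup_left : A₀.map φ ≤ A₁) ⟨a, a.2, rfl⟩
  have hst : ({s, t} : Set L') ⊆ A₁ :=
    Algebra.subset_adjoin.trans (le_sup_right : Algebra.adjoin ℂ {s, t} ≤ A₁)
  have hle : A₁ ≤ ext (loc A₀ m hm.isPrime) s t := by
    refine sup_le ?_ (Algebra.adjoin_mono Set.subset_union_right)
    rintro _ ⟨a, ha, rfl⟩
    exact mem_a (le_loc A₀ m hm.isPrime ha)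
  refine ⟨A₁, (Subalgebra.fg_iff_finiteType _).1 ?_, ?_, ctr hle, hv.ctr_isMaximal hle,
    le_antisymm (Algebra.adjoin_le ?_) (loc_ctr_le hle)⟩
  · exact (((Subalgebra.fg_iff_finiteType _).2 h1).map φ).sup
      (Subalgebra.fg_def.2 ⟨_, Set.toFinite _, rfl⟩)
  · refine IsFractionRing.of_field _ _ fun z => ?_
    have h3 : (IntermediateField.adjoin L {s, t}).toSubfield ≤ Subfield.closure (A₁ : Set L') := by
      rw [IntermediateField.adjoin_toSubfield, Subfield.closure_le]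
      rintro _ (⟨y, rfl⟩ | hy)
      · obtain ⟨a, b, -, rfl⟩ := IsFractionRing.div_surjective (A := A₀) y
        rw [map_div₀]
        exact div_mem (Subfield.subset_closure (ha a)) (Subfield.subset_closure (ha b))
      · exact Subfield.subset_closure (hst hy)
    have h4 : z ∈ (IntermediateField.adjoin L {s, t}).toSubfield := by rw [htop]; trivial
    obtain ⟨a, ha, b, hb, e⟩ := Subfield.mem_closure_iff.1 (h3 h4)
    have h5 : Subring.closure (A₁ : Set L') = A₁.toSubring := Subring.closure_eq A₁.toSubring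
    rw [h5] at ha hb
    exact ⟨⟨a, ha⟩, ⟨b, hb⟩, e.symm⟩
  · rintro _ (⟨y, ⟨a, b, hb, e⟩, rfl⟩ | hy)
    · refine ⟨⟨_, ha a⟩, ⟨_, ha b⟩, ?_, ?_⟩
      · rw [mem_ctr, not_or, not_not]
        refine ⟨(_root_.map_ne_zero _).2 (ne_zero_of_notMem hb), ?_⟩
        change (algebraMap L L' b)⁻¹ ∈ _
        rw [← map_inv₀]
        exact mem_a (inv_mem_loc hm.isPrime hb)
      · change algebraMap L L' y * algebraMap L L' b = algebraMap L L' a
        rw [← map_mul, e]
    · exact le_loc _ _ _ (hst hy)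

end RootA

open RootA in
theorem root : ROOT := by
  intro L L' _ _ _ _ _ _ _ A u v s t n n' hA hP hn hn' hs ht htop
  have hu := unique hA hP hn hn' hs ht
  obtain ⟨M, hM⟩ := Ideal.exists_maximal (ext A s t)
  have hloc : IsLocalRing (ext A s t) :=
    IsLocalRing.of_unique_max_ideal ⟨M, hM, fun N hN => (hu N hN).trans (hu M hM).symm⟩
  have hmax := hu _ (maximalIdeal.isMaximal _)
  refine ⟨ext A s t, geo hA (fun f => ?_) htop, (par_iff _ _).1 hmax, fun a => mem_a,
    integral hP.1.1 hP.2.1.1 hn hn' hs ht⟩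
  obtain ⟨c, a, ha, b, hb, e⟩ := value hA hP hn hn' hs ht f f.2
  exact ⟨c, hmax ▸ Ideal.mem_span_pair.2 ⟨⟨a, ha⟩, ⟨b, hb⟩, Subtype.ext e.symm⟩⟩

end Vale.Agent.P253Y.Res
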