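import Vale.Agent.P253Y.Res.Sk
import Vale.Agent.P297Y.Alg.Cs
import Vale.Agent.P297Y.Alg.Kill

/-! Embedded resolution of curves on a smooth surface. -/

set_option linter.all false

open IsLocalRing

namespace Vale.Agent.P253Y.Res

open Vale.Agent.P297Z Vale.Agent.P297Z.Sf

namespace Sn

open Classical

variable {K : Type} [Field K] [Algebra ℂ K] {S S' S'' : Surf K}

/-! ### The relation between the pairs -/

/-- The local rings of the points outside `D`. -/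
def U (S : Surf K) (D : Finset (Crv S.W)) : Set (Subalgebra ℂ K) :=
  {O | ∃ x : Pt S.W, Off D x ∧ x.ring = O}

/-- The complement of `D'` is the complement of `D` and `Q`. -/
def Rel (S : Surf K) (D : Finset (Crv S.W)) (Q : Set (Subalgebra ℂ K)) (S' : Surf K)
    (D' : Finset (Crv S'.W)) : Prop :=
  (∀ C' : Crv S'.W, C' ∉ D' → ∃ C : Crv S.W, C ∉ D ∧ C.pl = C'.pl) ∧ U S' D' = U S D \ Q ∧
    ∃ π : Pt S'.W → Pt S.W, Dominates π

theorem Rel.refl {D : Finset (Crv S.W)} {Q : Set (Subalgebra ℂ K)} (h : Disjoint (U S D) Q) :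
    Rel S D Q S D :=
  ⟨fun C hC => ⟨C, hC, rfl⟩, h.sdiff_eq_left.symm, id, fun _ => ⟨le_rfl, fun _ h => h⟩⟩

theorem Rel.trans {D : Finset (Crv S.W)} {D' : Finset (Crv S'.W)} {D'' : Finset (Crv S''.W)}
    {Q Q' : Set (Subalgebra ℂ K)} (h : Rel S D Q S' D') (h' : Rel S' D' Q' S'' D'') :
    Rel S D (Q ∪ Q') S'' D'' := by
  obtain ⟨h1, h2, π, h3⟩ := h
  obtain ⟨k1, k2, π', k3⟩ := h'
  refine ⟨fun C hC => ?_, by rw [k2, h2, Set.diff_diff], _, h3.comp k3⟩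
  obtain ⟨C', a, b⟩ := k1 C hC
  obtain ⟨C'', c, d⟩ := h1 C' a
  exact ⟨C'', c, d.trans b⟩

/-! ### One blowing up -/

variable {x : Pt S.W} (b : Blow S S' x)

theorem inj : Function.Injective b.ι := fun C C' h =>
  Crv.ext (by rw [← b.pl C, h, b.pl])

theorem on_pi {y : Pt S'.W} {C : Crv S.W} (h : y.On (b.ι C)) : (b.π y).On C :=
  fun f hf => b.pl C ▸ h f ((b.dom y).1 hf)

theorem on_of {y : Pt S'.W} {C : Crv S.W} (hy : b.π y ≠ x) (h : (b.π y).On C) :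
    y.On (b.ι C) := fun f hf => by
  rw [b.pl C]
  exact h f (b.off y hy ▸ hf)

theorem pi_inj {y y' : Pt S'.W} (hy : b.π y ≠ x) (e : b.π y = b.π y') : y = y' :=
  Pt.ext (by rw [b.off y hy, b.off y' (e ▸ hy), e])

/-- The total transform. -/
noncomputable def tt (D : Finset (Crv S.W)) : Finset (Crv S'.W) :=
  insert b.E (D.map ⟨b.ι, inj b⟩)

theorem mem_tt {D : Finset (Crv S.W)} {C' : Crv S'.W} :
    C' ∈ tt b D ↔ C' = b.E ∨ ∃ C ∈ D, b.ι C = C' := by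
  simp [tt]

theorem sum_tt (D : Finset (Crv S.W)) (f : Crv S'.W → ℤ) :
    ∑ C ∈ tt b D, f C = f b.E + ∑ C ∈ D, f (b.ι C) := by
  rw [tt, Finset.sum_insert, Finset.sum_map]
  · rfl
  · simp only [Finset.mem_map, not_exists, not_and]
    exact fun C _ => b.ne C

theorem rel_tt (D : Finset (Crv S.W)) : Rel S D {x.ring} S' (tt b D) := by
  refine ⟨fun C' hC' => ?_, Set.ext fun O => ⟨?_, ?_⟩, b.π, b.dom⟩
  · rw [mem_tt, not_or] at hC'
    obtain ⟨C, rfl⟩ := (b.all C').resolve_left hC'.1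
    exact ⟨C, fun h => hC'.2 ⟨C, h, rfl⟩, (b.pl C).symm⟩
  · rintro ⟨y, h, rfl⟩
    have hy : b.π y ≠ x := fun e => h _ ((mem_tt b).2 (Or.inl rfl)) ((b.onE y).2 e)
    refine ⟨⟨b.π y, fun C hC hon => h _ ((mem_tt b).2 (Or.inr ⟨C, hC, rfl⟩)) (on_of b hy hon),
      (b.off y hy).symm⟩, fun e => hy (Pt.ext ?_)⟩
    rw [← b.off y hy]
    exact e
  · rintro ⟨⟨z, h, rfl⟩, hz⟩
    obtain ⟨y, rfl⟩ := b.surj z
    have hy : b.π y ≠ x := fun e => hz (by rw [e]; rfl)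
    refine ⟨y, fun C' hC' hon => ?_, b.off y hy⟩
    rcases (mem_tt b).1 hC' with rfl | ⟨C, hC, rfl⟩
    · exact hy ((b.onE y).1 hon)
    · exact h C hC (on_pi b hon)

theorem rel_tt' {D : Finset (Crv S.W)} {C : Crv S.W} (hC : C ∈ D) (hx : x.On C) :
    Rel S D ∅ S' (tt b D) := by
  obtain ⟨h1, h2, h3⟩ := rel_tt b D
  refine ⟨h1, ?_, h3⟩
  rw [h2, Set.diff_empty, Set.diff_singleton_eq_self]
  rintro ⟨z, h, e⟩
  rw [Pt.ext e] at h
  exact h C hC hx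

/-! ### Multiplicities -/

theorem mem_max {C : Crv S.W} (hx : x.On C) {t : x.ring} (ht : 0 < C.ord t) :
    t ∈ maximalIdeal x.ring := by
  refine (x.mem_max t).2 ⟨t.2, Or.inr fun h => ?_⟩
  have := Pl.ord_nonneg_of_mem _ (hx _ h)
  rw [Pl.ord_inv] at this
  unfold Crv.ord at ht
  omega

theorem mu_off {C : Crv S.W} (hx : ¬ x.On C) : b.μ C.cl = 0 := by
  rw [b.μ_eq C.cl 1 ⟨one_ne_zero, fun C' h => ?_⟩]
  · exact Pl.ord_one _
  · have : C' ≠ C := fun e => hx (e ▸ h)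
    simp [Finsupp.single_eq_of_ne this]

theorem mu_on {C : Crv S.W} (hx : x.On C) : ∃ t : x.ring, 0 < C.ord t ∧
    (∀ a : x.ring, 0 < C.ord a → t ∣ a) ∧
    ∀ n : ℕ, (n : ℤ) ≤ b.μ C.cl ↔ t ∈ maximalIdeal x.ring ^ n := by
  obtain ⟨t, hp, h1, h2, h3⟩ := S.all.irr_of_crv x C hx
  refine ⟨t, by omega, fun a ha => (h3 a).2 (Or.inr ha), fun n => ?_⟩
  rw [b.μ_eq C.cl t ⟨fun e => hp.ne_zero (Subtype.ext e), fun C' h => ?_⟩]
  · exact b.ordE t n hp.ne_zero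
  · rcases eq_or_ne C' C with rfl | e
    · simp [h1]
    · simp [Finsupp.single_eq_of_ne e, h2 C' h e]

theorem one_le_mu {C : Crv S.W} (hx : x.On C) : 1 ≤ b.μ C.cl := by
  obtain ⟨t, h1, -, h2⟩ := mu_on b hx
  exact (h2 1).2 (by rw [pow_one]; exact mem_max hx h1)

theorem mu_nonneg (C : Crv S.W) : 0 ≤ b.μ C.cl := by
  by_cases hx : x.On C
  · exact zero_le_one.trans (one_le_mu b hx)
  · exact (mu_off b hx).ge

theorem mu_le_one {C : Crv S.W} (h : S.Smooth C) : b.μ C.cl ≤ 1 := by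
  by_cases hx : x.On C
  · obtain ⟨t, -, h2, h3⟩ := mu_on b hx
    obtain ⟨s, k1, k2⟩ := h x hx
    by_contra hn
    exact k2 (Ideal.mem_of_dvd _ (h2 s k1) ((h3 2).1 (by push_cast; omega)))
  · rw [mu_off b hx]
    exact zero_le_one

theorem two_le_mu {C : Crv S.W} (hx : x.On C)
    (h : ∀ t : x.ring, 0 < C.ord t → t ∈ maximalIdeal x.ring ^ 2) : 2 ≤ b.μ C.cl := by
  obtain ⟨t, h1, -, h3⟩ := mu_on b hx
  exact_mod_cast (h3 2).2 (h t h1)

theorem inter_zero {W : Submodule ℂ K} (D : Sf.Div W) : inter 0 D = 0 := by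
  simp [inter]

theorem int_ii (C C' : Crv S.W) :
    inter (b.ι C).cl (b.ι C').cl = inter C.cl C'.cl - b.μ C.cl * b.μ C'.cl := by
  have := b.int C.cl C'.cl 0 0
  simpa [Finsupp.mapDomain_single] using this

theorem int_Ei (C : Crv S.W) : inter b.E.cl (b.ι C).cl = b.μ C.cl := by
  have := b.int 0 C.cl 1 0
  simpa [Finsupp.mapDomain_single, inter_zero] using this

theorem ag_i (C : Crv S.W) : S'.ag (b.ι C).cl = S.ag C.cl - b.μ C.cl * (b.μ C.cl - 1) := by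
  have := b.kap C.cl 0
  simp only [Finsupp.mapDomain_single, Finsupp.single_zero, add_zero] at this
  rw [Surf.ag, Surf.ag, int_ii, this]
  ring

theorem ag_E : S'.ag b.E.cl = -2 := by
  have h1 := b.kap 0 1
  have h2 := b.int 0 0 1 1
  simp only [Finsupp.mapDomain_zero, zero_add, map_zero, inter_zero, inter_comm S.kap 0] at h1 h2
  rw [Surf.ag, h1, h2]
  norm_num

/-! ### The three invariants -/

/-- The common points. -/
def meet {W : Submodule ℂ K} (C C' : Crv W) : Set (Pt W) := {x | x.On C ∧ x.On C'}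

/-- The excess of the intersection number. -/
noncomputable def ex {W : Submodule ℂ K} (C C' : Crv W) : ℤ :=
  if C = C' then 0 else inter C.cl C'.cl - (meet C C').ncard

/-- The first invariant. -/
noncomputable def I1 (S : Surf K) (D : Finset (Crv S.W)) : ℤ := ∑ C ∈ D, (S.ag C.cl + 2)

/-- The second invariant. -/
noncomputable def I2 (S : Surf K) (D : Finset (Crv S.W)) : ℤ := ∑ C ∈ D, ∑ C' ∈ D, ex C C'

/-- The triple points. -/
def Tri (S : Surf K) (D : Finset (Crv S.W)) : Set (Pt S.W) :=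
  {x | ∃ C₁ ∈ D, ∃ C₂ ∈ D, ∃ C₃ ∈ D, C₁ ≠ C₂ ∧ C₁ ≠ C₃ ∧ C₂ ≠ C₃ ∧ x.On C₁ ∧ x.On C₂ ∧ x.On C₃}

theorem I1_nonneg (S : Surf K) (D : Finset (Crv S.W)) : 0 ≤ I1 S D :=
  Finset.sum_nonneg fun C _ => by
    have := gle cs K S C
    omega

theorem inter_sum {C C' : Crv S.W} (h : C ≠ C') :
    inter C.cl C'.cl = ∑ x ∈ (S.all.fin_meet C C' h).toFinset, (mult x C.cl C'.cl : ℤ) ∧
      ∀ x ∈ meet C C', 1 ≤ (mult x C.cl C'.cl : ℤ) := by
  have h1 : 0 ≤ C.cl := Finsupp.single_nonneg.2 zero_le_one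
  have h2 : 0 ≤ C'.cl := Finsupp.single_nonneg.2 zero_le_one
  have h3 : ∀ X, C.cl X = 0 ∨ C'.cl X = 0 := fun X => by
    by_cases e : X = C
    · exact Or.inr (Finsupp.single_eq_of_ne (e ▸ h))
    · exact Or.inl (Finsupp.single_eq_of_ne e)
  have h4 : ∀ (x : Pt S.W) (X : Crv S.W), (∃ Y, x.On Y ∧ X.cl Y ≠ 0) ↔ x.On X := fun x X =>
    ⟨fun ⟨Y, a, c⟩ => by
      by_contra hn
      exact c (Finsupp.single_eq_of_ne fun e => hn (e ▸ a)), fun a => ⟨X, a, by simp⟩⟩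
  have h5 : ∀ x, mult x C.cl C'.cl ≠ 0 ↔ x ∈ meet C C' := fun x => by
    rw [(S.all.multPos x _ _ h1 h2 h3).2, h4, h4]
    rfl
  refine ⟨?_, fun x hx => by have := (h5 x).2 hx; omega⟩
  rw [inter_eq S.all.inte h1 h2 h3]
  refine finsum_eq_sum_of_support_subset _ fun x hx => ?_
  rw [Set.Finite.coe_toFinset]
  exact (h5 x).1 fun e => hx (by simp [e])

theorem ex_nonneg (C C' : Crv S.W) : 0 ≤ ex C C' := by
  unfold ex
  split_ifs with h
  · rfl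
  obtain ⟨h1, h2⟩ := inter_sum h
  have := Finset.card_nsmul_le_sum (S.all.fin_meet C C' h).toFinset _ 1
    fun x hx => h2 x ((Set.Finite.mem_toFinset _).1 hx)
  rw [h1, show (meet C C').ncard = _ from Set.ncard_eq_toFinset_card _ (S.all.fin_meet C C' h)]
  simpa using this

theorem ex_le {C C' : Crv S.W} (hi : inter C.cl C'.cl ≤ 1) : ex C C' ≤ 0 := by
  unfold ex
  split_ifs with h
  · rfl
  rcases (meet C C').eq_empty_or_nonempty with e | e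
  · have : (S.all.fin_meet C C' h).toFinset = ∅ := (Set.Finite.toFinset_eq_empty).2 e
    rw [(inter_sum h).1, this, e]
    simp
  · have := (Set.ncard_pos (S.all.fin_meet C C' h)).2 e
    change 0 < (meet C C').ncard at this
    omega

theorem I2_nonneg (S : Surf K) (D : Finset (Crv S.W)) : 0 ≤ I2 S D :=
  Finset.sum_nonneg fun C _ => Finset.sum_nonneg fun C' _ => ex_nonneg C C'

theorem tri_fin (S : Surf K) (D : Finset (Crv S.W)) : (Tri S D).Finite := by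
  refine (D.offDiag.finite_toSet.biUnion fun p hp =>
    S.all.fin_meet p.1 p.2 (Finset.mem_offDiag.1 hp).2.2).subset ?_
  rintro x ⟨C₁, h1, C₂, h2, C₃, -, h3, -, -, h4, h5, -⟩
  exact Set.mem_biUnion (x := (C₁, C₂)) (Finset.mem_offDiag.2 ⟨h1, h2, h3⟩) ⟨h4, h5⟩

theorem I1_tt (D : Finset (Crv S.W)) :
    I1 S' (tt b D) = I1 S D - ∑ C ∈ D, b.μ C.cl * (b.μ C.cl - 1) := by
  rw [I1, sum_tt, ag_E, I1, ← Finset.sum_sub_distrib]
  simp only [ag_i, neg_add_cancel, zero_add]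
  exact Finset.sum_congr rfl fun _ _ => by ring

theorem mm_nonneg (C : Crv S.W) : 0 ≤ b.μ C.cl * (b.μ C.cl - 1) := by
  have := mu_nonneg b C
  rcases this.eq_or_lt with h | h
  · rw [← h, zero_mul]
  · exact mul_nonneg this (by omega)

theorem I1_le (D : Finset (Crv S.W)) : I1 S' (tt b D) ≤ I1 S D := by
  rw [I1_tt]
  exact sub_le_self _ (Finset.sum_nonneg fun C _ => mm_nonneg b C)

theorem I1_lt {D : Finset (Crv S.W)} {C : Crv S.W} (hC : C ∈ D) (h : 2 ≤ b.μ C.cl) :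
    I1 S' (tt b D) < I1 S D := by
  rw [I1_tt]
  exact sub_lt_self _ (Finset.sum_pos' (fun C _ => mm_nonneg b C)
    ⟨C, hC, mul_pos (by omega) (by omega)⟩)

theorem meet_sub (C C' : Crv S.W) : meet C C' \ {x} ⊆ b.π '' meet (b.ι C) (b.ι C') := by
  rintro z ⟨h, hz⟩
  obtain ⟨y, rfl⟩ := b.surj z
  exact ⟨y, ⟨on_of b hz h.1, on_of b hz h.2⟩, rfl⟩

theorem card_le {C C' : Crv S.W} (h : C ≠ C') {M : Set (Pt S.W)}
    (hM : M ⊆ b.π '' meet (b.ι C) (b.ι C')) : M.ncard ≤ (meet (b.ι C) (b.ι C')).ncard := by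
  have hf : (meet (b.ι C) (b.ι C')).Finite := S'.all.fin_meet _ _ ((inj b).ne h)
  exact (Set.ncard_le_ncard hM (hf.image _)).trans (Set.ncard_image_le hf)

theorem ex_ii_le (C C' : Crv S.W) : ex (b.ι C) (b.ι C') ≤ ex C C' := by
  rcases eq_or_ne C C' with rfl | h
  · simp [ex]
  rw [ex, ex, if_neg h, if_neg ((inj b).ne h), int_ii]
  have h1 := card_le b h (meet_sub b C C')
  by_cases hx : x ∈ meet C C'
  · have h2 := Set.ncard_diff_singleton_add_one hx (S.all.fin_meet C C' h)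
    have h3 := one_le_mul_of_one_le_of_one_le (one_le_mu b hx.1) (one_le_mu b hx.2)
    omega
  · rw [Set.diff_singleton_eq_self hx] at h1
    have h3 := mul_nonneg (mu_nonneg b C) (mu_nonneg b C')
    omega

theorem ex_ii_lt {C C' : Crv S.W} (h : C ≠ C') {y : Pt S'.W} (hy : b.π y = x)
    (h1 : y.On (b.ι C)) (h2 : y.On (b.ι C')) : ex (b.ι C) (b.ι C') < ex C C' := by
  rw [ex, ex, if_neg h, if_neg ((inj b).ne h), int_ii]
  have h4 := card_le b h (M := meet C C') fun z hz => by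
    by_cases e : z = x
    · exact ⟨y, ⟨h1, h2⟩, hy.trans e.symm⟩
    · exact meet_sub b C C' ⟨hz, e⟩
  have h3 := one_le_mul_of_one_le_of_one_le (one_le_mu b (hy ▸ on_pi b h1))
    (one_le_mu b (hy ▸ on_pi b h2))
  omega

theorem I2_tt {D : Finset (Crv S.W)} (hD : ∀ C ∈ D, S.Smooth C) :
    I2 S' (tt b D) ≤ ∑ C ∈ D, ∑ C' ∈ D, ex (b.ι C) (b.ι C') := by
  rw [I2, sum_tt, sum_tt]
  have h1 : ∑ C ∈ D, ex b.E (b.ι C) ≤ 0 := Finset.sum_nonpos fun C hC =>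
    ex_le (by rw [int_Ei]; exact mu_le_one b (hD C hC))
  have h2 : ∑ C ∈ D, ∑ C' ∈ tt b D, ex (b.ι C) C' ≤
      ∑ C ∈ D, ∑ C' ∈ D, ex (b.ι C) (b.ι C') := Finset.sum_le_sum fun C hC => by
    rw [sum_tt]
    have := ex_le (C := b.ι C) (C' := b.E)
      (by rw [inter_comm, int_Ei]; exact mu_le_one b (hD C hC))
    omega
  have h3 : ex b.E b.E = 0 := if_pos rfl
  omega

theorem I2_le {D : Finset (Crv S.W)} (hD : ∀ C ∈ D, S.Smooth C) : I2 S' (tt b D) ≤ I2 S D :=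
  (I2_tt b hD).trans (Finset.sum_le_sum fun C _ => Finset.sum_le_sum fun C' _ => ex_ii_le b C C')

theorem I2_lt {D : Finset (Crv S.W)} (hD : ∀ C ∈ D, S.Smooth C) {C C' : Crv S.W} (hC : C ∈ D)
    (hC' : C' ∈ D) (h : C ≠ C') {y : Pt S'.W} (hy : b.π y = x) (h1 : y.On (b.ι C))
    (h2 : y.On (b.ι C')) : I2 S' (tt b D) < I2 S D :=
  (I2_tt b hD).trans_lt (Finset.sum_lt_sum
    (fun C _ => Finset.sum_le_sum fun C' _ => ex_ii_le b C C')
    ⟨C, hC, Finset.sum_lt_sum (fun C' _ => ex_ii_le b C C') ⟨C', hC', ex_ii_lt b h hy h1 h2⟩⟩)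

theorem tri_lt {D : Finset (Crv S.W)} (hx : x ∈ Tri S D)
    (h : ∀ C ∈ D, ∀ C' ∈ D, C ≠ C' → ∀ y, b.π y = x → y.On (b.ι C) → ¬ y.On (b.ι C')) :
    (Tri S' (tt b D)).ncard < (Tri S D).ncard := by
  have key : ∀ y ∈ Tri S' (tt b D), b.π y ≠ x := by
    rintro y ⟨C₁, a1, C₂, a2, C₃, a3, n1, n2, n3, o1, o2, o3⟩ hy
    have k : ∀ A ∈ tt b D, ∀ B ∈ tt b D, A ≠ B → A ≠ b.E → B ≠ b.E → y.On A → ¬ y.On B := by
      intro A hA B hB n nA nB oA
      obtain ⟨C, hC, rfl⟩ := ((mem_tt b).1 hA).resolve_left nA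
      obtain ⟨C', hC', rfl⟩ := ((mem_tt b).1 hB).resolve_left nB
      exact h C hC C' hC' (fun e => n (e ▸ rfl)) y hy oA
    by_cases e1 : C₁ = b.E
    · exact k _ a2 _ a3 n3 (e1 ▸ n1.symm) (e1 ▸ n2.symm) o2 o3
    by_cases e2 : C₂ = b.E
    · exact k _ a1 _ a3 n2 e1 (e2 ▸ n3.symm) o1 o3
    · exact k _ a1 _ a2 n1 e1 e2 o1 o2
  refine lt_of_le_of_lt (Set.ncard_le_ncard_of_injOn b.π (fun y hy => ?_)
    (fun y hy y' _ e => pi_inj b (key y hy) e) ((tri_fin S D).diff))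
    (Set.ncard_diff_singleton_lt_of_mem hx (tri_fin S D))
  refine ⟨?_, key y hy⟩
  have hE : ¬ y.On b.E := fun e => key y hy ((b.onE y).1 e)
  obtain ⟨C₁, a1, C₂, a2, C₃, a3, n1, n2, n3, o1, o2, o3⟩ := hy
  obtain ⟨A₁, c1, rfl⟩ := ((mem_tt b).1 a1).resolve_left fun e => hE (e ▸ o1)
  obtain ⟨A₂, c2, rfl⟩ := ((mem_tt b).1 a2).resolve_left fun e => hE (e ▸ o2)
  obtain ⟨A₃, c3, rfl⟩ := ((mem_tt b).1 a3).resolve_left fun e => hE (e ▸ o3)
  exact ⟨A₁, c1, A₂, c2, A₃, c3, fun e => n1 (e ▸ rfl), fun e => n2 (e ▸ rfl),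
    fun e => n3 (e ▸ rfl), on_pi b o1, on_pi b o2, on_pi b o3⟩

/-- The three invariants in the lexicographic order. -/
noncomputable def inv (S : Surf K) (D : Finset (Crv S.W)) : ℕ ×ₗ ℕ ×ₗ ℕ :=
  toLex ((I1 S D).toNat, toLex ((I2 S D).toNat, (Tri S D).ncard))

theorem inv_lt {D : Finset (Crv S.W)} {D' : Finset (Crv S'.W)} (h1 : I1 S' D' ≤ I1 S D)
    (h2 : I1 S' D' < I1 S D ∨ I2 S' D' < I2 S D ∨
      (I2 S' D' ≤ I2 S D ∧ (Tri S' D').ncard < (Tri S D).ncard)) : inv S' D' < inv S D := by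
  have a := I1_nonneg S' D'
  have c := I2_nonneg S' D'
  simp only [inv, Prod.Lex.toLex_lt_toLex]
  omega

/-! ### The induction -/

theorem snc_of {D : Finset (Crv S.W)} (h1 : ∀ C ∈ D, S.Smooth C) (h2 : ∀ x, x ∉ Tri S D)
    (h3 : ∀ (x : Pt S.W), ∀ C₁ ∈ D, ∀ C₂ ∈ D, ∀ t₁ t₂ : x.ring, C₁ ≠ C₂ → x.On C₁ → x.On C₂ →
      0 < C₁.ord t₁ → 0 < C₂.ord t₂ → t₁ ∉ maximalIdeal x.ring ^ 2 →
      t₂ ∉ maximalIdeal x.ring ^ 2 → maximalIdeal x.ring = Ideal.span {t₁, t₂}) : Snc S D := by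
  intro x
  obtain ⟨w, hw, hx⟩ := x.exists_in
  by_cases k1 : ∃ C ∈ D, x.On C
  swap
  · obtain ⟨-, -, -, -, s, t, -, -, e⟩ := S.all.gens x w hw hx
    exact ⟨s, t, e, fun C hC o => absurd ⟨C, hC, o⟩ k1⟩
  obtain ⟨C₁, c1, o1⟩ := k1
  obtain ⟨t₁, p1, q1⟩ := h1 C₁ c1 x o1
  by_cases k2 : ∃ C ∈ D, x.On C ∧ C₁ ≠ C
  swap
  · obtain ⟨-, -, -, t, -, e⟩ := S.all.ext x w hw hx t₁ (mem_max o1 p1) q1
    refine ⟨t₁, t, e, fun C hC o => Or.inl ?_⟩
    by_contra hn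
    exact k2 ⟨C, hC, o, fun e => hn (e ▸ p1)⟩
  obtain ⟨C₂, c2, o2, n⟩ := k2
  obtain ⟨t₂, p2, q2⟩ := h1 C₂ c2 x o2
  refine ⟨t₁, t₂, h3 x C₁ c1 C₂ c2 t₁ t₂ n o1 o2 p1 p2 q1 q2, fun C hC o => ?_⟩
  by_contra hn
  rw [not_or] at hn
  exact h2 x ⟨C₁, c1, C₂, c2, C, hC, n, fun e => hn.1 (e ▸ p1), fun e => hn.2 (e ▸ p2), o1, o2, o⟩

theorem step (hB : BLOW) (hT : TAN) {D : Finset (Crv S.W)} (hD : ¬ Snc S D) :
    ∃ (S' : Surf K) (D' : Finset (Crv S'.W)), Rel S D ∅ S' D' ∧ inv S' D' < inv S D := by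
  by_cases h1 : ∀ C ∈ D, S.Smooth C
  swap
  · simp only [Surf.Smooth, not_forall, not_exists, not_and, not_not] at h1
    obtain ⟨C, hC, x, hx, h⟩ := h1
    obtain ⟨S', ⟨b⟩⟩ := hB K S x
    exact ⟨S', tt b D, rel_tt' b hC hx, inv_lt (I1_le b D) (Or.inl (I1_lt b hC (two_le_mu b hx h)))⟩
  by_cases h2 : ∀ x, x ∉ Tri S D
  · by_contra hn
    refine hD (snc_of h1 h2 fun x C₁ c1 C₂ c2 t₁ t₂ n o1 o2 p1 p2 q1 q2 => ?_)
    by_contra e
    obtain ⟨S', ⟨b⟩⟩ := hB K S x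
    obtain ⟨y, a1, a2, a3⟩ := hT K S S' x b C₁ C₂ t₁ t₂ n o1 o2 p1 p2 q1 q2 e
    exact hn ⟨S', tt b D, rel_tt' b c1 o1,
      inv_lt (I1_le b D) (Or.inr (Or.inl (I2_lt b h1 c1 c2 n a1 a2 a3)))⟩
  · simp only [not_forall, not_not] at h2
    obtain ⟨x, hx⟩ := h2
    obtain ⟨S', ⟨b⟩⟩ := hB K S x
    obtain ⟨C, hC, -, -, -, -, -, -, -, o, -⟩ := id hx
    refine ⟨S', tt b D, rel_tt' b hC o, inv_lt (I1_le b D) (Or.inr ?_)⟩
    by_cases h : ∀ C ∈ D, ∀ C' ∈ D, C ≠ C' → ∀ y, b.π y = x → y.On (b.ι C) → ¬ y.On (b.ι C')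
    · exact Or.inr ⟨I2_le b h1, tri_lt b hx h⟩
    · simp only [not_forall, not_not] at h
      obtain ⟨C₁, c1, C₂, c2, n, y, a1, a2, a3⟩ := h
      exact Or.inl (I2_lt b h1 c1 c2 n a1 a2 a3)

theorem main (hB : BLOW) (hT : TAN) (n : ℕ ×ₗ ℕ ×ₗ ℕ) : ∀ (S : Surf K) (D : Finset (Crv S.W)),
    inv S D = n → ∃ (S' : Surf K) (D' : Finset (Crv S'.W)), Snc S' D' ∧ Rel S D ∅ S' D' := by
  induction n using WellFoundedLT.induction with
  | ind n ih =>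
    rintro S D rfl
    by_cases hD : Snc S D
    · exact ⟨S, D, hD, Rel.refl (Set.disjoint_empty _)⟩
    obtain ⟨S', D', h1, h2⟩ := step hB hT hD
    obtain ⟨S'', D'', h3, h4⟩ := ih _ h2 S' D' rfl
    exact ⟨S'', D'', h3, by simpa using h1.trans h4⟩

theorem pts (hB : BLOW) (S : Surf K) (D : Finset (Crv S.W)) (Q : Finset (Subalgebra ℂ K)) :
    ∃ (S' : Surf K) (D' : Finset (Crv S'.W)), Rel S D Q S' D' := by
  induction Q using Finset.induction with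
  | empty => exact ⟨S, D, Rel.refl (by simp)⟩
  | insert O Q _ ih =>
    obtain ⟨S', D', h⟩ := ih
    rw [Finset.coe_insert, ← Set.union_singleton]
    by_cases e : ∃ y : Pt S'.W, y.ring = O
    · obtain ⟨y, rfl⟩ := e
      obtain ⟨S'', ⟨b⟩⟩ := hB K S' y
      exact ⟨S'', _, h.trans (rel_tt b D')⟩
    · exact ⟨S', D', h.trans (Rel.refl (Set.disjoint_singleton_right.2
        fun ⟨y, _, hy⟩ => e ⟨y, hy⟩))⟩

end Sn

open Sn in
theorem snc (hB : BLOW) (hT : TAN) : SNC := by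
  classical
  intro K _ _ S D P
  obtain ⟨S₁, D₁, h1⟩ := pts hB S D (P.image Pt.ring)
  obtain ⟨S₂, D₂, h2, h3⟩ := main hB hT _ S₁ D₁ rfl
  obtain ⟨k1, k2, k3⟩ := h1.trans h3
  refine ⟨S₂, D₂, h2, k1, fun O => (Set.ext_iff.1 k2 O).trans ⟨?_, ?_⟩, k3⟩
  · rintro ⟨⟨x, a, rfl⟩, c⟩
    exact ⟨x, a, fun hx => c (Or.inl (Finset.mem_coe.2 (Finset.mem_image_of_mem _ hx))), rfl⟩
  · rintro ⟨x, a, c, rfl⟩
    refine ⟨⟨x, a, rfl⟩, fun h => ?_⟩
    obtain ⟨z, hz, e⟩ := Finset.mem_image.1 (Finset.mem_coe.1 (h.resolve_right id))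
    exact c (Pt.ext e ▸ hz)

end Vale.Agent.P253Y.Res
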