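import Vale.Agent.P253Y.Res.Sk

/-! The singularities of a covering with normal crossing branch locus are toric. -/

set_option linter.all false

open IsLocalRing Polynomial

namespace Vale.Agent.P253Y.Res

open Vale.Agent.P297Z Vale.Agent.P297Z.Sf

namespace Gl

variable {L L' K K' : Type} [Field L] [Field L'] [Field K] [Field K'] [Algebra ℂ L] [Algebra ℂ L']
  [Algebra ℂ K] [Algebra ℂ K'] [Algebra L L'] [Algebra L' K'] [Algebra L K']
  [IsScalarTower L L' K']

/-- The inclusion of rings. -/
def inc {A : Subalgebra ℂ L} {A' : Subalgebra ℂ L'} (h : ∀ a ∈ A, algebraMap L L' a ∈ A') :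
    A →+* A' := ((algebraMap L L').comp A.val.toRingHom).codRestrict A' fun a => h a a.2

theorem inc_comp {A : Subalgebra ℂ L} {A' : Subalgebra ℂ L'}
    (h : ∀ a ∈ A, algebraMap L L' a ∈ A') :
    (algebraMap A' K').comp (inc h) = algebraMap A K' :=
  RingHom.ext fun a => (IsScalarTower.algebraMap_apply L L' K' a).symm

theorem int_iff {A : Subalgebra ℂ L} {A' : Subalgebra ℂ L'} (h : ∀ a ∈ A, algebraMap L L' a ∈ A')
    (h' : ∀ f ∈ A', IsIntegral A f) (f : K') : IsIntegral A' f ↔ IsIntegral A f := by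
  letI : Algebra A A' := (inc h).toAlgebra
  have : IsScalarTower A A' K' := IsScalarTower.of_algebraMap_eq' (inc_comp h).symm
  have : IsScalarTower A A' L' := IsScalarTower.of_algebraMap_eq fun _ => rfl
  have : Algebra.IsIntegral A A' :=
    ⟨fun a => (isIntegral_algebraMap_iff (B := L') Subtype.val_injective).1 (h' a a.2)⟩
  exact ⟨isIntegral_trans f, IsIntegral.tower_top⟩

variable [Algebra L K] [Algebra K K'] [IsScalarTower L K K']

theorem ram_up {A : Subalgebra ℂ L} {A' : Subalgebra ℂ L'} (h : ∀ a ∈ A, algebraMap L L' a ∈ A')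
    (h' : ∀ f ∈ A', IsIntegral A f) {s t : L'}
    (top : IntermediateField.adjoin K {algebraMap L' K' s, algebraMap L' K' t} = ⊤) {g : L}
    {g' : L'} {n : ℕ} (hg : g' ^ n = algebraMap L L' g) (hr : Ram K A g) : Ram K' A' g' := by
  obtain ⟨θ, F, N, h1, h2, h3, h4, h5⟩ := hr
  have ev : ∀ P : A[X], aeval (algebraMap K K' θ) (P.map (inc h)) =
      algebraMap K K' (aeval θ P) := fun P => by
    rw [aeval_def, eval₂_map, inc_comp, ← aeval_def, aeval_algebraMap_apply]
  refine ⟨algebraMap K K' θ, F.map (inc h), n * N, h1.map _, by rw [ev, h2, map_zero], ?_, ?_, ?_⟩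
  · have k1 : ∀ κ : K, algebraMap K K' κ ∈ IntermediateField.adjoin L' {algebraMap K K' θ} := by
      intro κ
      have h6 : κ ∈ IntermediateField.adjoin L {θ} := h3 ▸ IntermediateField.mem_top
      induction h6 using IntermediateField.adjoin_induction with
      | mem x hx =>
        rw [Set.mem_singleton_iff.1 hx]
        exact IntermediateField.mem_adjoin_simple_self _ _
      | algebraMap x =>
        rw [← IsScalarTower.algebraMap_apply, IsScalarTower.algebraMap_apply L L' K']
        exact IntermediateField.algebraMap_mem _ _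
      | add x y _ _ hx hy => rw [map_add]; exact add_mem hx hy
      | inv x _ hx => rw [map_inv₀]; exact inv_mem hx
      | mul x y _ _ hx hy => rw [map_mul]; exact mul_mem hx hy
    rw [eq_top_iff]
    rintro f -
    have h6 : f ∈ IntermediateField.adjoin K {algebraMap L' K' s, algebraMap L' K' t} :=
      top ▸ IntermediateField.mem_top
    induction h6 using IntermediateField.adjoin_induction with
    | mem x hx => rcases hx with rfl | rfl <;> exact IntermediateField.algebraMap_mem _ _
    | algebraMap x => exact k1 x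
    | add x y _ _ hx hy => exact add_mem hx hy
    | inv x _ hx => exact inv_mem hx
    | mul x y _ _ hx hy => exact mul_mem hx hy
  · rw [derivative_map, ev]
    exact (_root_.map_ne_zero _).2 h4
  · rw [derivative_map, ev, int_iff h h', pow_mul, ← map_pow, hg, ← IsScalarTower.algebraMap_apply,
      IsScalarTower.algebraMap_apply L K K', ← map_pow, ← map_div₀]
    exact h5.algebraMap

theorem mid (root : ROOT) (rads : RADS) (pur : PUR) [IsScalarTower ℂ L K] [IsScalarTower ℂ K K']
    [IsScalarTower ℂ L L'] [IsScalarTower ℂ L' K'] [FiniteDimensional L K] [FiniteDimensional L L']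
    [FiniteDimensional L' K'] (htd : Algebra.trdeg ℂ L = 2) {A : Subalgebra ℂ L} {u v : L}
    (hA : Geo A) (hp : Par A u v) {n n' : ℕ} (hn : 0 < n) (hd : n' ∣ n) (h1 : Abh K A u v n)
    (h2 : Ram K A u ∨ (Ram K A (u * v) ∧ n' = n ∧ Abh K A v u n))
    (k : Kum K K' (algebraMap L K u) (algebraMap L K v) n n') {s t : L'}
    (es : algebraMap L' K' s = k.s) (et : algebraMap L' K' t = k.t)
    (htop : IntermediateField.adjoin L {s, t} = ⊤) : Rad2 A k.s k.t := by
  have hs : s ^ n = algebraMap L L' u := (algebraMap L' K').injective (by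
    rw [map_pow, es, k.hs, ← IsScalarTower.algebraMap_apply, ← IsScalarTower.algebraMap_apply])
  have ht : t ^ n' = algebraMap L L' v := (algebraMap L' K').injective (by
    rw [map_pow, et, k.ht, ← IsScalarTower.algebraMap_apply, ← IsScalarTower.algebraMap_apply])
  have htd' : Algebra.trdeg ℂ L' = 2 := by
    rw [← trdeg_add_eq ℂ L, htd, trdeg_eq_zero, add_zero]
  obtain ⟨A', g1, g2, g3, g4⟩ :=
    root L L' A u v s t n n' hA hp hn (Nat.pos_of_dvd_of_pos hd hn) hs ht htop
  have hi := int_iff (K' := K') g3 g4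
  have top : IntermediateField.adjoin K {algebraMap L' K' s, algebraMap L' K' t} = ⊤ := by
    rw [es, et, k.top]
  have r1 : RadI A' (algebraMap L' K' s) := by
    simpa only [RadI, hi, es] using rads L K K' A u v n n' k hp.1.1 hn hd h1
  have r2 : Rad2 A' (algebraMap L' K' s) (algebraMap L' K' t) := by
    refine pur L' K' htd' A' s t g1 g2 r1 (h2.imp (ram_up g3 g4 top hs) ?_)
    rintro ⟨h3, rfl, h4⟩
    refine ⟨ram_up g3 g4 top (n := n') (by rw [mul_pow, hs, ht, map_mul]) h3, ?_⟩
    have h5 : RadI A k.t := rads L K K' A v u n' n' k.swap hp.2.1.1 hn hd h4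
    simpa only [RadI, hi, et] using h5
  simpa only [Rad2, hi, es, et] using r2

end Gl

theorem tt (reg : REG) (abh : ABH) (proj : PROJ) (root : ROOT) (rads : RADS) (pur : PUR)
    (kum : KUM) (locq : LOCQ) : TT := by
  intro L K _ _ _ _ _ _ _ htd A u v hA hp q hq hB
  have hr := reg L htd _ ⟨u, hp.1.1⟩ ⟨v, hp.2.1.1⟩ hA hp
  have u0 : u ≠ 0 := fun e => hr.pu.ne_zero (Subtype.ext e)
  have v0 : v ≠ 0 := fun e => hr.pv.ne_zero (Subtype.ext e)
  obtain ⟨l1, l2, l3, l4, l5⟩ := locq L K A u v hA hp q hq _ rfl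
  have key : ∀ n n' : ℕ, 0 < n → n' ∣ n → Abh K A u v n →
      (Ram K A u ∨ (Ram K A (u * v) ∧ n' = n ∧ Abh K A v u n)) →
      ∃ Λ φ, Tor (loc _ q hq.isPrime) n n' Λ φ := by
    intro n n' hn hd h1 h2
    obtain ⟨K', _, _, _, _, _, ⟨k⟩⟩ := proj K (algebraMap L K u) (algebraMap L K v) n n'
      ((_root_.map_ne_zero _).2 u0) ((_root_.map_ne_zero _).2 v0) hn (Nat.pos_of_dvd_of_pos hd hn)
    letI : Algebra L K' := ((algebraMap K K').comp (algebraMap L K)).toAlgebra
    have : IsScalarTower L K K' := IsScalarTower.of_algebraMap_eq fun _ => rfl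
    have : IsScalarTower ℂ L K' := IsScalarTower.of_algebraMap_eq fun c => by
      rw [IsScalarTower.algebraMap_apply L K K', ← IsScalarTower.algebraMap_apply ℂ L K,
        ← IsScalarTower.algebraMap_apply]
    have : FiniteDimensional L K' := Module.Finite.trans K K'
    have : IsScalarTower ℂ (IntermediateField.adjoin L {k.s, k.t}) K' :=
      IsScalarTower.of_algebraMap_eq fun _ => rfl
    refine kum K K' _ _ _ n n' k hB l1 l2 l3 l4 hn hd (l5 K' k.s k.t ?_)
    refine Gl.mid (L' := IntermediateField.adjoin L {k.s, k.t}) root rads pur htd hA hp hn hd h1 h2 k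
      (s := ⟨k.s, IntermediateField.subset_adjoin _ _ (by simp)⟩)
      (t := ⟨k.t, IntermediateField.subset_adjoin _ _ (by simp)⟩) rfl rfl ?_
    apply IntermediateField.lift_injective
    rw [IntermediateField.lift_adjoin, IntermediateField.lift_top, Set.image_pair]
  obtain ⟨n₁, p1, a1⟩ := abh L K htd A u v hA hp
  obtain ⟨n₂, p2, a2⟩ := abh L K htd A v u hA hp.symm
  constructor
  · intro h
    obtain ⟨Λ, φ, h1⟩ := key (n₁ * n₂) (n₁ * n₂) (mul_pos p1 p2) dvd_rfl (a1 _ (dvd_mul_right _ _))
      (Or.inr ⟨h, rfl, a2 _ (dvd_mul_left _ _)⟩)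
    exact ⟨_, Λ, φ, mul_pos p1 p2, h1⟩
  · intro h
    obtain ⟨Λ, φ, h1⟩ := key n₁ 1 p1 (one_dvd _) (a1 _ dvd_rfl) (Or.inl h)
    exact ⟨_, Λ, φ, p1, h1⟩

end Vale.Agent.P253Y.Res
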