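import Vale.Agent.P253Y.Res.Sk

/-! Tangent smooth branches meet on the blowing up. -/

set_option linter.all false

open IsLocalRing Polynomial

namespace Vale.Agent.P253Y.Res

open Vale.Agent.P297Z Vale.Agent.P297Z.Sf

namespace TanA

variable {K : Type} [Field K] [Algebra ℂ K] {S : Surf K} {x : Pt S.W} {C : Crv S.W}

theorem mem_max (hC : x.On C) {t : x.ring} (h : 0 < C.ord t) : t ∈ maximalIdeal x.ring :=
  (x.mem_max t).2 ⟨t.2, Or.inr fun e => h.ne' (Pl.ord_unit _ (hC _ t.2) (hC _ e))⟩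

theorem eqn (hC : x.On C) {t : x.ring} (ht : Prime t) (h : 0 < C.ord t) :
    C.ord t = 1 ∧ (∀ C', x.On C' → C' ≠ C → C'.ord t = 0) ∧
      ∀ a : x.ring, t ∣ a ↔ ((a : K) = 0 ∨ 0 < C.ord a) := by
  obtain ⟨C₀, -, h2, h3, h4⟩ := S.all.crv_of_irr x t ht
  obtain rfl : C = C₀ := by_contra fun e => h.ne' (h3 C hC e)
  exact ⟨h2, h3, h4⟩

theorem meet {C' : Crv S.W} (hne : C ≠ C')
    (h : inter (Finsupp.single C 1) (Finsupp.single C' 1) ≠ 0) :
    ∃ y : Pt S.W, y.On C ∧ y.On C' := by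
  have h1 : ∀ D : Crv S.W, (0 : Sf.Div S.W) ≤ Finsupp.single D 1 := fun D =>
    Finsupp.single_nonneg.2 zero_le_one
  have h3 : ∀ D, (Finsupp.single C 1 : Sf.Div S.W) D = 0 ∨
      (Finsupp.single C' 1 : Sf.Div S.W) D = 0 := fun D => by
    by_cases e : D = C
    · exact Or.inr (Finsupp.single_eq_of_ne (e ▸ hne))
    · exact Or.inl (Finsupp.single_eq_of_ne e)
  by_contra hc
  refine h ((inter_eq S.all.inte (h1 C) (h1 C') h3).trans
    (finsum_eq_zero_of_forall_eq_zero fun y => Nat.cast_eq_zero.2 (by_contra fun e => hc ?_)))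
  obtain ⟨⟨D, a1, a2⟩, D', a3, a4⟩ := (S.all.multPos y _ _ (h1 C) (h1 C') h3).2.1 e
  obtain rfl : D = C := by_contra fun e => a2 (Finsupp.single_eq_of_ne e)
  obtain rfl : D' = C' := by_contra fun e => a4 (Finsupp.single_eq_of_ne e)
  exact ⟨y, a1, a3⟩

end TanA

open TanA in
theorem tan : TAN := by
  intro K _ _ S S' x b C₁ C₂ t₁ t₂ hne h1 h2 o1 o2 s1 s2 hm
  have n1 : t₁ ≠ 0 := fun e => s1 (e ▸ zero_mem _)
  have n2 : t₂ ≠ 0 := fun e => s2 (e ▸ zero_mem _)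
  have n1' : (t₁ : K) ≠ 0 := fun e => n1 (Subtype.ext e)
  have n2' : (t₂ : K) ≠ 0 := fun e => n2 (Subtype.ext e)
  have m1 := mem_max h1 o1
  have m2 := mem_max h2 o2
  obtain ⟨w, hw, hx⟩ := x.exists_in
  obtain ⟨p1, -, -, v, -, hv⟩ := S.all.ext x w hw hx t₁ m1 s1
  obtain ⟨e1, e2, e3⟩ := eqn h1 p1 o1
  obtain ⟨-, e4, -⟩ := eqn h2 (S.all.ext x w hw hx t₂ m2 s2).1 o2
  obtain ⟨a, c, hac⟩ := Ideal.mem_span_pair.1 (hv ▸ m2)
  have mv : v ∈ maximalIdeal x.ring := hv ▸ Ideal.subset_span (by simp)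
  have v0 : ¬ ((v : K) = 0 ∨ 0 < C₁.ord v) := fun e => by
    have := (e3 t₂).1 (hac ▸ dvd_add (dvd_mul_left _ _) (((e3 v).2 e).mul_left _))
    rw [e4 C₁ h1 hne] at this
    exact this.elim n2' (lt_irrefl _)
  have nv : (v : K) ≠ 0 := fun e => v0 (Or.inl e)
  have mc : c ∈ maximalIdeal x.ring := by_contra fun e => by
    obtain ⟨d, hd⟩ := (notMem_maximalIdeal.1 e).exists_left_inv
    refine hm (le_antisymm (hv.trans_le (Ideal.span_le.2 ?_)) (Ideal.span_le.2 ?_))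
    · rintro f (rfl | rfl)
      · exact Ideal.subset_span (by simp)
      · exact Ideal.mem_span_pair.2 ⟨-(d * a), d, by rw [← hac]; linear_combination f * hd⟩
    · rintro f (rfl | rfl)
      exacts [m1, m2]
  have k1 : (1 : ℤ) ≤ b.E.ord t₁ := (b.ordE t₁ 1 n1).2 (by rwa [pow_one])
  have k2 : ¬ (2 : ℤ) ≤ b.E.ord t₂ := fun e => s2 ((b.ordE t₂ 2 n2).1 e)
  have k3 : (1 : ℤ) ≤ b.E.ord v := (b.ordE v 1 fun e => nv (congrArg Subtype.val e)).2
    (by rwa [pow_one])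
  have k4 : b.μ (Finsupp.single C₁ 1) = b.E.ord t₁ := b.μ_eq _ _ ⟨n1', fun C hC => by
    by_cases e : C = C₁
    · rw [e, e1, Finsupp.neg_apply, Finsupp.single_eq_same, add_neg_cancel]
    · rw [e2 C hC e, Finsupp.neg_apply, Finsupp.single_eq_of_ne e, neg_zero, add_zero]⟩
  have k5 := b.int (Finsupp.single C₁ 1) 0 0 1
  rw [Finsupp.mapDomain_single, Finsupp.mapDomain_zero, Finsupp.single_zero, add_zero, zero_add,
    map_zero, k4, inter.eq_1 _ 0, add_zero] at k5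
  obtain ⟨y, y1, y2⟩ := meet (b.ne C₁) (by rw [k5]; omega)
  have hy := (b.onE y).1 y2
  refine ⟨y, hy, y1, ?_⟩
  obtain ⟨d1, d2⟩ := b.dom y
  rw [hy] at d1 d2
  have f1 : (v : K) / t₁ ∉ y.ring := fun e => by
    have := Pl.ord_nonneg_of_mem _ (y1 _ e)
    rw [b.pl, Pl.ord_div _ nv n1'] at this
    exact v0 (Or.inr (by unfold Crv.ord at *; omega))
  have f2 : y.Van ((t₁ : K) / v) :=
    ⟨(b.dir _ _ ((par_iff t₁ v).1 hv) y hy).resolve_left f1, Or.inr (by rwa [inv_div])⟩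
  have f3 : y.Van ((t₂ : K) / v) := by
    have e : (t₂ : K) / v = a * (t₁ / v) + c := by
      rw [← hac]
      push_cast
      field_simp
    rw [e]
    exact (f2.mul_left (d1 a.2)).add (d2 _ ((x.mem_max c).1 mc))
  have f4 := f3.2.resolve_left (div_ne_zero n2' nv)
  rw [← S'.all.normal, inv_div] at f4
  obtain ⟨C', g1, g2⟩ : ∃ C', y.On C' ∧ C'.ord v < C'.ord t₂ := by
    by_contra hc
    refine f4 (Or.inr fun C' hC' => ?_)
    have := not_lt.1 fun e => hc ⟨C', hC', e⟩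
    unfold Crv.ord at *
    rw [Pl.ord_div _ nv n2', Finsupp.zero_apply]
    omega
  rcases b.all C' with rfl | ⟨C, rfl⟩
  · omega
  · have g3 : x.On C := fun f hf => b.pl C ▸ g1 f (d1 hf)
    have g4 := Pl.ord_nonneg_of_mem _ (g3 _ v.2)
    unfold Crv.ord at *
    rw [b.pl] at g2
    obtain rfl : C = C₂ := by_contra fun e => by
      have := e4 C g3 e
      omega
    exact g1

end Vale.Agent.P253Y.Res
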