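import Vale.Agent.P253Y.Res.Sk

/-! Resolution of toric singularities. -/

set_option linter.all false

namespace Vale.Agent.P253Y.Res

namespace TorP

variable {K : Type} [Field K] [Algebra ℂ K] {B Q R : Subalgebra ℂ K} {n n' : ℕ}
  {Λ : AddSubgroup (ℤ × ℤ)} {φ : ℤ × ℤ → K} {l l' : ℤ × ℤ}

theorem ne (h : Tor B n n' Λ φ) (hl : l ∈ Λ) : φ l ≠ 0 := fun e =>
  (h.mul l hl l hl).1 (by simp [e])

theorem add (h : Tor B n n' Λ φ) (hl : l ∈ Λ) (hl' : l' ∈ Λ) :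
    ∃ u, Un B u ∧ φ (l + l') = u * (φ l * φ l') :=
  ⟨_, h.mul l hl l' hl', (div_mul_cancel₀ _ (mul_ne_zero (ne h hl) (ne h hl'))).symm⟩

theorem zero (h : Tor B n n' Λ φ) : Un B (φ 0) := by
  have h1 := (h.mul 0 Λ.zero_mem 0 Λ.zero_mem).inv
  rwa [add_zero, inv_div, mul_div_cancel_right₀ _ (ne h Λ.zero_mem)] at h1

theorem pow (h : Tor B n n' Λ φ) (hl : l ∈ Λ) (k : ℕ) :
    ∃ u, Un B u ∧ φ (k • l) = u * φ l ^ k := by
  induction k with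
  | zero => exact ⟨_, zero h, by simp⟩
  | succ k ih =>
    obtain ⟨u, h1, h2⟩ := ih
    obtain ⟨v, h3, h4⟩ := add h (Λ.nsmul_mem hl k) hl
    exact ⟨_, h3.mul h1, by rw [succ_nsmul, h4, h2]; ring⟩

theorem mem (h : Tor B n n' Λ φ) (hl : l ∈ Λ) (h0 : 0 ≤ l) : φ l ∈ B := by
  rcases eq_or_ne l 0 with rfl | e
  exacts [(zero h).2.1, (h.van l hl h0 e).1]

/-- a monomial is a multiple of the smaller ones -/
theorem dvd (h : Tor B n n' Λ φ) (hl : l ∈ Λ) (hl' : l' ∈ Λ) (h0 : l' ≤ l) :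
    ∃ c ∈ B, φ l = c * φ l' := by
  obtain ⟨u, h1, h2⟩ := add h (Λ.sub_mem hl hl') hl'
  exact ⟨_, mul_mem h1.2.1 (mem h (Λ.sub_mem hl hl') (sub_nonneg.2 h0)),
    by rw [mul_assoc, ← h2, sub_add_cancel]⟩

/-- the monomials in `Q` -/
def mon (h : Tor B n n' Λ φ) (hQ : B ≤ Q) : AddSubmonoid (ℤ × ℤ) where
  carrier := {l | l ∈ Λ ∧ φ l ∈ Q}
  zero_mem' := ⟨Λ.zero_mem, hQ (zero h).2.1⟩
  add_mem' := fun {a b} ha hb => ⟨Λ.add_mem ha.1 hb.1, by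
    obtain ⟨u, h1, h2⟩ := add h ha.1 hb.1
    exact h2 ▸ mul_mem (hQ h1.2.1) (mul_mem ha.2 hb.2)⟩

theorem neg (h : Tor B n n' Λ φ) (hl : l ∈ Λ) : ∃ u, Un B u ∧ φ (-l) = u * (φ l)⁻¹ := by
  obtain ⟨u, h1, h2⟩ := add h hl (Λ.neg_mem hl)
  refine ⟨_, (zero h).mul h1.inv, ?_⟩
  rw [← add_neg_cancel l, h2]
  field_simp [ne h hl, h1.1]

/-- constants plus the ideal generated by `x` and `y` -/
def cst (R : Subalgebra ℂ K) (x y : K) (hx : x ∈ R) (hy : y ∈ R) : Subalgebra ℂ K where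
  carrier := {f | ∃ c : ℂ, ∃ a ∈ R, ∃ b ∈ R, f = algebraMap ℂ K c + (a * x + b * y)}
  mul_mem' := by
    rintro _ _ ⟨c, a, ha, b, hb, rfl⟩ ⟨c', a', ha', b', hb', rfl⟩
    have h1 := add_mem (R.algebraMap_mem c') (add_mem (mul_mem ha' hx) (mul_mem hb' hy))
    refine ⟨c * c', _, add_mem (mul_mem ha h1) (mul_mem (R.algebraMap_mem c) ha'), _,
      add_mem (mul_mem hb h1) (mul_mem (R.algebraMap_mem c) hb'), ?_⟩
    rw [map_mul]
    ring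
  add_mem' := by
    rintro _ _ ⟨c, a, ha, b, hb, rfl⟩ ⟨c', a', ha', b', hb', rfl⟩
    refine ⟨c + c', _, add_mem ha ha', _, add_mem hb hb', ?_⟩
    rw [map_add]
    ring
  algebraMap_mem' c := ⟨c, 0, zero_mem _, 0, zero_mem _, by ring⟩

variable {x y f : K}

theorem cst_van (hR : Geo R) (hx : Van R x) (hy : Van R y) (hf : f ∈ cst R x y hx.1 hy.1)
    (h : Van R f) : ∃ a ∈ R, ∃ b ∈ R, f = a * x + b * y := by
  obtain ⟨c, a, ha, b, hb, e⟩ := hf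
  refine ⟨a, ha, b, hb, ?_⟩
  rcases eq_or_ne c 0 with rfl | hc
  · simpa using e
  · have h1 := hR.add h ((hR.add (hx.mul_left ha) (hy.mul_left hb)).mul_left (neg_mem (one_mem R)))
    rw [e, neg_one_mul, add_neg_cancel_right] at h1
    exact (h1.not_un ⟨by simpa using hc, h1.1, map_inv₀ (algebraMap ℂ K) c ▸ R.algebraMap_mem _⟩).elim

theorem cst_inv (hR : Geo R) (hx : Van R x) (hy : Van R y) (hf : f ∈ cst R x y hx.1 hy.1)
    (h : Un R f) : f⁻¹ ∈ cst R x y hx.1 hy.1 := by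
  obtain ⟨c, a, ha, b, hb, e⟩ := hf
  have hc : algebraMap ℂ K c ≠ 0 := fun hc => by
    rw [hc, zero_add] at e
    exact (e ▸ hR.add (hx.mul_left ha) (hy.mul_left hb) : Van R f).not_un h
  have h1 := neg_mem (mul_mem h.2.2 (R.algebraMap_mem c⁻¹))
  refine ⟨c⁻¹, _, mul_mem h1 ha, _, mul_mem h1 hb, ?_⟩
  rw [mul_assoc, mul_assoc, ← mul_add, ← sub_eq_iff_eq_add'.2 e, map_inv₀]
  field_simp [h.1]
  ring

/-- the local rings of the blowing up -/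
theorem two (h : Tor B n n' Λ φ) (hB : Geo B) (hR : Geo R) (hd : Dm B R) {a b : ℤ × ℤ}
    (ha : a ∈ mon h hd.1) (hb : b ∈ mon h hd.1)
    (h1 : ∀ l ∈ Λ, 0 ≤ l → l ∈ AddSubmonoid.closure {a, b}) {G : Set K}
    (hG : Ess ((B : Set K) ∪ G) R) (h2 : ∀ (Q : Subalgebra ℂ K) (hQ : B ≤ Q), a ∈ mon h hQ →
      b ∈ mon h hQ → (∀ f ∈ Q, Un R f → f⁻¹ ∈ Q) → G ⊆ Q) : Two R := by
  obtain ⟨a₀, hx⟩ := hR.val ha.2
  obtain ⟨b₀, hy⟩ := hR.val hb.2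
  have q1 : φ a ∈ cst R _ _ hx.1 hy.1 := ⟨a₀, 1, one_mem _, 0, zero_mem _, by ring⟩
  have q2 : φ b ∈ cst R _ _ hx.1 hy.1 := ⟨b₀, 0, zero_mem _, 1, one_mem _, by ring⟩
  have q3 : B ≤ cst R _ _ hx.1 hy.1 := fun f hf => by
    obtain ⟨c, hc⟩ := hB.val hf
    suffices H : ∃ a' ∈ R, ∃ b' ∈ R, f - algebraMap ℂ K c = a' * (φ a - algebraMap ℂ K a₀) +
        b' * (φ b - algebraMap ℂ K b₀) by
      obtain ⟨a', ha', b', hb', e⟩ := H
      exact ⟨c, a', ha', b', hb', sub_eq_iff_eq_add'.1 e⟩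
    refine Submodule.span_induction (p := fun g _ => ∃ a' ∈ R, ∃ b' ∈ R,
      g = a' * (φ a - algebraMap ℂ K a₀) + b' * (φ b - algebraMap ℂ K b₀)) ?_
      ⟨0, zero_mem _, 0, zero_mem _, by ring⟩ ?_ ?_ (h.gen _ hc)
    · rintro _ ⟨l, ⟨l1, l2, l3⟩, rfl⟩
      obtain ⟨i, j, rfl⟩ := (AddSubmonoid.mem_closure_pair _ _ _).1 (h1 l l1 l2)
      obtain ⟨u, u1, u2⟩ := add h (Λ.nsmul_mem ha.1 i) (Λ.nsmul_mem hb.1 j)
      obtain ⟨v, v1, v2⟩ := pow h ha.1 i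
      obtain ⟨w, w1, w2⟩ := pow h hb.1 j
      have t1 := (u1.mul (v1.mul w1)).mono hd.1
      have e : φ (i • a + j • b) = u * (v * w) * (φ a ^ i * φ b ^ j) := by rw [u2, v2, w2]; ring
      have t2 := (hd.van (h.van _ l1 l2 l3)).mul_left t1.2.2
      rw [e, inv_mul_cancel_left₀ t1.1] at t2
      obtain ⟨a', ha', b', hb', e'⟩ := cst_van hR hx hy (mul_mem (pow_mem q1 i) (pow_mem q2 j)) t2
      exact ⟨_, mul_mem t1.2.1 ha', _, mul_mem t1.2.1 hb', by rw [e, e']; ring⟩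
    · rintro _ _ - - ⟨a', ha', b', hb', rfl⟩ ⟨a'', ha'', b'', hb'', rfl⟩
      exact ⟨_, add_mem ha' ha'', _, add_mem hb' hb'', by ring⟩
    · rintro c _ - ⟨a', ha', b', hb', rfl⟩
      exact ⟨_, mul_mem (hd.1 c.2) ha', _, mul_mem (hd.1 c.2) hb', by
        rw [Subalgebra.smul_def, smul_eq_mul]; ring⟩
  have q4 : Algebra.adjoin ℂ ((B : Set K) ∪ G) ≤ cst R _ _ hx.1 hy.1 := Algebra.adjoin_le
    (Set.union_subset q3 (h2 _ q3 ⟨ha.1, q1⟩ ⟨hb.1, q2⟩ fun f => cst_inv hR hx hy))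
  refine ⟨_, _, hx, hy, fun f hf => cst_van hR hx hy ?_ hf⟩
  obtain ⟨s, hs, t, ht, h3, h4⟩ := hG.2 f hf.1
  rw [← mul_inv_cancel_right₀ h3.1 f, h4]
  exact mul_mem (q4 hs) (cst_inv hR hx hy (q4 ht) h3)

end TorP

open TorP

theorem tor (hC : COMB) : TOR := by
  classical
  intro K _ _ B n n' Λ φ hB n0 n1 h
  have N0 := Nat.mul_pos n0 n1
  have a1 : (((n * n' : ℕ) : ℤ), (0 : ℤ)) ∈ Λ := by
    simpa [mul_comm] using Λ.nsmul_mem h.fst n'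
  have a2 : ((0 : ℤ), ((n * n' : ℕ) : ℤ)) ∈ Λ := by simpa using Λ.nsmul_mem h.snd n
  generalize n * n' = N at N0 a1 a2
  obtain ⟨E, e1, e2⟩ := hC Λ N N0 a1 a2
  let p : (E → Fin (N + 1)) → ℤ × ℤ := fun j =>
    ∑ e : E, ((-e.1.1) • ((N : ℤ), (0 : ℤ)) + (j e : ℕ) • e.1)
  have p1 : ∀ j, p j ∈ Λ := fun j => Λ.sum_mem fun e _ =>
    Λ.add_mem (Λ.zsmul_mem a1 _) (Λ.nsmul_mem (e1 _ e.2).1 _)
  have p2 : ∀ j, 0 ≤ p j := fun j => Finset.sum_nonneg fun e _ => by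
    have := (e1 _ e.2).2
    have h1 : ((j e : ℕ) : ℤ) ≤ N := by exact_mod_cast (j e).is_le
    constructor
    · rw [Prod.fst_add, Prod.smul_fst, Prod.smul_fst, smul_eq_mul, nsmul_eq_mul, Prod.fst_zero]
      nlinarith [this.1]
    · rw [Prod.snd_add, Prod.smul_snd, Prod.smul_snd, smul_eq_mul, nsmul_eq_mul, Prod.snd_zero]
      nlinarith [this.2, (j e : ℕ).cast_nonneg (α := ℤ)]
  refine ⟨Finset.univ.image fun j => φ (p j), fun t ht => ?_, fun f hf => ?_,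
    fun t ht _ R hR hd hE => ?_⟩
  · obtain ⟨j, -, rfl⟩ := Finset.mem_image.1 ht
    exact mem h (p1 j) (p2 j)
  · set I := (Submodule.span B ((Finset.univ.image fun j => φ (p j) : Finset K) : Set K)).comap
      (Algebra.linearMap B K)
    have h1 : Submodule.span B (φ '' {l | l ∈ Λ ∧ 0 ≤ l ∧ l ≠ 0}) ≤
        Submodule.map (Algebra.linearMap B K) (Ideal.radical I) := by
      rw [Submodule.span_le]
      rintro _ ⟨l, ⟨l1, l2, l3⟩, rfl⟩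
      obtain ⟨j, k, hk⟩ : ∃ (j : E → Fin (N + 1)) (k : ℕ), p j ≤ k • l := by
        have l4 : 0 ≤ l.1 := l2.1
        have l5 : 0 ≤ l.2 := l2.2
        rcases l4.eq_or_lt with o | o
        · have l6 : 0 < l.2 := l5.lt_of_ne fun o' => l3 (Prod.ext o.symm o'.symm)
          refine ⟨fun _ => Fin.last N, (p fun _ => Fin.last N).2.toNat, ?_, ?_⟩
          · simp [p, Prod.fst_sum, ← o, mul_comm]
          · rw [Prod.smul_snd, nsmul_eq_mul, Int.toNat_of_nonneg (p2 _).2]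
            exact le_mul_of_one_le_right (p2 _).2 l6
        · refine ⟨0, (p 0).1.toNat, ?_, ?_⟩
          · rw [Prod.smul_fst, nsmul_eq_mul, Int.toNat_of_nonneg (p2 _).1]
            exact le_mul_of_one_le_right (p2 _).1 o
          · rw [Prod.smul_snd, show (p 0).2 = 0 by simp [p, Prod.snd_sum]]
            exact nsmul_nonneg l5 _
      obtain ⟨c, c1, c2⟩ := dvd h (Λ.nsmul_mem l1 k) (p1 j) hk
      obtain ⟨u, u1, u2⟩ := pow h l1 k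
      refine ⟨⟨_, mem h l1 l2⟩, ⟨k, ?_⟩, rfl⟩
      have e : φ l ^ k = (⟨_, mul_mem u1.2.2 c1⟩ : B) • φ (p j) := by
        rw [Subalgebra.smul_def, smul_eq_mul, mul_assoc, ← c2, u2, inv_mul_cancel_left₀ u1.1]
      change φ l ^ k ∈ Submodule.span B _
      exact e ▸ Submodule.smul_mem _ _ (Submodule.subset_span (by simp))
    obtain ⟨x, ⟨k, hk⟩, rfl⟩ := h1 (h.gen f hf)
    exact ⟨k, hk⟩
  · obtain ⟨j, -, rfl⟩ := Finset.mem_image.1 ht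
    have d : ∀ j', ∃ u, Un B u ∧
        φ (p j') / φ (p j) = u * φ (∑ e : E, (((j' e : ℕ) : ℤ) - (j e : ℕ)) • e.1) := fun j' => by
      have e : p j' = ∑ e : E, (((j' e : ℕ) : ℤ) - (j e : ℕ)) • e.1 + p j := by
        simp only [p, ← Finset.sum_add_distrib, sub_smul, natCast_zsmul]
        exact Finset.sum_congr rfl fun e _ => by abel
      obtain ⟨u, u1, u2⟩ := add h (Λ.sum_mem fun (e : E) (_ : e ∈ Finset.univ) =>
        Λ.zsmul_mem (e1 _ e.2).1 (((j' e : ℕ) : ℤ) - (j e : ℕ))) (p1 j)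
      exact ⟨u, u1, by rw [e, u2, ← mul_assoc, mul_div_cancel_right₀ _ (ne h (p1 j))]⟩
    have s : ∀ (e : E) (i : Fin (N + 1)), (((i : ℕ) : ℤ) - (j e : ℕ)) • e.1 ∈ mon h hd.1 := fun e i => by
      obtain ⟨u, u1, u2⟩ := d (Function.update j e i)
      rw [Finset.sum_eq_single e (fun e' _ he => by simp [he]) (by simp), Function.update_self] at u2
      refine ⟨Λ.zsmul_mem (e1 _ e.2).1 _, ?_⟩
      rw [← inv_mul_cancel_left₀ u1.1 (φ _), ← u2]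
      exact mul_mem (hd.1 u1.2.2) (hE.1 _ (.inr ⟨_, by simp, rfl⟩))
    have s1 : ∀ e : E, (j e : ℕ) < N → e.1 ∈ mon h hd.1 := fun e o => by
      simpa using s e ⟨j e + 1, by omega⟩
    have s2 : ∀ e : E, 0 < (j e : ℕ) → -e.1 ∈ mon h hd.1 := fun e o => by
      simpa [Nat.cast_sub o] using s e ⟨j e - 1, by omega⟩
    obtain ⟨a, ha, b, hb, -, -, c1, c2⟩ := e2 (mon h hd.1)
      (fun l hl h0 => ⟨hl, hd.1 (mem h hl h0)⟩) fun e he =>
        (Nat.eq_zero_or_pos (j ⟨e, he⟩)).elim (fun o => .inl (s1 ⟨e, he⟩ (by omega)))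
          fun o => .inr (s2 ⟨e, he⟩ o)
    refine two h hB hR hd ha hb c1 hE fun Q hQ qa qb hi => ?_
    have k : AddSubmonoid.closure {a, b} ≤ mon h hQ :=
      AddSubmonoid.closure_le.2 (Set.pair_subset qa qb)
    have k1 : ∀ l, l ∈ mon h hd.1 → -l ∈ mon h hd.1 → l ∈ mon h hQ → -l ∈ mon h hQ :=
      fun l l1 l2 l3 => by
        obtain ⟨u, u1, u2⟩ := neg h l1.1
        refine ⟨l2.1, u2 ▸ mul_mem (hQ u1.2.1) (hi _ l3.2 ⟨ne h l1.1, l1.2, ?_⟩)⟩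
        rw [← inv_mul_cancel_left₀ u1.1 (φ l)⁻¹, ← u2]
        exact mul_mem (hd.1 u1.2.2) l2.2
    have k2 : AddSubmonoid.closure {a, b} ≤ mon h hd.1 :=
      AddSubmonoid.closure_le.2 (Set.pair_subset ha hb)
    rintro _ ⟨t, ht, rfl⟩
    obtain ⟨j', -, rfl⟩ := Finset.mem_image.1 ht
    obtain ⟨u, u1, u2⟩ := d j'
    refine (congrArg (· ∈ Q) u2).mpr (mul_mem (hQ u1.2.1) (And.right (a := _ ∈ Λ)
      ((mon h hQ).sum_mem fun e _ => ?_)))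
    have := (j' e).is_le
    rcases lt_trichotomy (j e : ℕ) (j' e) with o | o | o
    · rw [← Nat.cast_sub o.le, natCast_zsmul]
      refine nsmul_mem ((c2 _ e.2).elim (@k _) fun o' => ?_) _
      simpa using k1 _ (k2 o') (by simpa using s1 e (by omega)) (k o')
    · simp [o, zero_mem]
    · rw [← neg_sub, ← Nat.cast_sub o.le, neg_smul, ← smul_neg, natCast_zsmul]
      exact nsmul_mem ((c2 _ e.2).elim (fun o' => k1 _ (k2 o') (s2 e (by omega)) (k o')) (@k _)) _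

theorem tor1 : TOR1 := by
  classical
  intro K _ _ B n Λ φ n0 h
  have ex : ∃ k : ℕ, 0 < k ∧ ((k : ℤ), (0 : ℤ)) ∈ Λ := ⟨n, n0, h.fst⟩
  obtain ⟨k0, k1⟩ := Nat.find_spec ex
  have k2 : ((0 : ℤ), (1 : ℤ)) ∈ Λ := by simpa using h.snd
  refine ⟨_, _, h.van _ k1 ⟨by simp, le_rfl⟩ (by simpa using k0.ne'),
    h.van _ k2 ⟨le_rfl, zero_le_one⟩ (by simp), fun f hf => ?_⟩
  have h1 : Submodule.span B (φ '' {l | l ∈ Λ ∧ 0 ≤ l ∧ l ≠ 0}) ≤
      Submodule.span B {φ (Nat.find ex, 0), φ (0, 1)} := by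
    rw [Submodule.span_le]
    rintro _ ⟨l, ⟨l1, l2, l3⟩, rfl⟩
    have l4 : 0 ≤ l.1 := l2.1
    have l5 : 0 ≤ l.2 := l2.2
    rcases l5.eq_or_lt with o | o
    · have l6 : 0 < l.1 := l4.lt_of_ne fun o' => l3 (Prod.ext o'.symm o.symm)
      have l7 := Nat.find_min' ex (m := l.1.toNat) ⟨by omega, by
        rw [Int.toNat_of_nonneg l4, o]; exact l1⟩
      obtain ⟨c, c1, c2⟩ := dvd h l1 k1 ⟨by simp only; omega, l5⟩
      exact c2 ▸ Submodule.smul_mem _ (⟨c, c1⟩ : B) (Submodule.subset_span (by simp))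
    · obtain ⟨c, c1, c2⟩ := dvd h l1 k2 ⟨l4, o⟩
      exact c2 ▸ Submodule.smul_mem _ (⟨c, c1⟩ : B) (Submodule.subset_span (by simp))
  obtain ⟨a, b, e⟩ := Submodule.mem_span_pair.1 (h1 (h.gen f hf))
  exact ⟨a, a.2, b, b.2, e.symm⟩

end Vale.Agent.P253Y.Res
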