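import Vale.Agent.P253Y.Res.Asm
import Vale.Agent.P253Y.Res.TT
import Vale.Agent.P253Y.Res.Reg
import Vale.Agent.P253Y.Res.Derz
import Vale.Agent.P253Y.Res.Blow
import Vale.Agent.P253Y.Res.Tan
import Vale.Agent.P253Y.Res.Snc
import Vale.Agent.P253Y.Res.Dom
import Vale.Agent.P253Y.Res.Mono
import Vale.Agent.P253Y.Res.Plane
import Vale.Agent.P253Y.Res.Nrm
import Vale.Agent.P253Y.Res.Mod
import Vale.Agent.P253Y.Res.Comb
import Vale.Agent.P253Y.Res.Tor
import Vale.Agent.P253Y.Res.Proj
import Vale.Agent.P253Y.Res.Abh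
import Vale.Agent.P253Y.Res.Root
import Vale.Agent.P253Y.Res.Free
import Vale.Agent.P253Y.Res.Pur
import Vale.Agent.P253Y.Res.Kum
import Vale.Agent.P253Y.Res.Locq
import Vale.Agent.P253Y.Res.Cent
import Vale.Agent.P253Y.Res.Con1
import Vale.Agent.P253Y.Res.Neg
import Vale.Agent.P253Y.Res.Con2

/-! Resolution of singularities of surfaces. -/

namespace Vale.Agent.P253Y.Res

theorem sncAll : SNC := snc blow tan

theorem domAll : DOM := dom blow

theorem ttAll : TT := tt reg (abh reg) proj root rads (pur reg (free reg)) kum locq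

theorem conAll : CON := con (con1 (con0 reg cent) (neg cent) (krel reg derz cent)) (con2 cent)

theorem weak : WEAK := weak_of reg cover (mono sncAll) plane ram nrm mod (tor comb) tor1 ttAll

theorem res : RES := res_of weak two domAll finc conAll sncAll

end Vale.Agent.P253Y.Res
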