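import Vale.Agent.P253Y.Res.Defs

/-! Resolution of singularities of surfaces: the statements of the blocks. -/

set_option linter.all false

open IsLocalRing Polynomial

namespace Vale.Agent.P253Y.Res

open Vale.Agent.P297Z Vale.Agent.P297Z.Sf

/-- A statement for all fields of transcendence degree two. -/
def For2 (P : ∀ (K : Type) [Field K] [Algebra ℂ K], Prop) : Prop :=
  ∀ (K : Type) [Field K] [Algebra ℂ K], Algebra.trdeg ℂ K = 2 → P K

/-- A statement for all finite extensions. -/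
def ForExt (P : ∀ (L K : Type) [Field L] [Field K] [Algebra ℂ L] [Algebra ℂ K] [Algebra L K]
    [IsScalarTower ℂ L K] [FiniteDimensional L K], Prop) : Prop :=
  ∀ (L K : Type) [Field L] [Field K] [Algebra ℂ L] [Algebra ℂ K] [Algebra L K]
    [IsScalarTower ℂ L K] [FiniteDimensional L K], P L K

/-! ### The targets -/

/-- Every function field of two variables has a smooth projective model. -/
def WEAK : Prop := For2 fun K _ _ => ∀ A : Subalgebra ℂ K, Algebra.FiniteType ℂ A →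
  IsFractionRing A K → Nonempty (Surf K)

/-- A smooth separated surface is the complement of a divisor with normal crossings in a smooth
projective surface. -/
def RES : Prop := For2 fun K _ _ => ∀ (I : Type) [Finite I] [Nonempty I]
  (A : I → Subalgebra ℂ K), (∀ i, Algebra.FiniteType ℂ (A i)) → (∀ i, IsFractionRing (A i) K) →
  (∀ i (m : Ideal (A i)) (hm : m.IsMaximal), IsRegularLocalRing (loc (A i) m hm.isPrime)) →
  (∀ i j (m : Ideal (A i)) (hm : m.IsMaximal) (m' : Ideal (A j)) (hm' : m'.IsMaximal)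
    (V : ValuationSubring K), Ct.Dom (loc (A i) m hm.isPrime) V →
      Ct.Dom (loc (A j) m' hm'.isPrime) V → loc (A i) m hm.isPrime = loc (A j) m' hm'.isPrime) →
  ∃ (S : Surf K) (D : Finset (Crv S.W)), Snc S D ∧ ∀ O : Subalgebra ℂ K,
    (∃ x : Pt S.W, Off D x ∧ x.ring = O) ↔
      ∃ (i : I) (m : Ideal (A i)) (hm : m.IsMaximal), loc (A i) m hm.isPrime = O

/-! ### Regular local rings -/

/-- The primes of a local ring with two parameters. -/
def REG : Prop := For2 fun K _ _ => ∀ (O : Subalgebra ℂ K) (u v : O), Geo O → Par O u v →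
  Reg O u v

/-- A regular local ring has two parameters. -/
def TWO : Prop := For2 fun K _ _ => ∀ O : Subalgebra ℂ K, Geo O → IsRegularLocalRing O → Two O

/-- It is enough to check the regularity at the closed points. -/
def COVER : Prop := For2 fun K _ _ => ∀ W : Submodule ℂ K, Mdl W →
  (∀ x : Pt W, Two x.ring) → IsModel W

/-- The vector fields dual to the parameters are regular. -/
def DERZ : Prop := For2 fun K _ _ => ∀ (O : Subalgebra ℂ K) (u v : K), Geo O → Par O u v →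
  AlgebraicIndependent ℂ ![u, v] ∧ ∃ δ₁ δ₂ : Derivation ℂ K K, (∀ f ∈ O, δ₁ f ∈ O) ∧
    (∀ f ∈ O, δ₂ f ∈ O) ∧ wedge u v δ₁ δ₂ = 1

/-! ### Blowing up smooth surfaces -/

/-- The blowing up of a point. -/
def BLOW : Prop := ForAll fun {K} _ _ S => ∀ x : Pt S.W, ∃ S' : Surf K, Nonempty (Blow S S' x)

/-- Tangent smooth branches meet on the blowing up. -/
def TAN : Prop := ForAll fun {K} _ _ S => ∀ (S' : Surf K) (x : Pt S.W) (b : Blow S S' x)
  (C₁ C₂ : Crv S.W) (t₁ t₂ : x.ring), C₁ ≠ C₂ → x.On C₁ → x.On C₂ → 0 < C₁.ord t₁ →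
  0 < C₂.ord t₂ → t₁ ∉ maximalIdeal x.ring ^ 2 → t₂ ∉ maximalIdeal x.ring ^ 2 →
  maximalIdeal x.ring ≠ Ideal.span {t₁, t₂} →
  ∃ y, b.π y = x ∧ y.On (b.ι C₁) ∧ y.On (b.ι C₂)

/-- Embedded resolution of curves. -/
def SNC : Prop := ForAll fun {K} _ _ S => ∀ (D : Finset (Crv S.W)) (P : Finset (Pt S.W)),
  ∃ (S' : Surf K) (D' : Finset (Crv S'.W)), Snc S' D' ∧
    (∀ C' : Crv S'.W, C' ∉ D' → ∃ C : Crv S.W, C ∉ D ∧ C.pl = C'.pl) ∧
    (∀ O : Subalgebra ℂ K, (∃ y : Pt S'.W, Off D' y ∧ y.ring = O) ↔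
      ∃ x : Pt S.W, Off D x ∧ x ∉ P ∧ x.ring = O) ∧
    ∃ π : Pt S'.W → Pt S.W, Dominates π

/-- The elimination of the points of indeterminacy. -/
def DOM : Prop := ForAll fun {K} _ _ S => ∀ W : Submodule ℂ K, FiniteDimensional ℂ W → W ≠ ⊥ →
  ∃ (S' : Surf K) (π : Pt S'.W → Pt S.W), Dominates π ∧
    ∀ y : Pt S'.W, ∃ w ∈ W, w ≠ 0 ∧ ∀ a ∈ W, a / w ∈ y.ring

/-- The poles of finitely many functions are put in normal crossings. -/
def MONO : Prop := ForAll fun {K} _ _ _ => ∀ G : Finset K,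
  ∃ (S' : Surf K) (P : Finset (Pt S'.W)), ∀ y : Pt S'.W, ∃ u v, Par y.ring u v ∧
    (∀ g ∈ G, ∃ N : ℕ, (u * v) ^ N * g ∈ y.ring) ∧
    (y ∉ P → ∀ g ∈ G, ∃ N : ℕ, u ^ N * g ∈ y.ring)

/-! ### The projection to the plane -/

/-- The plane. -/
def PLANE : Prop := For2 fun K _ _ => ∀ A : Subalgebra ℂ K, Algebra.FiniteType ℂ A →
  IsFractionRing A K → ∃ L : IntermediateField ℂ K, FiniteDimensional L K ∧ Nonempty (Surf L)

/-- The branch locus. -/
def RAM : Prop := ForExt fun L K _ _ _ _ _ _ _ => ∃ G : Finset L,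
  ∀ (A : Subalgebra ℂ L), ∀ g ∈ A, g ≠ 0 → (∀ c ∈ G, ∃ N : ℕ, g ^ N * c ∈ A) → Ram K A g

/-- The normalisation of a model in a finite extension. -/
def NRM : Prop := ForExt fun L K _ _ _ _ _ _ _ => ∀ W : Submodule ℂ L, Mdl W →
  ∃ W' : Submodule ℂ K, Mdl W' ∧ ∃ π : Pt W' → Pt W, (∀ y, {x | π x = y}.Finite) ∧
    ∀ x, ∃ (q : Ideal (icl K (π x).ring)) (hq : q.IsMaximal), x.ring = loc _ q hq.isPrime

/-- The blowing up of a primary ideal at one point. -/
def MOD : Prop := For2 fun K _ _ => ∀ W : Submodule ℂ K, Mdl W →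
  ∀ x : Pt W, Good x.ring → ∃ W' : Submodule ℂ K, Mdl W' ∧
    ∀ z : Pt W', Two z.ring ∨ ∃ y : Pt W, y ≠ x ∧ z.ring = y.ring

/-! ### Toric singularities -/

/-- A smooth subdivision of the quadrant. -/
def COMB : Prop := ∀ (Λ : AddSubgroup (ℤ × ℤ)) (n : ℕ), 0 < n → ((n : ℤ), (0 : ℤ)) ∈ Λ →
  ((0 : ℤ), (n : ℤ)) ∈ Λ → ∃ E : Finset (ℤ × ℤ), (∀ e ∈ E, e ∈ Λ ∧ e.1 < 0 ∧ 0 < e.2) ∧
    ∀ M : AddSubmonoid (ℤ × ℤ), (∀ l ∈ Λ, 0 ≤ l → l ∈ M) → (∀ e ∈ E, e ∈ M ∨ -e ∈ M) →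
      ∃ a ∈ M, ∃ b ∈ M, a ∈ Λ ∧ b ∈ Λ ∧
        (∀ l ∈ Λ, 0 ≤ l → l ∈ AddSubmonoid.closure {a, b}) ∧
        ∀ e ∈ E, e ∈ AddSubmonoid.closure {a, b} ∨ -e ∈ AddSubmonoid.closure {a, b}

/-- The resolution of a toric singularity. -/
def TOR : Prop := ∀ (K : Type) [Field K] [Algebra ℂ K] (B : Subalgebra ℂ K) (n n' : ℕ)
  (Λ : AddSubgroup (ℤ × ℤ)) (φ : ℤ × ℤ → K), Geo B → 0 < n → 0 < n' → Tor B n n' Λ φ → Good B

/-- The smooth case. -/
def TOR1 : Prop := ∀ (K : Type) [Field K] [Algebra ℂ K] (B : Subalgebra ℂ K) (n : ℕ)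
  (Λ : AddSubgroup (ℤ × ℤ)) (φ : ℤ × ℤ → K), 0 < n → Tor B n 1 Λ φ → Two B

/-! ### The local structure of a covering with normal crossing branch locus -/

/-- The Kummer extension. -/
def PROJ : Prop := ∀ (K : Type) [Field K] [Algebra ℂ K] (u v : K) (n n' : ℕ), u ≠ 0 → v ≠ 0 →
  0 < n → 0 < n' → ∃ (K' : Type) (_ : Field K') (_ : Algebra ℂ K') (_ : Algebra K K')
    (_ : IsScalarTower ℂ K K') (_ : FiniteDimensional K K'), Nonempty (Kum K K' u v n n')

/-- The ramification indices. -/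
def ABH : Prop := ForExt fun L K _ _ _ _ _ _ _ => Algebra.trdeg ℂ L = 2 →
  ∀ (A : Subalgebra ℂ L) (u v : L), Geo A → Par A u v →
    ∃ n₀ : ℕ, 0 < n₀ ∧ ∀ n, n₀ ∣ n → Abh K A u v n

/-- The lemma of Abhyankar. -/
def RADS : Prop := ForExt fun L K _ _ _ _ _ _ _ => ∀ (K' : Type) [Field K'] [Algebra ℂ K']
  [Algebra K K'] [IsScalarTower ℂ K K'] [Algebra L K'] [IsScalarTower L K K']
  (A : Subalgebra ℂ L) (u v : L) (n n' : ℕ)
  (k : Kum K K' (algebraMap L K u) (algebraMap L K v) n n'), u ∈ A → 0 < n → n' ∣ n →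
  Abh K A u v n → RadI A k.s

/-- Adjunction of roots of the parameters. -/
def ROOT : Prop := ForExt fun L L' _ _ _ _ _ _ _ => ∀ (A : Subalgebra ℂ L) (u v : L) (s t : L')
  (n n' : ℕ), Geo A → Par A u v → 0 < n → 0 < n' → s ^ n = algebraMap L L' u →
  t ^ n' = algebraMap L L' v → IntermediateField.adjoin L {s, t} = ⊤ →
  ∃ A' : Subalgebra ℂ L', Geo A' ∧ Par A' s t ∧ (∀ a ∈ A, algebraMap L L' a ∈ A') ∧
    ∀ f ∈ A', IsIntegral A f

/-- The integral closure of a regular local ring of dimension two is free. -/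
def FREE : Prop := ForExt fun L K _ _ _ _ _ _ _ => Algebra.trdeg ℂ L = 2 →
  ∀ (A : Subalgebra ℂ L), Geo A → Two A →
    Module.Finite A (integralClosure A K) ∧ Module.Free A (integralClosure A K)

/-- The purity of the branch locus. -/
def PUR : Prop := ForExt fun L K _ _ _ _ _ _ _ => Algebra.trdeg ℂ L = 2 →
  ∀ (A : Subalgebra ℂ L) (s t : L), Geo A → Par A s t → RadI A (algebraMap L K s) →
    (Ram K A s ∨ (Ram K A (s * t) ∧ RadI A (algebraMap L K t))) →
    Rad2 A (algebraMap L K s) (algebraMap L K t)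

/-- Descent from the Kummer extension. -/
def KUM : Prop := ForExt fun K K' _ _ _ _ _ _ _ => ∀ (B : Subalgebra ℂ K) (u v : K) (n n' : ℕ)
  (k : Kum K K' u v n n'), Geo B → (∀ f : K, IsIntegral B f → f ∈ B) → Van B u → Van B v →
  (∀ f, Van B f → ∃ j : ℕ, ∃ a ∈ B, ∃ b ∈ B, f ^ j = u * a + v * b) → 0 < n → n' ∣ n →
  Rad2 B k.s k.t → ∃ Λ φ, Tor B n n' Λ φ

/-- From the integral closure to its local rings. -/
def LOCQ : Prop := ForExt fun L K _ _ _ _ _ _ _ => ∀ (A : Subalgebra ℂ L) (u v : L), Geo A →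
  Par A u v → ∀ (q : Ideal (icl K A)) (hq : q.IsMaximal) (B : Subalgebra ℂ K),
  B = loc _ q hq.isPrime → (∀ f : K, IsIntegral B f → f ∈ B) ∧ Van B (algebraMap L K u) ∧
    Van B (algebraMap L K v) ∧ (∀ f, Van B f → ∃ j : ℕ, ∃ a ∈ B, ∃ b ∈ B,
      f ^ j = algebraMap L K u * a + algebraMap L K v * b) ∧
    ∀ (K' : Type) [Field K'] [Algebra ℂ K'] [Algebra K K'] [IsScalarTower ℂ K K'] [Algebra L K']
      [IsScalarTower L K K'] (s t : K'), Rad2 A s t → Rad2 B s t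

/-- The singularities of the covering are toric. -/
def TT : Prop := ForExt fun L K _ _ _ _ _ _ _ => Algebra.trdeg ℂ L = 2 →
  ∀ (A : Subalgebra ℂ L) (u v : L), Geo A → Par A u v →
  ∀ (q : Ideal (icl K A)) (hq : q.IsMaximal), Geo (loc _ q hq.isPrime) →
    (Ram K A (u * v) → ∃ n Λ φ, 0 < n ∧ Tor (loc _ q hq.isPrime) n n Λ φ) ∧
    (Ram K A u → ∃ n Λ φ, 0 < n ∧ Tor (loc _ q hq.isPrime) n 1 Λ φ)

/-! ### Contraction of the curves over regular points -/

/-- The centres of valuations on a surface. -/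
def CENT : Prop := ForAll fun S => Cent S

/-- Finitely many curves are contracted. -/
def FINC : Prop := ForAll fun {K} _ _ S => ∀ A : Subalgebra ℂ K, Algebra.FiniteType ℂ A →
  IsFractionRing A K → {C : Crv S.W | ∃ (m : Ideal A) (hm : m.IsMaximal),
    Ct.Dom (loc A m hm.isPrime) C.pl.ring}.Finite

/-- If `z` is not a point of `S`, some curve is contracted to `z`. -/
def CON0 : Prop := ForAll fun {K} _ _ S => ∀ z : Subalgebra ℂ K, Geo z → Two z → Over S z →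
  (∀ x : Pt S.W, x.ring ≠ z) → ∃ C : Crv S.W, Ct.Dom z C.pl.ring

/-- A divisor with support on the contracted curves that is negative on all of them. -/
def NEG : Prop := ForAll fun {K} _ _ S => ∀ z : Subalgebra ℂ K, Geo z → Over S z →
  ∃ F : Sf.Div S.W, (∀ C, Ct.Dom z C.pl.ring → 0 < F C ∧ inter F (Finsupp.single C 1) < 0) ∧
    ∀ C, ¬ Ct.Dom z C.pl.ring → F C = 0

/-- The relative canonical divisor. -/
def KREL : Prop := ForAll fun {K} _ _ S => ∀ z : Subalgebra ℂ K, Geo z → Two z → Over S z →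
  ∃ Z : Sf.Div S.W, (∀ C, Ct.Dom z C.pl.ring → 0 < Z C ∧
      inter S.kap (Finsupp.single C 1) = inter Z (Finsupp.single C 1)) ∧
    ∀ C, ¬ Ct.Dom z C.pl.ring → Z C = 0

/-- An exceptional curve is contracted to `z`. -/
def CON1 : Prop := ForAll fun {K} _ _ S => ∀ z : Subalgebra ℂ K, Geo z → Two z → Over S z →
  (∀ x : Pt S.W, x.ring ≠ z) → ∃ E : Crv S.W, Ct.Dom z E.pl.ring ∧ IsExc S E

/-- The contraction of a curve over `z`. -/
def CON2 : Prop := ForAll fun {K} _ _ S => ∀ (S' : Surf K) (E : Crv S.W), Contr S S' E →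
  ∀ z z' : Subalgebra ℂ K, Geo z → Geo z' → Over S z → Over S z' → Ct.Dom z E.pl.ring →
  (∀ V : ValuationSubring K, Ct.Dom z V → Ct.Dom z' V → z = z') → Over S' z'

/-- All the regular points of a separated family become points of a surface. -/
def CON : Prop := ForAll fun {K} _ _ S => ∀ M : Set (Subalgebra ℂ K),
  (∀ z ∈ M, Geo z ∧ Two z ∧ Over S z) →
  (∀ z ∈ M, ∀ z' ∈ M, ∀ V : ValuationSubring K, Ct.Dom z V → Ct.Dom z' V → z = z') →
  {C : Crv S.W | ∃ z ∈ M, Ct.Dom z C.pl.ring}.Finite →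
  ∃ S' : Surf K, ∀ z ∈ M, ∃ x : Pt S'.W, x.ring = z

end Vale.Agent.P253Y.Res
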